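import Mathlib

/-!
# Alternating sums over subsets (finite differences)

For a polynomial `P` of degree at most `|K|`,
`∑_{S ⊆ K} (-1)^{|S|} P(c + ∑_{i∈S} a_i) = (-1)^{|K|} |K|! coeff_{|K|}(P) ∏ a_i`.
-/

set_option autoImplicit false
open Finset Polynomial

namespace Crest.Agent.R039.Alt

variable {ι R : Type*} [CommRing R]

/-- coefficient of a Taylor shift, one below the degree bound -/
lemma coeff_taylor_of_natDegree_le (a : R) (P : R[X]) (n : ℕ) (hP : P.natDegree ≤ n + 1) :
    (taylor a P).coeff n = P.coeff n + ((n : R) + 1) * a * P.coeff (n + 1) := by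
  have h2 : (hasseDeriv n P).natDegree < 2 := by
    refine lt_of_le_of_lt (natDegree_hasseDeriv_le P n) ?_
    omega
  rw [taylor_coeff, eval_eq_sum_range' h2, Finset.sum_range_succ, Finset.sum_range_one,
    hasseDeriv_coeff, hasseDeriv_coeff]
  have h3 : (1 + n).choose n = n + 1 := by
    rw [add_comm 1 n]; exact Nat.choose_succ_self_right n
  rw [h3]
  simp only [zero_add, Nat.choose_self, pow_zero, pow_one, Nat.cast_one, add_comm 1 n]
  push_cast
  ring

/-- The finite difference has smaller degree. -/
lemma natDegree_sub_taylor_le (a : R) (P : R[X]) (n : ℕ) (hP : P.natDegree ≤ n + 1) :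
    (P - taylor a P).natDegree ≤ n := by
  rw [natDegree_le_iff_coeff_eq_zero]
  intro N hN
  rw [coeff_sub]
  by_cases h : N = n + 1
  · subst h
    rw [coeff_taylor_of_natDegree_le a P (n + 1) (by omega)]
    rw [coeff_eq_zero_of_natDegree_lt (lt_of_le_of_lt hP (Nat.lt_succ_self _))]
    ring
  · have h1 : P.natDegree < N := by omega
    rw [coeff_eq_zero_of_natDegree_lt h1, coeff_eq_zero_of_natDegree_lt (by rwa [natDegree_taylor])]
    ring

/-- **Alternating sums of a polynomial over the subset sums of `K`.** -/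
theorem sum_powerset_eval [DecidableEq ι] (a : ι → R) (K : Finset ι) (P : R[X])
    (hP : P.natDegree ≤ K.card) (c : R) :
    ∑ S ∈ K.powerset, (-1 : R) ^ S.card * P.eval (c + ∑ i ∈ S, a i) =
      (-1) ^ K.card * (K.card.factorial : R) * P.coeff K.card * ∏ i ∈ K, a i := by
  induction K using Finset.induction_on generalizing P c with
  | empty =>
    have h0 : P = C (P.coeff 0) := eq_C_of_natDegree_le_zero (by simpa using hP)
    rw [h0]
    simp
  | insert i K hi ih =>
    rw [Finset.sum_powerset_insert hi]
    have hstep : ∀ S ∈ K.powerset, (-1 : R) ^ (insert i S).card * P.eval (c + ∑ j ∈ insert i S, a j)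
        = - ((-1 : R) ^ S.card * (taylor (a i) P).eval (c + ∑ j ∈ S, a j)) := by
      intro S hS
      have hiS : i ∉ S := fun h => hi (Finset.mem_powerset.1 hS h)
      rw [Finset.card_insert_of_notMem hiS, Finset.sum_insert hiS, taylor_apply, eval_comp]
      simp only [eval_add, eval_X, eval_C]
      rw [pow_succ]
      have : c + (a i + ∑ j ∈ S, a j) = c + ∑ j ∈ S, a j + a i := by ring
      rw [this]; ring
    rw [Finset.sum_congr rfl hstep, Finset.sum_neg_distrib, ← sub_eq_add_neg,
      ← Finset.sum_sub_distrib]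
    have hcard : (insert i K).card = K.card + 1 := Finset.card_insert_of_notMem hi
    have hQ : (P - taylor (a i) P).natDegree ≤ K.card :=
      natDegree_sub_taylor_le (a i) P K.card (by omega)
    have h := ih (P - taylor (a i) P) hQ c
    have e1 : ∑ S ∈ K.powerset, ((-1 : R) ^ S.card * P.eval (c + ∑ j ∈ S, a j)
        - (-1 : R) ^ S.card * (taylor (a i) P).eval (c + ∑ j ∈ S, a j))
        = ∑ S ∈ K.powerset, (-1 : R) ^ S.card * (P - taylor (a i) P).eval (c + ∑ j ∈ S, a j) := by
      refine Finset.sum_congr rfl fun S _ => ?_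
      rw [eval_sub]; ring
    rw [e1, h, coeff_sub, coeff_taylor_of_natDegree_le (a i) P K.card (by omega), hcard,
      Finset.prod_insert hi, Nat.factorial_succ, pow_succ]
    push_cast
    ring

/-- Powers below `|K|` are killed. -/
theorem sum_powerset_pow_lt [DecidableEq ι] (a : ι → R) (K : Finset ι) (j : ℕ)
    (hj : j < K.card) (c : R) :
    ∑ S ∈ K.powerset, (-1 : R) ^ S.card * (c + ∑ i ∈ S, a i) ^ j = 0 := by
  have h := sum_powerset_eval a K (X ^ j : R[X]) ((natDegree_X_pow_le j).trans hj.le) c
  simp only [eval_pow, eval_X] at h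
  rw [h, coeff_X_pow, if_neg (by omega)]
  ring

/-- The power `|K|`. -/
theorem sum_powerset_pow_card [DecidableEq ι] (a : ι → R) (K : Finset ι) (c : R) :
    ∑ S ∈ K.powerset, (-1 : R) ^ S.card * (c + ∑ i ∈ S, a i) ^ K.card =
      (-1) ^ K.card * (K.card.factorial : R) * ∏ i ∈ K, a i := by
  have h := sum_powerset_eval a K (X ^ K.card : R[X]) (natDegree_X_pow_le _) c
  simp only [eval_pow, eval_X] at h
  rw [h, coeff_X_pow, if_pos rfl]
  ring

end Crest.Agent.R039.Alt
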