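import Crest.Agent.R039.Map834E

/-!
# Row 39: non-zero determinant of the signed incidence matrix => 2-colouring with prescribed roots

`exists_colour` (abstract): if a graph (edges `E`, ends `a w`, `b w`) has as many edges as non-root
vertices and only the zero integer function vanishes on the roots and is constant along edges, then
every prescription of `ZMod 2` values on the roots extends to a colouring with all edges bichromatic.

`GM T w0 m` : the signed incidence matrix of `Γ_m`, both index sets being the white faces `≠ w0`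
(row `w'` stands for the vertex `T.p (m w') w'`).
`exists_colour_of_det` : `det (GM T w0 m) ≠ 0` gives the colouring.
-/

set_option autoImplicit false

namespace Crest.Agent.R039.Col31

open Matrix

section abstract_part

variable {X E : Type*}

/-- extension by zero -/
noncomputable def ext0 (R : X → Prop) : ({v : X // ¬ R v} → ZMod 2) →ₗ[ZMod 2] (X → ZMod 2) := by
  classical
  exact
  { toFun := fun y v => if h : R v then 0 else y ⟨v, h⟩
    map_add' := by
      intro y z; funext v
      by_cases h : R v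
      · simp [h]
      · simp [h]
    map_smul' := by
      intro c y; funext v
      by_cases h : R v
      · simp [h]
      · simp [h] }

theorem ext0_of_root (R : X → Prop) (y : {v : X // ¬ R v} → ZMod 2) {v : X} (h : R v) :
    ext0 R y v = 0 := by
  classical
  show (if h : R v then (0 : ZMod 2) else y ⟨v, h⟩) = 0
  rw [dif_pos h]

theorem ext0_of_not (R : X → Prop) (y : {v : X // ¬ R v} → ZMod 2) {v : X} (h : ¬ R v) :
    ext0 R y v = y ⟨v, h⟩ := by
  classical
  show (if h : R v then (0 : ZMod 2) else y ⟨v, h⟩) = _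
  rw [dif_neg h]

/-- the mod-2 edge map -/
noncomputable def edge2 (R : X → Prop) (a b : E → X) :
    ({v : X // ¬ R v} → ZMod 2) →ₗ[ZMod 2] (E → ZMod 2) where
  toFun y w := ext0 R y (a w) + ext0 R y (b w)
  map_add' := by
    intro y z; funext w
    simp only [map_add, Pi.add_apply]; ring
  map_smul' := by
    intro c y; funext w
    simp only [map_smul, Pi.smul_apply, smul_eq_mul, RingHom.id_apply]; ring

/-- the integer lift of an element of `ZMod 2` -/
def lift2 (x : ZMod 2) : ℤ := if x = 0 then 0 else 1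

theorem lift2_inj {x y : ZMod 2} (h : lift2 x = lift2 y) : x = y := by
  revert h; revert x y; decide

theorem lift2_zero : lift2 0 = 0 := rfl

/-- THE ABSTRACT STATEMENT -/
theorem exists_colour [Finite X] [Finite E] (R : X → Prop) (a b : E → X)
    (hcard : Nat.card {v : X // ¬ R v} = Nat.card E)
    (hker : ∀ y : X → ℤ, (∀ v, R v → y v = 0) → (∀ w, y (a w) = y (b w)) → ∀ v, y v = 0)
    (x0 : X → ZMod 2) :
    ∃ x : X → ZMod 2, (∀ v, R v → x v = x0 v) ∧ ∀ w, x (a w) ≠ x (b w) := by
  classical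
  have := Fintype.ofFinite X
  have := Fintype.ofFinite E
  have hinj : Function.Injective (edge2 R a b) := by
    rw [injective_iff_map_eq_zero]
    intro y hy
    have h1 : ∀ w, lift2 (ext0 R y (a w)) = lift2 (ext0 R y (b w)) := by
      intro w
      have h2 : ext0 R y (a w) + ext0 R y (b w) = 0 := congrFun hy w
      have h3 : ∀ p q : ZMod 2, p + q = 0 → p = q := by decide
      rw [h3 _ _ h2]
    have h2 := hker (fun v => lift2 (ext0 R y v)) (fun v hv => by
      show lift2 (ext0 R y v) = 0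
      rw [ext0_of_root R y hv]; rfl) h1
    funext v
    have h3 := h2 v.1
    have h4 : lift2 (ext0 R y v.1) = lift2 0 := h3
    have h5 := lift2_inj h4
    rw [ext0_of_not R y v.2] at h5
    exact h5
  have hfr : Module.finrank (ZMod 2) ({v : X // ¬ R v} → ZMod 2)
      = Module.finrank (ZMod 2) (E → ZMod 2) := by
    rw [Module.finrank_fintype_fun_eq_card, Module.finrank_fintype_fun_eq_card,
      ← Nat.card_eq_fintype_card, ← Nat.card_eq_fintype_card, hcard]
  have hsurj : Function.Surjective (edge2 R a b) :=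
    (LinearMap.injective_iff_surjective_of_finrank_eq_finrank hfr).1 hinj
  let x1 : X → ZMod 2 := fun v => if R v then x0 v else 0
  obtain ⟨y, hy⟩ := hsurj (fun w => 1 + x1 (a w) + x1 (b w))
  refine ⟨fun v => ext0 R y v + x1 v, ?_, ?_⟩
  · intro v hv
    show ext0 R y v + x1 v = x0 v
    rw [ext0_of_root R y hv, zero_add]
    exact if_pos hv
  · intro w h
    have h1 : ext0 R y (a w) + ext0 R y (b w) = 1 + x1 (a w) + x1 (b w) := congrFun hy w
    have h2 : ext0 R y (a w) + x1 (a w) = ext0 R y (b w) + x1 (b w) := h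
    revert h1 h2
    generalize ext0 R y (a w) = p
    generalize ext0 R y (b w) = q
    generalize x1 (a w) = r
    generalize x1 (b w) = t
    revert p q r t
    decide

/-- the same with a square matrix: rows indexed by a set `N` enumerating the non-root vertices -/
theorem exists_colour_of_matrix [Finite X] [Fintype E] [DecidableEq E] [DecidableEq X]
    (R : X → Prop) (a b : E → X) (s : E → X) (hs : Function.Injective s)
    (hsR : ∀ w, ¬ R (s w)) (hsurj : ∀ v, ¬ R v → ∃ w, s w = v)
    (hdet : (Matrix.of (fun w' w : E => (if a w = s w' then (1 : ℤ) else 0)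
      - (if b w = s w' then 1 else 0))).det ≠ 0) (x0 : X → ZMod 2) :
    ∃ x : X → ZMod 2, (∀ v, R v → x v = x0 v) ∧ ∀ w, x (a w) ≠ x (b w) := by
  classical
  refine exists_colour R a b ?_ ?_ x0
  · refine (Nat.card_congr (Equiv.ofBijective (fun w => (⟨s w, hsR w⟩ : {v : X // ¬ R v})) ?_)).symm
    constructor
    · intro w w' h
      exact hs (congrArg Subtype.val h)
    · rintro ⟨v, hv⟩
      obtain ⟨w, rfl⟩ := hsurj v hv
      exact ⟨w, rfl⟩
  · intro y hy0 hy
    have key : ∀ v : X, ∑ w' : E, y (s w') * (if v = s w' then (1 : ℤ) else 0) = y v := by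
      intro v
      by_cases hv : R v
      · rw [hy0 v hv]
        refine Finset.sum_eq_zero (fun w' _ => ?_)
        rw [if_neg (fun h => hsR w' (by rw [← h]; exact hv)), mul_zero]
      · obtain ⟨w, rfl⟩ := hsurj v hv
        rw [Finset.sum_eq_single w]
        · rw [if_pos rfl, mul_one]
        · intro w' _ hne
          rw [if_neg (fun h => hne (hs h.symm)), mul_zero]
        · intro h; exact absurd (Finset.mem_univ _) h
    have hz : (fun w' => y (s w')) ᵥ* (Matrix.of (fun w' w : E =>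
        (if a w = s w' then (1 : ℤ) else 0) - (if b w = s w' then 1 else 0))) = 0 := by
      funext w
      show ∑ w' : E, y (s w') * ((if a w = s w' then (1 : ℤ) else 0)
        - (if b w = s w' then 1 else 0)) = 0
      simp only [mul_sub]
      rw [Finset.sum_sub_distrib, key, key, hy, sub_self]
    have h0 := Matrix.eq_zero_of_vecMul_eq_zero hdet hz
    intro v
    by_cases hv : R v
    · exact hy0 v hv
    · obtain ⟨w, rfl⟩ := hsurj v hv
      exact congrFun h0 w

end abstract_part

section tri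

variable {W B : Type*} (T : Tri W B)

/-- a vertex of the white face `w` -/
def On (w : W) (v : T.Vert) : Prop := ∃ i, T.p i w = v

open Classical in
/-- the signed incidence matrix of `Γ_m` -/
noncomputable def GM (w0 : W) (m : W → ZMod 3) : Matrix {w : W // w ≠ w0} {w : W // w ≠ w0} ℤ :=
  fun w' w => (if T.p (m w.1 + 1) w.1 = T.p (m w'.1) w'.1 then 1 else 0)
    - (if T.p (m w.1 + 2) w.1 = T.p (m w'.1) w'.1 then 1 else 0)

theorem p_col_inj {i j : ZMod 3} {w w' : W} (h : T.p i w = T.p j w') : i = j :=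
  (T.p_eq_iff.1 h).1

/-- every vertex is a corner of a white face -/
theorem exists_corner (v : T.Vert) : ∃ w, T.p v.1 w = v := by
  obtain ⟨i, x⟩ := v
  obtain ⟨w, rfl⟩ := Quotient.exists_rep x
  exact ⟨w, rfl⟩

/-- number of vertices off a white face -/
theorem card_off [Finite W] (hg : T.Genus0) (w0 : W) :
    Nat.card {v : T.Vert // ¬ On T w0 v} + 1 = Nat.card W := by
  classical
  have hfin : Finite T.Vert := by unfold Tri.Vert Tri.VertC; infer_instance
  have := Fintype.ofFinite T.Vert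
  have := Fintype.ofFinite W
  have h1 : Nat.card T.Vert = Nat.card W + 2 := hg
  have h2 : Nat.card {v : T.Vert // On T w0 v} = 3 := by
    have e : ZMod 3 ≃ {v : T.Vert // On T w0 v} := by
      refine Equiv.ofBijective (fun i => ⟨T.p i w0, i, rfl⟩) ⟨?_, ?_⟩
      · intro i j h
        exact p_col_inj T (congrArg Subtype.val h)
      · rintro ⟨v, i, rfl⟩
        exact ⟨i, rfl⟩
    rw [← Nat.card_congr e, Nat.card_zmod]
  have h3 := Nat.card_congr (Equiv.sumCompl (On T w0))
  rw [Nat.card_sum] at h3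
  omega

/-- surjectivity of the apex map onto the vertices off `w0` implies injectivity -/
theorem apex_injective [Finite W] (hg : T.Genus0) (w0 : W) (m : W → ZMod 3)
    (ha : ∀ v, ¬ On T w0 v → ∃ w, w ≠ w0 ∧ T.p (m w) w = v)
    (hb : ∀ w, w ≠ w0 → ¬ On T w0 (T.p (m w) w)) :
    ∀ w w', w ≠ w0 → w' ≠ w0 → T.p (m w) w = T.p (m w') w' → w = w' := by
  classical
  have hfin : Finite T.Vert := by unfold Tri.Vert Tri.VertC; infer_instance
  have := Fintype.ofFinite T.Vert
  have := Fintype.ofFinite W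
  let F : {w : W // w ≠ w0} → {v : T.Vert // ¬ On T w0 v} := fun w => ⟨T.p (m w.1) w.1, hb w.1 w.2⟩
  have hs : Function.Surjective F := by
    rintro ⟨v, hv⟩
    obtain ⟨w, hw, rfl⟩ := ha v hv
    exact ⟨⟨w, hw⟩, rfl⟩
  have hc : Fintype.card {w : W // w ≠ w0} = Fintype.card {v : T.Vert // ¬ On T w0 v} := by
    have h1 := card_off T hg w0
    rw [Nat.card_eq_fintype_card, Nat.card_eq_fintype_card] at h1
    have h2 : Fintype.card {w : W // w ≠ w0} = Fintype.card W - 1 := by
      have h3 := Fintype.card_subtype_compl (fun w : W => w = w0)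
      rw [Fintype.card_subtype_eq] at h3
      exact h3
    omega
  have hbij := (Fintype.bijective_iff_surjective_and_card F).2 ⟨hs, hc⟩
  intro w w' hw hw' h
  have h3 : (⟨w, hw⟩ : {w : W // w ≠ w0}) = ⟨w', hw'⟩ := hbij.1 (Subtype.ext h)
  exact congrArg Subtype.val h3

/-- COLOURING FROM THE DETERMINANT -/
theorem exists_colour_of_det [Fintype W] [DecidableEq W] (hg : T.Genus0) (w0 : W)
    (m : W → ZMod 3)
    (ha : ∀ v, ¬ On T w0 v → ∃ w, w ≠ w0 ∧ T.p (m w) w = v)
    (hb : ∀ w, w ≠ w0 → ¬ On T w0 (T.p (m w) w))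
    (hdet : (GM T w0 m).det ≠ 0) (x0 : T.Vert → ZMod 2) :
    ∃ x : T.Vert → ZMod 2, (∀ i, x (T.p i w0) = x0 (T.p i w0)) ∧
      ∀ w, w ≠ w0 → x (T.p (m w + 1) w) ≠ x (T.p (m w + 2) w) := by
  classical
  have hfin : Finite T.Vert := by unfold Tri.Vert Tri.VertC; infer_instance
  obtain ⟨x, hx1, hx2⟩ := exists_colour_of_matrix (X := T.Vert) (E := {w : W // w ≠ w0})
    (On T w0) (fun w => T.p (m w.1 + 1) w.1) (fun w => T.p (m w.1 + 2) w.1)
    (fun w => T.p (m w.1) w.1)
    (fun w w' h => Subtype.ext (apex_injective T hg w0 m ha hb w.1 w'.1 w.2 w'.2 h))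
    (fun w => hb w.1 w.2)
    (fun v hv => by
      obtain ⟨w, hw, h⟩ := ha v hv
      exact ⟨⟨w, hw⟩, h⟩)
    (by
      have : GM T w0 m = Matrix.of (fun w' w : {w : W // w ≠ w0} =>
          (if T.p (m w.1 + 1) w.1 = T.p (m w'.1) w'.1 then (1 : ℤ) else 0)
            - (if T.p (m w.1 + 2) w.1 = T.p (m w'.1) w'.1 then 1 else 0)) := by
        ext w' w; rfl
      rw [← this]
      exact hdet) x0
  exact ⟨x, fun i => hx1 _ ⟨i, rfl⟩, fun w hw => hx2 ⟨w, hw⟩⟩

/-- prescribed monochromatic edge of the root face, and the root face is not monochromatic -/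
theorem exists_colour_root [Fintype W] [DecidableEq W] (hg : T.Genus0) (w0 : W)
    (m : W → ZMod 3)
    (ha : ∀ v, ¬ On T w0 v → ∃ w, w ≠ w0 ∧ T.p (m w) w = v)
    (hb : ∀ w, w ≠ w0 → ¬ On T w0 (T.p (m w) w))
    (hdet : (GM T w0 m).det ≠ 0) (k : ZMod 3) :
    ∃ x : T.Vert → ZMod 2, x (T.p (k + 1) w0) = x (T.p (k + 2) w0) ∧
      x (T.p k w0) ≠ x (T.p (k + 1) w0) ∧
      ∀ w, w ≠ w0 → x (T.p (m w + 1) w) ≠ x (T.p (m w + 2) w) := by
  obtain ⟨x, h1, h2⟩ := exists_colour_of_det T hg w0 m ha hb hdet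
    (fun v => if v.1 = k then 1 else 0)
  have e1 : ∀ k : ZMod 3, k + 1 ≠ k := by decide
  have e2 : ∀ k : ZMod 3, k + 2 ≠ k := by decide
  have f0 : x (T.p k w0) = 1 := by rw [h1]; exact if_pos rfl
  have f1 : x (T.p (k + 1) w0) = 0 := by rw [h1]; exact if_neg (e1 k)
  have f2 : x (T.p (k + 2) w0) = 0 := by rw [h1]; exact if_neg (e2 k)
  refine ⟨x, by rw [f1, f2], by rw [f0, f1]; decide, h2⟩

/-- COLOURING FROM THE KERNEL FORM (`Tri.Tree` of the row plan) -/
theorem exists_colour_of_ker [Finite W] (hg : T.Genus0) (w0 : W) (m : W → ZMod 3)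
    (hker : ∀ x : T.Vert → ℤ, (∀ j, x (T.p j w0) = 0) →
      (∀ w, w ≠ w0 → x (T.p (m w + 1) w) = x (T.p (m w + 2) w)) → ∀ v, x v = 0)
    (x0 : T.Vert → ZMod 2) :
    ∃ x : T.Vert → ZMod 2, (∀ i, x (T.p i w0) = x0 (T.p i w0)) ∧
      ∀ w, w ≠ w0 → x (T.p (m w + 1) w) ≠ x (T.p (m w + 2) w) := by
  classical
  have hfin : Finite T.Vert := by unfold Tri.Vert Tri.VertC; infer_instance
  have := Fintype.ofFinite W
  obtain ⟨x, hx1, hx2⟩ := exists_colour (X := T.Vert) (E := {w : W // w ≠ w0})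
    (On T w0) (fun w => T.p (m w.1 + 1) w.1) (fun w => T.p (m w.1 + 2) w.1)
    (by
      have h1 := card_off T hg w0
      have h2 : Fintype.card {w : W // w ≠ w0} = Fintype.card W - 1 := by
        have h3 := Fintype.card_subtype_compl (fun w : W => w = w0)
        rw [Fintype.card_subtype_eq] at h3
        exact h3
      rw [Nat.card_eq_fintype_card (α := {w : W // w ≠ w0}), h2]
      rw [Nat.card_eq_fintype_card (α := W)] at h1
      omega)
    (fun y hy0 hy => hker y (fun j => hy0 _ ⟨j, rfl⟩) (fun w hw => hy ⟨w, hw⟩)) x0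
  exact ⟨x, fun i => hx1 _ ⟨i, rfl⟩, fun w hw => hx2 ⟨w, hw⟩⟩

/-- prescribed monochromatic edge of the root face, kernel form -/
theorem exists_colour_root_of_ker [Finite W] (hg : T.Genus0) (w0 : W) (m : W → ZMod 3)
    (hker : ∀ x : T.Vert → ℤ, (∀ j, x (T.p j w0) = 0) →
      (∀ w, w ≠ w0 → x (T.p (m w + 1) w) = x (T.p (m w + 2) w)) → ∀ v, x v = 0) (k : ZMod 3) :
    ∃ x : T.Vert → ZMod 2, x (T.p (k + 1) w0) = x (T.p (k + 2) w0) ∧
      x (T.p k w0) ≠ x (T.p (k + 1) w0) ∧
      ∀ w, w ≠ w0 → x (T.p (m w + 1) w) ≠ x (T.p (m w + 2) w) := by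
  obtain ⟨x, h1, h2⟩ := exists_colour_of_ker T hg w0 m hker
    (fun v => if v.1 = k then 1 else 0)
  have e1 : ∀ k : ZMod 3, k + 1 ≠ k := by decide
  have e2 : ∀ k : ZMod 3, k + 2 ≠ k := by decide
  have f0 : x (T.p k w0) = 1 := by rw [h1]; exact if_pos rfl
  have f1 : x (T.p (k + 1) w0) = 0 := by rw [h1]; exact if_neg (e1 k)
  have f2 : x (T.p (k + 2) w0) = 0 := by rw [h1]; exact if_neg (e2 k)
  refine ⟨x, by rw [f1, f2], by rw [f0, f1]; decide, h2⟩

/-- the determinant form implies the kernel form -/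
theorem ker_of_det [Fintype W] [DecidableEq W] (w0 : W) (m : W → ZMod 3)
    (ha : ∀ v, ¬ On T w0 v → ∃ w, w ≠ w0 ∧ T.p (m w) w = v)
    (hb : ∀ w, w ≠ w0 → ¬ On T w0 (T.p (m w) w))
    (hinj : ∀ w w', w ≠ w0 → w' ≠ w0 → T.p (m w) w = T.p (m w') w' → w = w')
    (hdet : (GM T w0 m).det ≠ 0) :
    ∀ x : T.Vert → ℤ, (∀ j, x (T.p j w0) = 0) →
      (∀ w, w ≠ w0 → x (T.p (m w + 1) w) = x (T.p (m w + 2) w)) → ∀ v, x v = 0 := by
  classical
  intro y hy0 hy
  have key : ∀ v : T.Vert, ∑ w' : {w : W // w ≠ w0}, y (T.p (m w'.1) w'.1) *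
      (if v = T.p (m w'.1) w'.1 then (1 : ℤ) else 0) = y v := by
    intro v
    by_cases hv : On T w0 v
    · obtain ⟨i, rfl⟩ := hv
      rw [hy0 i]
      refine Finset.sum_eq_zero (fun w' _ => ?_)
      rw [if_neg (fun h => hb w'.1 w'.2 ⟨i, h⟩), mul_zero]
    · obtain ⟨w, hw, rfl⟩ := ha v hv
      rw [Finset.sum_eq_single ⟨w, hw⟩]
      · rw [if_pos rfl, mul_one]
      · intro w' _ hne
        rw [if_neg (fun h => hne (Subtype.ext (hinj _ _ w'.2 hw h.symm))), mul_zero]
      · intro h; exact absurd (Finset.mem_univ _) h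
  have hz : (fun w' : {w : W // w ≠ w0} => y (T.p (m w'.1) w'.1)) ᵥ* (GM T w0 m) = 0 := by
    funext w
    show ∑ w' : {w : W // w ≠ w0}, y (T.p (m w'.1) w'.1) *
      ((if T.p (m w.1 + 1) w.1 = T.p (m w'.1) w'.1 then (1 : ℤ) else 0)
        - (if T.p (m w.1 + 2) w.1 = T.p (m w'.1) w'.1 then 1 else 0)) = 0
    simp only [mul_sub]
    rw [Finset.sum_sub_distrib, key, key, hy _ w.2, sub_self]
  have h0 := Matrix.eq_zero_of_vecMul_eq_zero hdet hz
  intro v
  by_cases hv : On T w0 v
  · obtain ⟨i, rfl⟩ := hv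
    exact hy0 i
  · obtain ⟨w, hw, rfl⟩ := ha v hv
    exact congrFun h0 ⟨w, hw⟩

end tri

end Crest.Agent.R039.Col31
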