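import Crest.Agent.R039.Map834E

/-!
# Row 39: Euler's inequality for a connected region of a triangulation (helper365)

`Crit.euler_le`: for a connected set `R` of faces, not everything,
`V(R) + F(R) ≤ E(R) + 1`.
-/

set_option autoImplicit false

namespace Crest.Agent.R039.Crit

open Matrix Crest.Agent.R039.Map

section lin

variable {D X Y F : Type*} [Fintype D] [Fintype X] [Fintype Y] [DecidableEq X] [Field F]

theorem card_add_card_le (s t : D → X)
    (hX : ∀ h : X → F, (∀ d, h (s d) = h (t d)) → ∀ x y, h x = h y)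
    (δ : (Y → F) →ₗ[F] (D → F)) (hδ : Function.Injective δ)
    (hzero : ∀ f, (inc F s t) *ᵥ (δ f) = 0) :
    Fintype.card X + Fintype.card Y ≤ Fintype.card D + 1 := by
  have r1 := card_le_rank_inc (F := F) s t hX
  have h2 := LinearMap.finrank_range_add_finrank_ker ((inc F s t).mulVecLin)
  rw [Module.finrank_fintype_fun_eq_card] at h2
  have h3 : (inc F s t).rank = Module.finrank F (LinearMap.range ((inc F s t).mulVecLin)) := rfl
  have hle : LinearMap.range δ ≤ LinearMap.ker ((inc F s t).mulVecLin) := by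
    rintro _ ⟨f, rfl⟩
    rw [LinearMap.mem_ker, Matrix.mulVecLin_apply]
    exact hzero f
  have h4 := Submodule.finrank_mono hle
  rw [LinearMap.finrank_range_of_inj hδ, Module.finrank_fintype_fun_eq_card] at h4
  omega

end lin

variable {W B : Type*} (T : Tri W B)

/-- the vertex of colour `k` of a white face is the vertex of colour `k` of the adjacent black
faces across the edges of the other colours -/
theorem q_e {i c : ZMod 3} (h : i ≠ c) (w : W) : T.q i (T.e c w) = T.p i w :=
  T.bic.hpq i c w h.symm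

theorem p_pi (i : ZMod 3) (w : W) : T.p i (T.pi i w) = T.p i w := by
  rw [T.p_eq_iff]
  exact ⟨rfl, Equiv.Perm.sameCycle_apply_left.2 (Equiv.Perm.SameCycle.refl _ _)⟩

theorem e_pi (i : ZMod 3) (w : W) : T.e (i + 2) (T.pi i w) = T.e (i + 1) w := by
  show T.e (i + 2) ((T.e (i + 2)).symm (T.e (i + 1) w)) = _
  rw [Equiv.apply_symm_apply]

/-- a vertex touches the region `(RW, RB)` -/
def Touch (RW : Set W) (RB : Set B) (v : T.Vert) : Prop :=
  (∃ i, ∃ w ∈ RW, T.p i w = v) ∨ (∃ i, ∃ b ∈ RB, T.q i b = v)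

/-- an edge touches the region -/
def ETouch (RW : Set W) (RB : Set B) (d : ZMod 3 × W) : Prop :=
  d.2 ∈ RW ∨ T.e d.1 d.2 ∈ RB

/-- a region is connected (across edges) -/
def RConn (RW : Set W) (RB : Set B) : Prop :=
  ∀ (h : W → ℚ) (g : B → ℚ), (∀ c, ∀ w ∈ RW, T.e c w ∈ RB → h w = g (T.e c w)) →
    ∃ a, (∀ w ∈ RW, h w = a) ∧ (∀ b ∈ RB, g b = a)

theorem const_of_conn {A : Type*} (hc : T.Conn) (h : W → A) (g : B → A)
    (hh : ∀ c w, h w = g (T.e c w)) (w0 : W) : (∀ w, h w = h w0) ∧ ∀ b, g b = h w0 := by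
  have h1 : ∀ w, h w = h w0 := by
    have := hc {w | h w = h w0} ⟨w0, rfl⟩ (fun i w hw => by
      show h (T.pi i w) = h w0
      rw [hh (i + 2), e_pi, ← hh]
      exact hw)
    intro w
    have hw : w ∈ {w | h w = h w0} := by rw [this]; trivial
    exact hw
  refine ⟨h1, fun b => ?_⟩
  rw [← h1 ((T.e 0).symm b), hh 0, Equiv.apply_symm_apply]

/-- the boundary of a boundary is zero -/
theorem bdry_zero [Fintype W] {F : Type*} [Field F] [DecidableEq T.Vert] (g : W → F) (f : B → F) (x : T.Vert) :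
    ∑ d : ZMod 3 × W, ((if T.p (d.1 + 1) d.2 = x then g d.2 - f (T.e d.1 d.2) else 0)
      - (if T.p (d.1 + 2) d.2 = x then g d.2 - f (T.e d.1 d.2) else 0)) = 0 := by
  rw [Finset.sum_sub_distrib, Fintype.sum_prod_type, Fintype.sum_prod_type]
  have e1 : ∑ c : ZMod 3, ∑ w : W, (if T.p (c + 1) w = x then g w - f (T.e c w) else 0)
      = ∑ i : ZMod 3, ∑ w : W, (if T.p i w = x then g w - f (T.e (i + 2) w) else 0) := by
    rw [← Equiv.sum_comp (Equiv.addRight (1 : ZMod 3))
      (fun i => ∑ w : W, (if T.p i w = x then g w - f (T.e (i + 2) w) else 0))]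
    refine Finset.sum_congr rfl (fun c _ => Finset.sum_congr rfl (fun w _ => ?_))
    have : ∀ c : ZMod 3, c + 1 + 2 = c := by decide
    show _ = if T.p (c + 1) w = x then g w - f (T.e (c + 1 + 2) w) else 0
    rw [this]
  have e2 : ∑ c : ZMod 3, ∑ w : W, (if T.p (c + 2) w = x then g w - f (T.e c w) else 0)
      = ∑ i : ZMod 3, ∑ w : W, (if T.p i w = x then g w - f (T.e (i + 1) w) else 0) := by
    rw [← Equiv.sum_comp (Equiv.addRight (2 : ZMod 3))
      (fun i => ∑ w : W, (if T.p i w = x then g w - f (T.e (i + 1) w) else 0))]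
    refine Finset.sum_congr rfl (fun c _ => Finset.sum_congr rfl (fun w _ => ?_))
    have : ∀ c : ZMod 3, c + 2 + 1 = c := by decide
    show _ = if T.p (c + 2) w = x then g w - f (T.e (c + 2 + 1) w) else 0
    rw [this]
  rw [e1, e2, sub_eq_zero]
  refine Finset.sum_congr rfl (fun i _ => ?_)
  have e3 : ∀ k : ZMod 3, ∑ w : W, (if T.p i w = x then g w - f (T.e k w) else 0)
      = ∑ w : W, (if T.p i w = x then g w else 0) - ∑ w : W, (if T.p i w = x then f (T.e k w) else 0) := by
    intro k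
    rw [← Finset.sum_sub_distrib]
    refine Finset.sum_congr rfl (fun w _ => ?_)
    split_ifs <;> simp
  rw [e3, e3]
  congr 1
  rw [← Equiv.sum_comp (T.pi i) (fun w => if T.p i w = x then f (T.e (i + 2) w) else 0)]
  refine Finset.sum_congr rfl (fun w _ => ?_)
  rw [p_pi, e_pi]

/-- EULER'S INEQUALITY for a connected region -/
theorem euler_le [Finite W] [Finite B] (hc : T.Conn) (RW : Set W) (RB : Set B)
    (hne : (∃ w, w ∉ RW) ∨ (∃ b, b ∉ RB)) (hR : RConn T RW RB) :
    Nat.card {v : T.Vert // Touch T RW RB v} + (Nat.card RW + Nat.card RB)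
      ≤ Nat.card {d : ZMod 3 × W // ETouch T RW RB d} + 1 := by
  classical
  have : Fintype W := Fintype.ofFinite _
  have : Fintype B := Fintype.ofFinite _
  rcases isEmpty_or_nonempty W with hW | ⟨⟨w0⟩⟩
  · have hB : IsEmpty B := (T.e 0).symm.isEmpty
    rcases hne with ⟨w, _⟩ | ⟨b, _⟩
    · exact (hW.false w).elim
    · exact (hB.false b).elim
  let Y := {y : W ⊕ B // Sum.elim (· ∈ RW) (· ∈ RB) y}
  let X := {v : T.Vert // Touch T RW RB v}
  let D := {d : ZMod 3 × W // ETouch T RW RB d}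
  have : Fintype X := Fintype.ofFinite _
  have : Fintype Y := Fintype.ofFinite _
  have : Fintype D := Fintype.ofFinite _
  have : Fintype RW := Fintype.ofFinite _
  have : Fintype RB := Fintype.ofFinite _
  have htp : ∀ d : D, ∀ k, k ≠ d.1.1 → Touch T RW RB (T.p k d.1.2) := by
    intro d k hk
    rcases d.2 with h | h
    · exact Or.inl ⟨k, d.1.2, h, rfl⟩
    · exact Or.inr ⟨k, T.e d.1.1 d.1.2, h, q_e T hk _⟩
  have n1 : ∀ c : ZMod 3, c + 1 ≠ c := by decide
  have n2 : ∀ c : ZMod 3, c + 2 ≠ c := by decide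
  let s : D → X := fun d => ⟨T.p (d.1.1 + 1) d.1.2, htp d _ (n1 _)⟩
  let t : D → X := fun d => ⟨T.p (d.1.1 + 2) d.1.2, htp d _ (n2 _)⟩
  -- extension by zero
  let ext : (Y → ℚ) →ₗ[ℚ] (W ⊕ B → ℚ) :=
    { toFun := fun f y => if hy : Sum.elim (· ∈ RW) (· ∈ RB) y then f ⟨y, hy⟩ else 0
      map_add' := by
        intro f g; funext y
        by_cases hy : Sum.elim (· ∈ RW) (· ∈ RB) y <;> simp [hy]
      map_smul' := by
        intro r f; funext y
        by_cases hy : Sum.elim (· ∈ RW) (· ∈ RB) y <;> simp [hy] }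
  have hext : ∀ f (y : Y), ext f y.1 = f y := fun f y => dif_pos y.2
  have hext0 : ∀ f (y : W ⊕ B), ¬ Sum.elim (· ∈ RW) (· ∈ RB) y → ext f y = 0 :=
    fun f y hy => dif_neg hy
  let δ : (Y → ℚ) →ₗ[ℚ] (D → ℚ) :=
    { toFun := fun f d => ext f (Sum.inl d.1.2) - ext f (Sum.inr (T.e d.1.1 d.1.2))
      map_add' := by
        intro f g; funext d
        show ext (f + g) _ - ext (f + g) _ = (ext f _ - ext f _) + (ext g _ - ext g _)
        rw [map_add, Pi.add_apply, Pi.add_apply]; ring
      map_smul' := by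
        intro r f; funext d
        show ext (r • f) _ - ext (r • f) _ = r * (ext f _ - ext f _)
        rw [map_smul, Pi.smul_apply, Pi.smul_apply, smul_eq_mul, smul_eq_mul]; ring }
  have hX : ∀ h : X → ℚ, (∀ d, h (s d) = h (t d)) → ∀ x y, h x = h y := by
    intro h hh
    let u : T.Vert → ℚ := fun v => if hv : Touch T RW RB v then h ⟨v, hv⟩ else 0
    have hu : ∀ x : X, u x.1 = h x := fun x => dif_pos x.2
    have hs : ∀ c w, ETouch T RW RB (c, w) → u (T.p (c + 1) w) = u (T.p (c + 2) w) := by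
      intro c w hd
      have := hh ⟨(c, w), hd⟩
      rw [← hu, ← hu] at this
      exact this
    have key : ∀ A : ZMod 3 → ℚ, (∀ c, A (c + 1) = A (c + 2)) → ∀ i, A i = A 0 := by
      intro A hA i
      have h0 := hA 0
      have h1 := hA 1
      have h2 := hA 2
      have a1 : (1 : ZMod 3) + 1 = 2 := by decide
      have a2 : (1 : ZMod 3) + 2 = 0 := by decide
      have a3 : (2 : ZMod 3) + 1 = 0 := by decide
      have a4 : (2 : ZMod 3) + 2 = 1 := by decide
      rw [zero_add, zero_add] at h0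
      rw [a1, a2] at h1
      rw [a3, a4] at h2
      have : ∀ i : ZMod 3, i = 0 ∨ i = 1 ∨ i = 2 := by decide
      rcases this i with rfl | rfl | rfl
      · rfl
      · exact h2.symm
      · exact h1
    have hw : ∀ w ∈ RW, ∀ i, u (T.p i w) = u (T.p 0 w) := fun w hw =>
      key (fun i => u (T.p i w)) (fun c => hs c w (Or.inl hw))
    have hb : ∀ b ∈ RB, ∀ i, u (T.q i b) = u (T.q 0 b) := by
      intro b hb
      refine key (fun i => u (T.q i b)) (fun c => ?_)
      have h1 : T.e c ((T.e c).symm b) = b := Equiv.apply_symm_apply _ _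
      have := hs c ((T.e c).symm b) (Or.inr (by show T.e c ((T.e c).symm b) ∈ RB; rw [h1]; exact hb))
      rw [← q_e T (n1 c), ← q_e T (n2 c), h1] at this
      exact this
    obtain ⟨a, ha1, ha2⟩ := hR (fun w => u (T.p 0 w)) (fun b => u (T.q 0 b)) (by
      intro c w hw' hb'
      show u (T.p 0 w) = u (T.q 0 (T.e c w))
      rw [← hw w hw' (c + 1), ← hb _ hb' (c + 1), q_e T (n1 c)])
    have hall : ∀ x : X, h x = a := by
      rintro ⟨v, hv⟩
      rw [← hu]
      rcases hv with ⟨i, w, hw', rfl⟩ | ⟨i, b, hb', rfl⟩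
      · exact (hw w hw' i).trans (ha1 w hw')
      · exact (hb b hb' i).trans (ha2 b hb')
    intro x y
    rw [hall, hall]
  have hδ : Function.Injective δ := by
    rw [← LinearMap.ker_eq_bot, LinearMap.ker_eq_bot']
    intro f hf
    have h1 : ∀ c w, ext f (Sum.inl w) = ext f (Sum.inr (T.e c w)) := by
      intro c w
      by_cases hd : ETouch T RW RB (c, w)
      · exact sub_eq_zero.1 (congrFun hf ⟨(c, w), hd⟩)
      · have hd' := not_or.1 hd
        rw [hext0 f (Sum.inl w) hd'.1, hext0 f (Sum.inr (T.e c w)) hd'.2]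
    have h2 := const_of_conn T hc (fun w => ext f (Sum.inl w)) (fun b => ext f (Sum.inr b)) h1 w0
    have h3 : ext f (Sum.inl w0) = 0 := by
      rcases hne with ⟨w, hw⟩ | ⟨b, hb⟩
      · rw [← h2.1 w]; exact hext0 f (Sum.inl w) hw
      · rw [← h2.2 b]; exact hext0 f (Sum.inr b) hb
    funext y
    rw [← hext f y]
    show ext f y.1 = 0
    rcases y.1 with w | b
    · exact (h2.1 w).trans h3
    · exact (h2.2 b).trans h3
  have hzero : ∀ f, (inc ℚ s t) *ᵥ (δ f) = 0 := by
    intro f
    funext x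
    rw [inc_mulVec]
    refine Eq.trans ?_ (bdry_zero T (fun w => ext f (Sum.inl w)) (fun b => ext f (Sum.inr b)) x.1)
    have hsub : ∀ G : ZMod 3 × W → ℚ, (∀ d, ¬ ETouch T RW RB d → G d = 0) →
        ∑ d : ZMod 3 × W, G d = ∑ d : D, G d.1 := by
      intro G hG
      rw [← Finset.sum_subtype (Finset.univ.filter (fun d => ETouch T RW RB d)) (by simp)]
      rw [Finset.sum_filter_of_ne]
      intro d _ hd
      by_contra hcon
      exact hd (hG d hcon)
    rw [hsub]
    · refine Finset.sum_congr rfl (fun d _ => ?_)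
      have i1 : (s d = x) ↔ (T.p (d.1.1 + 1) d.1.2 = x.1) := Subtype.ext_iff
      have i2 : (t d = x) ↔ (T.p (d.1.1 + 2) d.1.2 = x.1) := Subtype.ext_iff
      simp only [i1, i2]
      rfl
    · intro d hd
      have hd' := not_or.1 hd
      rw [hext0 f (Sum.inl d.2) hd'.1, hext0 f (Sum.inr (T.e d.1 d.2)) hd'.2]
      simp
  have hmain := card_add_card_le (F := ℚ) s t hX δ hδ hzero
  have hcY : Fintype.card Y = Nat.card RW + Nat.card RB := by
    rw [← Nat.card_eq_fintype_card]
    have e : Y ≃ RW ⊕ RB := Equiv.subtypeSum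
    rw [Nat.card_congr e, Nat.card_sum]
  rw [← hcY, Nat.card_eq_fintype_card, Nat.card_eq_fintype_card]
  exact hmain

end Crest.Agent.R039.Crit
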