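import Crest.Agent.R039.Crit365

/-!
# Row 39: the criterion (helper365)

A rooted colouring of the vertices in which every white face `w ≠ w0` has a bichromatic edge
opposite to `mu w` gives a perfect matching with connected complement (a Hamiltonian cycle).
-/

set_option autoImplicit false

namespace Crest.Agent.R039.Crit

variable {W B : Type*} (T : Tri W B)

/-- the mono edge of a non-constant 0/1 triangle -/
theorem exists_mono (f : ZMod 3 → ZMod 2) : ∃ k, f (k + 1) = f (k + 2) := by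
  revert f; decide

theorem mono_unique (f : ZMod 3 → ZMod 2) (k : ZMod 3) (hk : f (k + 1) ≠ f (k + 2))
    {a b : ZMod 3} (ha : f (a + 1) = f (a + 2)) (hb : f (b + 1) = f (b + 2)) : a = b := by
  revert f k a b; decide

theorem mono_unique0 (f : ZMod 3 → ZMod 2) (k : ZMod 3) (hk : f (k + 1) = f (k + 2))
    (hk' : f k ≠ f (k + 1)) {a : ZMod 3} (ha : f (a + 1) = f (a + 2)) : a = k := by
  revert f k a; decide

theorem card_B {W B : Type*} (T : Tri W B) : Nat.card B = Nat.card W :=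
  (Nat.card_congr (T.e 0)).symm

theorem card_split {α : Type*} [Finite α] (P Q : α → Prop) :
    Nat.card {a // P a ∧ Q a} + Nat.card {a // P a ∧ ¬ Q a} = Nat.card {a // P a} := by
  classical
  have := Fintype.ofFinite α
  rw [Nat.card_eq_fintype_card, Nat.card_eq_fintype_card, Nat.card_eq_fintype_card,
    Fintype.card_subtype, Fintype.card_subtype, Fintype.card_subtype]
  have h1 := Finset.card_filter_add_card_filter_not (s := Finset.univ.filter P) Q
  rw [Finset.filter_filter, Finset.filter_filter] at h1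
  exact h1

theorem card_compl {α : Type*} [Finite α] (P : α → Prop) :
    Nat.card {a // P a} + Nat.card {a // ¬ P a} = Nat.card α := by
  classical
  have := Fintype.ofFinite α
  rw [Nat.card_eq_fintype_card, Nat.card_eq_fintype_card, Nat.card_eq_fintype_card,
    Fintype.card_subtype_compl, Nat.add_sub_cancel' (Fintype.card_subtype_le _)]

theorem card_snd (P : W → Prop) :
    Nat.card {d : ZMod 3 × W // P d.2} = 3 * Nat.card {w // P w} := by
  have e : {d : ZMod 3 × W // P d.2} ≃ ZMod 3 × {w // P w} :=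
    { toFun := fun d => (d.1.1, ⟨d.1.2, d.2⟩)
      invFun := fun d => ⟨(d.1, d.2.1), d.2.2⟩
      left_inv := fun d => rfl
      right_inv := fun d => rfl }
  rw [Nat.card_congr e, Nat.card_prod]
  simp

theorem card_snd' (P : B → Prop) :
    Nat.card {d : ZMod 3 × W // P (T.e d.1 d.2)} = 3 * Nat.card {b // P b} := by
  have e : {d : ZMod 3 × W // P (T.e d.1 d.2)} ≃ ZMod 3 × {b // P b} :=
    { toFun := fun d => (d.1.1, ⟨T.e d.1.1 d.1.2, d.2⟩)
      invFun := fun d => ⟨(d.1, (T.e d.1).symm d.2.1), by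
        show P (T.e d.1 ((T.e d.1).symm d.2.1))
        rw [Equiv.apply_symm_apply]; exact d.2.2⟩
      left_inv := fun d => by
        refine Subtype.ext (Prod.ext rfl ?_)
        exact Equiv.symm_apply_apply _ _
      right_inv := fun d => by
        refine Prod.ext rfl (Subtype.ext ?_)
        exact Equiv.apply_symm_apply _ _ }
  rw [Nat.card_congr e, Nat.card_prod]
  simp

/-- edges with a prescribed colour -/
theorem card_edge (n : W → ZMod 3) (P : ZMod 3 × W → Prop) (hP : ∀ d, P d → d.1 = n d.2) :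
    Nat.card {d : ZMod 3 × W // P d} = Nat.card {w // P (n w, w)} := by
  refine Nat.card_congr
    { toFun := fun d => ⟨d.1.2, by
        have := hP d.1 d.2
        rw [← this]; exact d.2⟩
      invFun := fun w => ⟨(n w.1, w.1), w.2⟩
      left_inv := fun d => by
        refine Subtype.ext (Prod.ext ?_ rfl)
        exact (hP d.1 d.2).symm
      right_inv := fun w => rfl }

/-- the vertices on `w0` -/
theorem card_root (w0 : W) : Nat.card {v : T.Vert // ∃ j, v = T.p j w0} = 3 := by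
  have e : ZMod 3 ≃ {v : T.Vert // ∃ j, v = T.p j w0} := by
    refine Equiv.ofBijective (fun j => ⟨T.p j w0, j, rfl⟩) ⟨?_, ?_⟩
    · intro i j h
      have h1 := congrArg (fun z => z.1.1) h
      exact h1
    · rintro ⟨v, j, rfl⟩
      exact ⟨j, rfl⟩
  rw [← Nat.card_congr e]
  simp

/-- `mu` is onto the vertices off `w0` -/
theorem exists_mu [Finite W] [Finite B] (hg : T.Genus0) (w0 : W) (m : W → ZMod 3)
    (hroot : ∀ w, w ≠ w0 → T.p (m w) w ≠ T.p (m w) w0)
    (hinj : ∀ w w', w ≠ w0 → w' ≠ w0 → T.p (m w) w = T.p (m w') w' → w = w')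
    (v : T.Vert) (hv : ∀ j, v ≠ T.p j w0) : ∃ w, w ≠ w0 ∧ T.p (m w) w = v := by
  classical
  have := Fintype.ofFinite W
  have := Fintype.ofFinite B
  have := Fintype.ofFinite T.Vert
  let f : {w : W // w ≠ w0} → {v : T.Vert // ¬ ∃ j, v = T.p j w0} := fun w =>
    ⟨T.p (m w.1) w.1, by
      rintro ⟨j, hj⟩
      have h1 : m w.1 = j := congrArg (fun z => z.1) hj
      rw [← h1] at hj
      exact hroot w.1 w.2 hj⟩
  have hf : Function.Injective f := by
    intro a b h
    exact Subtype.ext (hinj _ _ a.2 b.2 (congrArg Subtype.val h))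
  have h1 : Fintype.card {w : W // w ≠ w0} = Fintype.card W - 1 := by
    have := Fintype.card_subtype_compl (fun w : W => w = w0)
    rw [Fintype.card_subtype_eq] at this
    exact this
  have h2 : Fintype.card {v : T.Vert // ¬ ∃ j, v = T.p j w0} = Fintype.card T.Vert - 3 := by
    rw [Fintype.card_subtype_compl, ← Nat.card_eq_fintype_card (α := {v : T.Vert // ∃ j, v = T.p j w0}),
      card_root]
  have h3 : Fintype.card T.Vert = Fintype.card W + 2 := by
    rw [← Nat.card_eq_fintype_card, ← Nat.card_eq_fintype_card]; exact hg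
  have h4 : 0 < Fintype.card W := Fintype.card_pos_iff.2 ⟨w0⟩
  have hbij : Function.Bijective f := by
    rw [Fintype.bijective_iff_injective_and_card]
    exact ⟨hf, by omega⟩
  obtain ⟨w, hw⟩ := hbij.2 ⟨v, by rintro ⟨j, hj⟩; exact hv j hj⟩
  exact ⟨w.1, w.2, congrArg Subtype.val hw⟩

/-- closed sets of the complement of the matching `n` -/
def Closed (n : W → ZMod 3) (S : Set W) : Prop :=
  ∀ w ∈ S, ∀ w' c c', c ≠ n w → c' ≠ n w' → T.e c w = T.e c' w' → w' ∈ S

theorem Closed.compl {n : W → ZMod 3} {S : Set W} (h : Closed T n S) : Closed T n Sᶜ := by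
  intro w hw w' c c' hc hc' he hw'
  exact hw (h w' hw' w c' c hc' hc he.symm)

/-- COUNTING: the region of `w0` is everything -/
theorem count [Finite W] [Finite B] (hc : T.Conn) (hg : T.Genus0) (w0 : W) (m n : W → ZMod 3)
    (hmu : ∀ v : T.Vert, (∀ j, v ≠ T.p j w0) → ∃ w, w ≠ w0 ∧ T.p (m w) w = v)
    (hmn : ∀ w, w ≠ w0 → m w ≠ n w)
    (hbij : Function.Bijective (fun w => T.e (n w) w))
    (RW : Set W) (hw0 : w0 ∈ RW) (hcl : Closed T n RW)
    (hmin : ∀ S : Set W, w0 ∈ S → Closed T n S → RW ⊆ S) : RW = Set.univ := by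
  classical
  have := Fintype.ofFinite W
  have := Fintype.ofFinite B
  have := Fintype.ofFinite T.Vert
  by_contra hne
  obtain ⟨w1, hw1⟩ : ∃ w, w ∉ RW := by
    by_contra hcon
    push Not at hcon
    exact hne (Set.eq_univ_of_forall hcon)
  let RB : Set B := {b | ∃ w ∈ RW, ∃ c, c ≠ n w ∧ T.e c w = b}
  have hconn : RConn T RW RB := by
    intro h g hh
    refine ⟨h w0, ?_⟩
    have h1 : ∀ w ∈ RW, h w = h w0 := by
      have hsub := hmin {w | w ∈ RW ∧ h w = h w0} ⟨hw0, rfl⟩ (by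
        rintro w ⟨hw, hw'⟩ w' c c' hcc hcc' he
        have hw2 : w' ∈ RW := hcl w hw w' c c' hcc hcc' he
        refine ⟨hw2, ?_⟩
        have hb : T.e c w ∈ RB := ⟨w, hw, c, hcc, rfl⟩
        rw [← hw', hh c w hw hb, he, ← hh c' w' hw2 (by rw [← he]; exact hb)])
      intro w hw
      exact (hsub hw).2
    refine ⟨h1, ?_⟩
    rintro b hb
    obtain ⟨w, hw, c, hcc, rfl⟩ := hb
    rw [← hh c w hw ⟨w, hw, c, hcc, rfl⟩]
    exact h1 w hw
  have hE := euler_le T hc RW RB (Or.inl ⟨w1, hw1⟩) hconn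
  -- boundary edges are mono
  have hm1 : ∀ c w, w ∈ RW → T.e c w ∉ RB → c = n w := by
    intro c w hw hb
    by_contra hcon
    exact hb ⟨w, hw, c, hcon, rfl⟩
  have hm2 : ∀ c w, w ∉ RW → T.e c w ∈ RB → c = n w := by
    intro c w hw hb
    by_contra hcon
    obtain ⟨w', hw', c', hcc', he⟩ := hb
    exact hw (hcl w' hw' w c' c hcc' hcon he)
  -- numbers
  let NW := Nat.card W
  have hNB : Nat.card B = Nat.card W := card_B T
  have hV : Nat.card T.Vert = Nat.card W + 2 := hg
  -- edges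
  have c1 := card_compl (fun d : ZMod 3 × W => ETouch T RW RB d)
  have c2 : Nat.card {d : ZMod 3 × W // ¬ ETouch T RW RB d}
      = Nat.card {d : ZMod 3 × W // d.2 ∉ RW ∧ ¬ T.e d.1 d.2 ∈ RB} :=
    Nat.card_congr (Equiv.subtypeEquivRight (fun d => not_or))
  have c3 := card_split (fun d : ZMod 3 × W => d.2 ∉ RW) (fun d => T.e d.1 d.2 ∈ RB)
  have c4 : Nat.card {d : ZMod 3 × W // d.2 ∉ RW} = 3 * Nat.card {w // w ∉ RW} :=
    card_snd (fun w => w ∉ RW)
  have c5 := card_split (fun d : ZMod 3 × W => ¬ T.e d.1 d.2 ∈ RB) (fun d => d.2 ∈ RW)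
  have c6 : Nat.card {d : ZMod 3 × W // ¬ T.e d.1 d.2 ∈ RB} = 3 * Nat.card {b // b ∉ RB} :=
    card_snd' T (fun b => b ∉ RB)
  have c7 : Nat.card {d : ZMod 3 × W // ¬ T.e d.1 d.2 ∈ RB ∧ ¬ d.2 ∈ RW}
      = Nat.card {d : ZMod 3 × W // d.2 ∉ RW ∧ ¬ T.e d.1 d.2 ∈ RB} :=
    Nat.card_congr (Equiv.subtypeEquivRight (fun d => and_comm))
  have c8 := card_edge n (fun d : ZMod 3 × W => d.2 ∉ RW ∧ T.e d.1 d.2 ∈ RB)
    (fun d hd => hm2 d.1 d.2 hd.1 hd.2)
  have c9 := card_edge n (fun d : ZMod 3 × W => ¬ T.e d.1 d.2 ∈ RB ∧ d.2 ∈ RW)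
    (fun d hd => hm1 d.1 d.2 hd.2 hd.1)
  have c10 := card_split (fun w : W => w ∉ RW) (fun w => T.e (n w) w ∈ RB)
  have c11 := card_split (fun w : W => ¬ T.e (n w) w ∈ RB) (fun w => w ∈ RW)
  have c12 : Nat.card {w : W // ¬ T.e (n w) w ∈ RB} = Nat.card {b // b ∉ RB} := by
    refine Nat.card_congr ((Equiv.ofBijective _ hbij).subtypeEquiv (fun w => ?_))
    exact Iff.rfl
  have c13 : Nat.card {w : W // ¬ T.e (n w) w ∈ RB ∧ ¬ w ∈ RW}
      = Nat.card {w : W // w ∉ RW ∧ ¬ T.e (n w) w ∈ RB} :=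
    Nat.card_congr (Equiv.subtypeEquivRight (fun d => and_comm))
  have c14 := card_compl (fun w : W => w ∈ RW)
  have c15 := card_compl (fun b : B => b ∈ RB)
  have c16 := card_compl (fun v : T.Vert => Touch T RW RB v)
  have c17 : Nat.card (ZMod 3 × W) = 3 * Nat.card W := by
    rw [Nat.card_prod]; simp
  -- the vertices off the region
  have hoff : ∀ v : {v : T.Vert // ¬ Touch T RW RB v}, ∃ w, w ≠ w0 ∧ T.p (m w) w = v.1 := by
    rintro ⟨v, hv⟩
    refine hmu v (fun j hj => ?_)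
    exact hv (Or.inl ⟨j, w0, hw0, hj.symm⟩)
  choose g hg1 hg2 using hoff
  have c18 : Nat.card {v : T.Vert // ¬ Touch T RW RB v}
      ≤ Nat.card {w : W // w ∉ RW ∧ ¬ T.e (n w) w ∈ RB} := by
    refine Nat.card_le_card_of_injective (fun v => ⟨g v, ?_, ?_⟩) ?_
    · intro hw
      exact v.2 (Or.inl ⟨m (g v), g v, hw, hg2 v⟩)
    · intro hb
      refine v.2 (Or.inr ⟨m (g v), _, hb, ?_⟩)
      rw [q_e T (hmn _ (hg1 v)), hg2]
    · intro v v' h
      have h1 : g v = g v' := congrArg Subtype.val h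
      refine Subtype.ext ?_
      rw [← hg2 v, ← hg2 v', h1]
  have c19 : Nat.card RW = Nat.card {w // w ∈ RW} := rfl
  have c20 : Nat.card RB = Nat.card {b // b ∈ RB} := rfl
  simp only [] at c1 c3 c5 c8 c9 c10 c11 c14 c15 c16
  omega

/-- THE CRITERION -/
theorem crit [Finite W] [Finite B] (hc : T.Conn) (hg : T.Genus0) (w0 : W) (m : W → ZMod 3)
    (hroot : ∀ w, w ≠ w0 → T.p (m w) w ≠ T.p (m w) w0)
    (hinj : ∀ w w', w ≠ w0 → w' ≠ w0 → T.p (m w) w = T.p (m w') w' → w = w')
    (x : T.Vert → ZMod 2) (hx : ∀ w, w ≠ w0 → x (T.p (m w + 1) w) ≠ x (T.p (m w + 2) w))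
    (c0 : ZMod 3) (h0 : x (T.p (c0 + 1) w0) = x (T.p (c0 + 2) w0))
    (h0' : x (T.p c0 w0) ≠ x (T.p (c0 + 1) w0)) :
    ∃ n : W → ZMod 3, (Function.Bijective (fun w => T.e (n w) w) ∧
      ∀ S : Set W, S.Nonempty → (∀ w ∈ S, ∀ w' c c', c ≠ n w → c' ≠ n w' →
        T.e c w = T.e c' w' → w' ∈ S) → S = Set.univ) ∧ n w0 = c0 := by
  classical
  have := Fintype.ofFinite W
  have := Fintype.ofFinite B
  have hex : ∀ w, ∃ k, x (T.p (k + 1) w) = x (T.p (k + 2) w) := fun w =>
    exists_mono (fun i => x (T.p i w))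
  choose n hn using hex
  have huniq : ∀ w a, x (T.p (a + 1) w) = x (T.p (a + 2) w) → a = n w := by
    intro w a ha
    by_cases hw : w = w0
    · subst hw
      have h1 := mono_unique0 (fun i => x (T.p i w)) c0 h0 h0' ha
      have h2 := mono_unique0 (fun i => x (T.p i w)) c0 h0 h0' (hn w)
      rw [h1, h2]
    · exact mono_unique (fun i => x (T.p i w)) (m w) (hx w hw) ha (hn w)
  have n1 : ∀ c : ZMod 3, c + 1 ≠ c := by decide
  have n2 : ∀ c : ZMod 3, c + 2 ≠ c := by decide
  have hsurj : Function.Surjective (fun w => T.e (n w) w) := by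
    intro b
    obtain ⟨c, hcc⟩ := exists_mono (fun i => x (T.q i b))
    refine ⟨(T.e c).symm b, ?_⟩
    have h1 : T.e c ((T.e c).symm b) = b := Equiv.apply_symm_apply _ _
    have h2 : c = n ((T.e c).symm b) := by
      apply huniq
      rw [← q_e T (n1 c), ← q_e T (n2 c), h1]
      exact hcc
    show T.e (n ((T.e c).symm b)) ((T.e c).symm b) = b
    rw [← h2, h1]
  have hbij : Function.Bijective (fun w => T.e (n w) w) := by
    rw [Fintype.bijective_iff_surjective_and_card]
    exact ⟨hsurj, Fintype.card_congr (T.e 0)⟩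
  have hmn : ∀ w, w ≠ w0 → m w ≠ n w := by
    intro w hw h
    apply hx w hw
    rw [h]; exact hn w
  have hmu := exists_mu T hg w0 m hroot hinj
  -- the region of `w0`
  let RW : Set W := {w | ∀ S : Set W, w0 ∈ S → Closed T n S → w ∈ S}
  have hw0 : w0 ∈ RW := fun S h _ => h
  have hmin : ∀ S : Set W, w0 ∈ S → Closed T n S → RW ⊆ S := fun S h h' w hw => hw S h h'
  have hcl : Closed T n RW := by
    intro w hw w' c c' hcc hcc' he S hS hS'
    exact hS' w (hw S hS hS') w' c c' hcc hcc' he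
  have hall := count T hc hg w0 m n hmu hmn hbij RW hw0 hcl hmin
  refine ⟨n, ⟨hbij, ?_⟩, (huniq w0 c0 h0).symm⟩
  intro S hS hSc
  by_cases h : w0 ∈ S
  · have := hmin S h hSc
    rw [hall] at this
    exact Set.univ_subset_iff.1 this
  · have h1 := hmin Sᶜ h (Closed.compl T hSc)
    rw [hall] at h1
    have h2 := Set.univ_subset_iff.1 h1
    rw [Set.compl_univ_iff] at h2
    rw [h2] at hS
    exact absurd hS Set.not_nonempty_empty

end Crest.Agent.R039.Crit
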