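import Crest.Agent.R039.Crit365B
import Crest.Agent.R039.Defs29
import Crest.Agent.R039.Col31

/-!
# Row 39: BLOCK B3 (helper365, with helper31's colouring)
-/

set_option autoImplicit false

namespace Crest.Agent.R039.Crit

theorem blockCrit : BlockCrit := by
  intro W B _ _ _ _ T hc hg w0 m hT c0
  obtain ⟨x, h0, h0', hx⟩ := Col31.exists_colour_root_of_ker T hg w0 m hT.2 c0
  exact crit T hc hg w0 m hT.1.1 hT.1.2 x hx c0 h0 h0'

end Crest.Agent.R039.Crit

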