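import Crest.Agent.R039.TriEx995

/-!
# Row 39: Euler inequality for a subcomplex
-/

set_option autoImplicit false
set_option linter.unusedSectionVars false

namespace Crest.Agent.R039.Cyc

open Matrix Crest.Agent.R039.Map
open scoped Classical

section EI

variable {D X Y F : Type*} [Fintype D] [Fintype X] [Fintype Y] [DecidableEq X] [Field F]

/-- EULER INEQUALITY for a connected subcomplex which does not contain all faces -/
theorem euler_ineq (s t : D → X) (l r : D → Y)
    (hY : ∀ h : Y → F, (∀ d, h (l d) = h (r d)) → ∀ x y, h x = h y)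
    (hzero : ∀ f : Y → F, (inc F s t) *ᵥ (fun d => f (l d) - f (r d)) = 0)
    (VD : Finset X) (ED : Finset D) (FD : Finset Y)
    (hsV : ∀ d ∈ ED, s d ∈ VD) (htV : ∀ d ∈ ED, t d ∈ VD)
    (hFl : ∀ d, l d ∈ FD → d ∈ ED) (hFr : ∀ d, r d ∈ FD → d ∈ ED)
    (hconn : ∀ h : X → F, (∀ d ∈ ED, h (s d) = h (t d)) → ∀ x ∈ VD, ∀ y ∈ VD, h x = h y)
    (hne : ∃ y, y ∉ FD) : VD.card + FD.card ≤ ED.card + 1 := by
  let s' : ED → VD := fun d => ⟨s d.1, hsV d.1 d.2⟩
  let t' : ED → VD := fun d => ⟨t d.1, htV d.1 d.2⟩
  have r1 : Fintype.card VD ≤ (inc F s' t').rank + 1 := by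
    refine card_le_rank_inc s' t' (fun h hh x y => ?_)
    let h' : X → F := fun x => if hx : x ∈ VD then h ⟨x, hx⟩ else 0
    have e : ∀ x : VD, h' x.1 = h x := fun x => by
      show (if hx : x.1 ∈ VD then h ⟨x.1, hx⟩ else 0) = _
      rw [dif_pos x.2]
    have := hconn h' (fun d hd => by
      have := hh ⟨d, hd⟩
      have e1 := e (s' ⟨d, hd⟩)
      have e2 := e (t' ⟨d, hd⟩)
      show h' (s' ⟨d, hd⟩).1 = h' (t' ⟨d, hd⟩).1
      rw [e1, e2, this]) x.1 x.2 y.1 y.2
    rwa [e, e] at this
  have h2 := LinearMap.finrank_range_add_finrank_ker ((inc F s' t').mulVecLin)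
  rw [Module.finrank_fintype_fun_eq_card] at h2
  have h3 : (inc F s' t').rank = Module.finrank F (LinearMap.range ((inc F s' t').mulVecLin)) := rfl
  -- extension by zero
  let ex : (FD → F) → Y → F := fun f y => if hy : y ∈ FD then f ⟨y, hy⟩ else 0
  have exout : ∀ f y, y ∉ FD → ex f y = 0 := fun f y hy => dif_neg hy
  have exin : ∀ f (y : FD), ex f y.1 = f y := fun f y => dif_pos y.2
  let L : (FD → F) →ₗ[F] (ED → F) :=
    { toFun := fun f d => ex f (l d.1) - ex f (r d.1)
      map_add' := by
        intro f g
        funext d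
        have : ∀ y, ex (f + g) y = ex f y + ex g y := by
          intro y
          by_cases hy : y ∈ FD
          · simp only [ex, dif_pos hy, Pi.add_apply]
          · simp only [exout _ _ hy, add_zero]
        simp only [this, Pi.add_apply]
        ring
      map_smul' := by
        intro a f
        funext d
        have : ∀ y, ex (a • f) y = a * ex f y := by
          intro y
          by_cases hy : y ∈ FD
          · simp only [ex, dif_pos hy, Pi.smul_apply, smul_eq_mul]
          · simp only [exout _ _ hy, mul_zero]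
        simp only [this, RingHom.id_apply, Pi.smul_apply, smul_eq_mul]
        ring }
  have hLinj : Function.Injective L := by
    rw [← LinearMap.ker_eq_bot, LinearMap.ker_eq_bot']
    intro f hf
    have hall : ∀ d, ex f (l d) = ex f (r d) := by
      intro d
      by_cases hd : d ∈ ED
      · exact sub_eq_zero.1 (congrFun hf ⟨d, hd⟩)
      · rw [exout _ _ (fun h => hd (hFl d h)), exout _ _ (fun h => hd (hFr d h))]
    obtain ⟨y0, hy0⟩ := hne
    have hc := hY _ hall
    funext y
    rw [← exin f y, hc y.1 y0, exout _ _ hy0]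
    rfl
  have hLker : ∀ f, (inc F s' t').mulVecLin (L f) = 0 := by
    intro f
    rw [Matrix.mulVecLin_apply]
    funext x
    rw [inc_mulVec]
    have hz := congrFun (hzero (ex f)) x.1
    rw [inc_mulVec] at hz
    have hout : ∀ d, d ∉ ED → ex f (l d) - ex f (r d) = 0 := by
      intro d hd
      rw [exout _ _ (fun h => hd (hFl d h)), exout _ _ (fun h => hd (hFr d h)), sub_zero]
    have e1 : ∑ d : ED, ((if s' d = x then L f d else 0) - (if t' d = x then L f d else 0))
        = ∑ d ∈ ED, ((if s d = x.1 then (ex f (l d) - ex f (r d)) else 0)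
          - (if t d = x.1 then (ex f (l d) - ex f (r d)) else 0)) := by
      rw [← Finset.sum_coe_sort ED]
      refine Finset.sum_congr rfl (fun d _ => ?_)
      have a1 : (s' d = x) ↔ (s d.1 = x.1) := by
        rw [Subtype.ext_iff]
      have a2 : (t' d = x) ↔ (t d.1 = x.1) := by
        rw [Subtype.ext_iff]
      simp only [a1, a2]
      rfl
    rw [e1, Finset.sum_subset (Finset.subset_univ ED)]
    · exact hz
    · intro d _ hd
      rw [hout d hd]
      simp
  have h5 : FD.card ≤ Module.finrank F (LinearMap.ker ((inc F s' t').mulVecLin)) := by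
    have hle : LinearMap.range L ≤ LinearMap.ker ((inc F s' t').mulVecLin) := by
      rintro _ ⟨f, rfl⟩
      exact hLker f
    have := Submodule.finrank_mono hle
    rw [LinearMap.finrank_range_of_inj hLinj, Module.finrank_fintype_fun_eq_card,
      Fintype.card_coe] at this
    exact this
  rw [Fintype.card_coe] at h2 r1
  omega

end EI

end Crest.Agent.R039.Cyc
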