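import Crest.Agent.R039.Map834E

/-!
# Row 39: the corner potential and Stokes' formula

For a connected `Tri` and a root white face `w0` there is `phi : ZMod 3 → W → ℤ` (a function on
the corners `(colour i, white face w)`) such that for every closed chain
`g k w = hW w - hB (e k w)` with `hW w0 = 0`, `g k w0 = 0` one has
`∑ g k w * (phi (k+2) w - phi (k+1) w) = ∑ hB b`.
-/

set_option autoImplicit false

namespace Crest.Agent.R039

namespace Tri

variable {W B : Type*} [Fintype W] [Fintype B] [DecidableEq W] [DecidableEq B] (T : Tri W B)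

omit [Fintype W] [Fintype B] [DecidableEq B] in
/-- transport of a unit mass from `w0` to `w` -/
theorem exists_unit (hc : T.Conn) (w0 : W) (w : W) :
    ∃ psi : ZMod 3 → W → ℤ,
      (∀ w', ∑ k, psi k w' = (if w' = w then 1 else 0) - (if w' = w0 then 1 else 0)) ∧
      (∀ b, ∑ k, psi k ((T.e k).symm b) = 0) := by
  classical
  let S : Set W := {w | ∃ psi : ZMod 3 → W → ℤ,
      (∀ w', ∑ k, psi k w' = (if w' = w then 1 else 0) - (if w' = w0 then 1 else 0)) ∧
      (∀ b, ∑ k, psi k ((T.e k).symm b) = 0)}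
  have hS : S = Set.univ := by
    refine hc S ⟨w0, fun _ _ => 0, fun w' => by simp, fun b => by simp⟩ ?_
    rintro i w ⟨psi, h1, h2⟩
    refine ⟨fun k w' => psi k w' - (if k = i + 1 then (if w' = w then 1 else 0) else 0)
      + (if k = i + 2 then (if w' = T.pi i w then 1 else 0) else 0), ?_, ?_⟩
    · intro w'
      rw [Finset.sum_add_distrib, Finset.sum_sub_distrib, h1, Finset.sum_ite_eq', Finset.sum_ite_eq',
        if_pos (Finset.mem_univ _), if_pos (Finset.mem_univ _)]
      ring
    · intro b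
      rw [Finset.sum_add_distrib, Finset.sum_sub_distrib, h2, Finset.sum_ite_eq', Finset.sum_ite_eq',
        if_pos (Finset.mem_univ _), if_pos (Finset.mem_univ _)]
      have e1 : ((T.e (i + 1)).symm b = w) ↔ ((T.e (i + 2)).symm b = T.pi i w) := by
        rw [Equiv.symm_apply_eq, Equiv.symm_apply_eq]
        show _ ↔ b = T.e (i + 2) ((T.e (i + 2)).symm (T.e (i + 1) w))
        rw [Equiv.apply_symm_apply]
      by_cases hb : (T.e (i + 1)).symm b = w
      · rw [if_pos hb, if_pos (e1.1 hb)]; ring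
      · rw [if_neg hb, if_neg (fun h => hb (e1.2 h))]; ring
  have : w ∈ S := by rw [hS]; trivial
  exact this

omit [Fintype W] in
/-- the edge potential: zero sum at every white face except the root, sum `-1` at every black face -/
theorem exists_psi (hc : T.Conn) (w0 : W) :
    ∃ psi : ZMod 3 → W → ℤ, (∀ w, w ≠ w0 → ∑ k, psi k w = 0) ∧
      (∀ b, ∑ k, psi k ((T.e k).symm b) = -1) := by
  choose P hP1 hP2 using fun w => T.exists_unit hc w0 w
  refine ⟨fun k w' => ∑ b : B, (P ((T.e 0).symm b) k w'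
    - (if k = 0 then (if w' = (T.e 0).symm b then 1 else 0) else 0)), ?_, ?_⟩
  · intro w hw
    rw [Finset.sum_comm]
    refine Finset.sum_eq_zero (fun b _ => ?_)
    rw [Finset.sum_sub_distrib, hP1, Finset.sum_ite_eq', if_pos (Finset.mem_univ _), if_neg hw]
    ring
  · intro b'
    rw [Finset.sum_comm]
    have : ∀ b : B, ∑ k : ZMod 3, (P ((T.e 0).symm b) k ((T.e k).symm b')
        - (if k = 0 then (if (T.e k).symm b' = (T.e 0).symm b then (1 : ℤ) else 0) else 0))
        = if b' = b then -1 else 0 := by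
      intro b
      rw [Finset.sum_sub_distrib, hP2, Finset.sum_ite_eq', if_pos (Finset.mem_univ _)]
      by_cases hb : b' = b
      · subst hb; simp
      · rw [if_neg hb, if_neg (fun h => hb ((T.e 0).symm.injective h))]; ring
    rw [Finset.sum_congr rfl (fun b _ => this b), Finset.sum_ite_eq, if_pos (Finset.mem_univ _)]

omit [Fintype W] [Fintype B] [DecidableEq W] [DecidableEq B] in
/-- zero sum at a white face: the edge potential is the difference of a corner potential -/
theorem exists_corner (psi : ZMod 3 → W → ℤ) (w0 : W) (h : ∀ w, w ≠ w0 → ∑ k, psi k w = 0) :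
    ∃ phi : ZMod 3 → W → ℤ, ∀ k w, w ≠ w0 → phi (k + 2) w - phi (k + 1) w = psi k w := by
  refine ⟨fun i w => if i = 1 then psi 2 w else if i = 2 then psi 2 w + psi 0 w else 0, ?_⟩
  intro k w hw
  have hs : psi 0 w + psi 1 w + psi 2 w = 0 := by
    have := h w hw
    rw [← this]
    exact (Fin.sum_univ_three (fun k : ZMod 3 => psi k w)).symm
  have hk : ∀ k : ZMod 3, k = 0 ∨ k = 1 ∨ k = 2 := by decide
  have c1 : (2 : ZMod 3) ≠ 1 := by decide
  have c2 : (0 : ZMod 3) ≠ 1 := by decide
  have c3 : (0 : ZMod 3) ≠ 2 := by decide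
  rcases hk k with rfl | rfl | rfl
  · have a1 : (0 : ZMod 3) + 2 = 2 := by decide
    have a2 : (0 : ZMod 3) + 1 = 1 := by decide
    rw [a1, a2]; beta_reduce; rw [if_neg c1, if_pos rfl, if_pos rfl]; ring
  · have a1 : (1 : ZMod 3) + 2 = 0 := by decide
    have a2 : (1 : ZMod 3) + 1 = 2 := by decide
    rw [a1, a2]; beta_reduce; rw [if_neg c2, if_neg c3, if_neg c1, if_pos rfl]; linarith
  · have a1 : (2 : ZMod 3) + 2 = 1 := by decide
    have a2 : (2 : ZMod 3) + 1 = 0 := by decide
    rw [a1, a2]; beta_reduce; rw [if_pos rfl, if_neg c2, if_neg c3]; ring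

omit [DecidableEq B] in
/-- STOKES for the edge potential -/
theorem stokes_psi {R : Type*} [CommRing R] (w0 : W) (psi : ZMod 3 → W → ℤ)
    (h1 : ∀ w, w ≠ w0 → ∑ k, psi k w = 0) (h2 : ∀ b, ∑ k, psi k ((T.e k).symm b) = -1)
    (g : ZMod 3 → W → R) (hW : W → R) (hB : B → R) (hg : ∀ k w, g k w = hW w - hB (T.e k w))
    (h0 : hW w0 = 0) :
    ∑ w, ∑ k, g k w * (psi k w : R) = ∑ b, hB b := by
  have e1 : ∀ w, ∑ k, hW w * (psi k w : R) = 0 := by
    intro w
    rw [← Finset.mul_sum]
    by_cases hw : w = w0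
    · rw [hw, h0, zero_mul]
    · have := h1 w hw
      have h' : ∑ k, (psi k w : R) = ((∑ k, psi k w : ℤ) : R) := by push_cast; rfl
      rw [h', this, Int.cast_zero, mul_zero]
  have e2 : ∑ w, ∑ k, hB (T.e k w) * (psi k w : R) = - ∑ b, hB b := by
    rw [Finset.sum_comm]
    have : ∀ k : ZMod 3, ∑ w, hB (T.e k w) * (psi k w : R)
        = ∑ b, hB b * (psi k ((T.e k).symm b) : R) := by
      intro k
      rw [← Equiv.sum_comp (T.e k)]
      simp only [Equiv.symm_apply_apply]
    rw [Finset.sum_congr rfl (fun k _ => this k), Finset.sum_comm, ← Finset.sum_neg_distrib]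
    refine Finset.sum_congr rfl (fun b _ => ?_)
    rw [← Finset.mul_sum]
    have h' : ∑ k, (psi k ((T.e k).symm b) : R) = ((∑ k, psi k ((T.e k).symm b) : ℤ) : R) := by
      push_cast; rfl
    rw [h', h2]
    push_cast; ring
  have e3 : ∀ w, ∑ k, g k w * (psi k w : R)
      = ∑ k, hW w * (psi k w : R) - ∑ k, hB (T.e k w) * (psi k w : R) := by
    intro w
    rw [← Finset.sum_sub_distrib]
    refine Finset.sum_congr rfl (fun k _ => ?_)
    rw [hg]; ring
  rw [Finset.sum_congr rfl (fun w _ => e3 w), Finset.sum_sub_distrib,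
    Finset.sum_congr rfl (fun w _ => e1 w), Finset.sum_const_zero, e2]
  ring

/-- THE CORNER POTENTIAL: `phi (i, w)` such that for every closed chain `g` that does not use the
root face, `∑ g k w * (phi (k+2) w - phi (k+1) w)` is the sum over the black faces of the
primitive of `g` normalised to be zero at the root. -/
theorem exists_phi (hc : T.Conn) (w0 : W) :
    ∃ phi : ZMod 3 → W → ℤ, ∀ (R : Type*) [CommRing R] (g : ZMod 3 → W → R) (hW : W → R)
      (hB : B → R), (∀ k w, g k w = hW w - hB (T.e k w)) → hW w0 = 0 → (∀ k, g k w0 = 0) →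
      ∑ w, ∑ k, g k w * ((phi (k + 2) w - phi (k + 1) w : ℤ) : R) = ∑ b, hB b := by
  obtain ⟨psi, h1, h2⟩ := T.exists_psi hc w0
  obtain ⟨phi, hphi⟩ := exists_corner psi w0 h1
  refine ⟨phi, fun R _ g hW hB hg h0 hg0 => ?_⟩
  rw [← T.stokes_psi w0 psi h1 h2 g hW hB hg h0]
  refine Finset.sum_congr rfl (fun w _ => Finset.sum_congr rfl (fun k _ => ?_))
  by_cases hw : w = w0
  · rw [hw, hg0, zero_mul, zero_mul]
  · rw [hphi k w hw]

end Tri

end Crest.Agent.R039
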