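import Crest.Agent.R039.Cyc282A
import Crest.Agent.R039.Pot599

/-!
# Row 39: everything about one cycle of a rooted cycle cover
-/

set_option autoImplicit false
set_option linter.unusedSectionVars false

namespace Crest.Agent.R039.Cyc

open Matrix Crest.Agent.R039.Map
open scoped Classical

/-- the third colour -/
def cc (i j : ZMod 3) : ZMod 3 := -(i + j)

/-- the sign of the rotation `i → j` -/
def om (i j : ZMod 3) : ℤ := if j = i + 1 then 1 else -1

theorem om_sq (i j : ZMod 3) : om i j = 1 ∨ om i j = -1 := by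
  unfold om; split_ifs <;> simp

section

variable {W B : Type*} [Fintype W] [Fintype B] [DecidableEq W] [DecidableEq B] (T : Tri W B)

/-- white faces at a vertex off the support see the same side -/
theorem face_const (FD : Finset (W ⊕ B)) (v : T.Vert)
    (hv : ∀ k w, (T.p (k - 1) w = v ∨ T.p (k + 1) w = v) →
      (Sum.inl w ∈ FD ↔ Sum.inr (T.e k w) ∈ FD)) :
    ∀ w w', T.p v.1 w = v → T.p v.1 w' = v → (Sum.inl w ∈ FD ↔ Sum.inl w' ∈ FD) := by
  have a1 : ∀ i : ZMod 3, i + 1 - 1 = i := by decide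
  have a2 : ∀ i : ZMod 3, i + 2 + 1 = i := by decide
  have step : ∀ w, T.p v.1 w = v → (Sum.inl w ∈ FD ↔ Sum.inl (T.pi v.1 w) ∈ FD) := by
    intro w hw
    have h1 := hv (v.1 + 1) w (Or.inl (by rw [a1]; exact hw))
    have h2 := hv (v.1 + 2) (T.pi v.1 w) (Or.inr (by rw [a2, T.p_pi]; exact hw))
    rw [T.pi_apply, Equiv.apply_symm_apply] at h2
    rw [h1]
    exact h2.symm
  intro w w' hw hw'
  have hs : (T.pi v.1).SameCycle w w' := (T.p_eq_iff.1 (hw.trans hw'.symm)).2
  obtain ⟨n, hn⟩ := hs.exists_nat_pow_eq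
  have key : ∀ n : ℕ, T.p v.1 (((T.pi v.1) ^ n) w) = v ∧
      (Sum.inl w ∈ FD ↔ Sum.inl (((T.pi v.1) ^ n) w) ∈ FD) := by
    intro n
    induction n with
    | zero => exact ⟨hw, Iff.rfl⟩
    | succ n ih =>
      rw [pow_succ', Equiv.Perm.mul_apply]
      exact ⟨by rw [T.p_pi]; exact ih.1, ih.2.trans (step _ ih.1)⟩
  rw [← hn]
  exact (key n).2

variable (ms mt : W → ZMod 3) (O : Finset W)

/-- the vertices on the cycle -/
noncomputable def VS : Finset T.Vert := O.image (fun w => T.p (ms w) w)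

/-- one-sided Euler inequality for the two sides of a cycle -/
theorem disc_ineq (hc : T.Conn) (hO : O.Nonempty)
    (hne : ∀ w ∈ O, ms w ≠ mt w)
    (hinj : ∀ w ∈ O, ∀ w' ∈ O, T.p (ms w) w = T.p (ms w') w' → w = w')
    (himg : ∀ w ∈ O, ∃ w' ∈ O, T.p (mt w) w = T.p (ms w') w')
    (hcyc : ∀ h : W → ℚ, (∀ w ∈ O, ∀ w' ∈ O, T.p (mt w) w = T.p (ms w') w' → h w = h w') →
      ∀ w ∈ O, ∀ w' ∈ O, h w = h w')
    (FD : Finset (W ⊕ B)) (hC : ∀ w k, (Sum.inl w ∈ FD ↔ Sum.inr (T.e k w) ∈ FD) ↔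
      ¬ (w ∈ O ∧ k = cc (ms w) (mt w))) (hout : ∃ y, y ∉ FD) :
    O.card + (Finset.univ.filter (fun v : T.Vert => v ∉ VS T ms O ∧
      ∀ w, T.p v.1 w = v → Sum.inl w ∈ FD)).card + FD.card ≤
    (Finset.univ.filter (fun d : W × ZMod 3 =>
      Sum.inl d.1 ∈ FD ∨ Sum.inr (T.e d.2 d.1) ∈ FD)).card + 1 := by
  have ends : ∀ i j : ZMod 3, i ≠ j → (cc i j - 1 = i ∧ cc i j + 1 = j) ∨
      (cc i j - 1 = j ∧ cc i j + 1 = i) := by decide
  -- vertices on the cycle
  have hSmem : ∀ w ∈ O, T.p (ms w) w ∈ VS T ms O := fun w hw => Finset.mem_image_of_mem _ hw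
  have hTmem : ∀ w ∈ O, T.p (mt w) w ∈ VS T ms O := by
    intro w hw
    obtain ⟨w', hw', e⟩ := himg w hw
    rw [e]; exact hSmem w' hw'
  have hScard : (VS T ms O).card = O.card :=
    Finset.card_image_of_injOn (fun w hw w' hw' h => hinj w hw w' hw' h)
  -- edges with an end off the cycle do not cross
  have hoff : ∀ v : T.Vert, v ∉ VS T ms O → ∀ k w, (T.p (k - 1) w = v ∨ T.p (k + 1) w = v) →
      (Sum.inl w ∈ FD ↔ Sum.inr (T.e k w) ∈ FD) := by
    intro v hv k w hk
    rw [hC]
    rintro ⟨hw, rfl⟩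
    rcases ends _ _ (hne w hw) with ⟨e1, e2⟩ | ⟨e1, e2⟩ <;> rw [e1, e2] at hk <;>
      rcases hk with hk | hk <;> apply hv <;> rw [← hk]
    · exact hSmem w hw
    · exact hTmem w hw
    · exact hTmem w hw
    · exact hSmem w hw
  set ED := Finset.univ.filter (fun d : W × ZMod 3 =>
      Sum.inl d.1 ∈ FD ∨ Sum.inr (T.e d.2 d.1) ∈ FD) with hED
  set IN := Finset.univ.filter (fun v : T.Vert => v ∉ VS T ms O ∧
      ∀ w, T.p v.1 w = v → Sum.inl w ∈ FD) with hIN
  have hdisj : Disjoint (VS T ms O) IN := by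
    rw [Finset.disjoint_left]
    intro v hv hv'
    rw [hIN, Finset.mem_filter] at hv'
    exact hv'.2.1 hv
  have hcard : (VS T ms O ∪ IN).card = O.card + IN.card := by
    rw [Finset.card_union_of_disjoint hdisj, hScard]
  rw [← hcard]
  -- a vertex at an edge of ED
  have hmem : ∀ v : T.Vert, ∀ w k, (w, k) ∈ ED → (T.p (k - 1) w = v ∨ T.p (k + 1) w = v) →
      v ∈ VS T ms O ∪ IN := by
    intro v w k hd hk
    by_cases hv : v ∈ VS T ms O
    · exact Finset.mem_union_left _ hv
    · apply Finset.mem_union_right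
      rw [hIN, Finset.mem_filter]
      refine ⟨Finset.mem_univ _, hv, ?_⟩
      rw [hED, Finset.mem_filter] at hd
      have h1 := hoff v hv k w hk
      have hin : Sum.inl w ∈ FD := by
        rcases hd.2 with h | h
        · exact h
        · exact h1.2 h
      have hpw : T.p v.1 w = v := by
        rcases hk with hk | hk <;> rw [← hk] <;> rfl
      intro w' hw'
      exact (face_const T FD v (hoff v hv) w w' hpw hw').1 hin
  refine euler_ineq (F := ℚ) (fun d : W × ZMod 3 => T.p (d.2 - 1) d.1)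
    (fun d : W × ZMod 3 => T.p (d.2 + 1) d.1)
    (fun d : W × ZMod 3 => (Sum.inl d.1 : W ⊕ B))
    (fun d : W × ZMod 3 => (Sum.inr (T.e d.2 d.1) : W ⊕ B))
    (fun h hh => T.conn_face hc h (fun k w => hh (w, k)))
    (fun f => T.inc_delta f) (VS T ms O ∪ IN) ED FD ?_ ?_ ?_ ?_ ?_ hout
  · rintro ⟨w, k⟩ hd
    exact hmem _ w k hd (Or.inl rfl)
  · rintro ⟨w, k⟩ hd
    exact hmem _ w k hd (Or.inr rfl)
  · rintro ⟨w, k⟩ hd
    rw [hED, Finset.mem_filter]
    exact ⟨Finset.mem_univ _, Or.inl hd⟩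
  · rintro ⟨w, k⟩ hd
    rw [hED, Finset.mem_filter]
    exact ⟨Finset.mem_univ _, Or.inr hd⟩
  · intro h hh
    -- constant on the cycle
    have hedge : ∀ w ∈ O, h (T.p (ms w) w) = h (T.p (mt w) w) := by
      intro w hw
      have hd : (w, cc (ms w) (mt w)) ∈ ED := by
        rw [hED, Finset.mem_filter]
        refine ⟨Finset.mem_univ _, ?_⟩
        have := hC w (cc (ms w) (mt w))
        by_contra hcon
        rw [not_or] at hcon
        exact this.1 ⟨fun h => absurd h hcon.1, fun h => absurd h hcon.2⟩ ⟨hw, rfl⟩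
      have := hh _ hd
      rcases ends _ _ (hne w hw) with ⟨e1, e2⟩ | ⟨e1, e2⟩
      · simp only [e1, e2] at this
        exact this
      · simp only [e1, e2] at this
        exact this.symm
    have hS : ∀ w ∈ O, ∀ w' ∈ O, h (T.p (ms w) w) = h (T.p (ms w') w') :=
      hcyc (fun w => h (T.p (ms w) w)) (fun w hw w' _ e => by
        show h (T.p (ms w) w) = h (T.p (ms w') w')
        rw [hedge w hw, e])
    obtain ⟨w1, hw1⟩ := hO
    have hS' : ∀ v ∈ VS T ms O, h v = h (T.p (ms w1) w1) := by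
      intro v hv
      obtain ⟨w, hw, rfl⟩ := Finset.mem_image.1 hv
      exact hS w hw w1 hw1
    let h2 : T.Vert → ℚ := fun v => if v ∈ VS T ms O ∪ IN then h v else h (T.p (ms w1) w1)
    have e_in : ∀ v, v ∈ VS T ms O ∪ IN → h2 v = h v := fun v hv => if_pos hv
    have key : ∀ k w, h2 (T.p (k - 1) w) = h2 (T.p (k + 1) w) := by
      intro k w
      by_cases hd : (w, k) ∈ ED
      · rw [e_in _ (hmem _ w k hd (Or.inl rfl)), e_in _ (hmem _ w k hd (Or.inr rfl))]
        exact hh _ hd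
      · have hd' : Sum.inl w ∉ FD ∧ Sum.inr (T.e k w) ∉ FD := by
          rw [hED, Finset.mem_filter, not_and] at hd
          exact not_or.1 (hd (Finset.mem_univ _))
        have out : ∀ v : T.Vert, (T.p (k - 1) w = v ∨ T.p (k + 1) w = v) →
            h2 v = h (T.p (ms w1) w1) := by
          intro v hk
          by_cases hv : v ∈ VS T ms O
          · rw [e_in _ (Finset.mem_union_left _ hv)]
            exact hS' v hv
          · have hpw : T.p v.1 w = v := by
              rcases hk with hk | hk <;> rw [← hk] <;> rfl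
            have : v ∉ VS T ms O ∪ IN := by
              rw [Finset.mem_union, not_or]
              refine ⟨hv, fun h => ?_⟩
              rw [hIN, Finset.mem_filter] at h
              exact hd'.1 (h.2.2 w hpw)
            exact if_neg this
        rw [out _ (Or.inl rfl), out _ (Or.inr rfl)]
    have hall := T.conn_vert hc h2 key
    intro x hx y hy
    rw [← e_in x hx, ← e_in y hy]
    exact hall x y

end

end Crest.Agent.R039.Cyc
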