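import Crest.Agent.R039.Cyc282B

/-!
# Row 39: counting for one cycle of a rooted cycle cover
-/

set_option autoImplicit false
set_option linter.unusedSectionVars false

namespace Crest.Agent.R039.Cyc

open Matrix Crest.Agent.R039.Map
open scoped Classical

section

variable {W B : Type*} [Fintype W] [Fintype B] [DecidableEq W] [DecidableEq B] (T : Tri W B)
variable (ms mt : W → ZMod 3) (O : Finset W)

/-- number of edges touching a set of faces -/
theorem edges_card (FD : Finset (W ⊕ B)) (hC : ∀ w k, (Sum.inl w ∈ FD ↔ Sum.inr (T.e k w) ∈ FD) ↔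
      ¬ (w ∈ O ∧ k = cc (ms w) (mt w))) :
    (Finset.univ.filter (fun d : W × ZMod 3 =>
      Sum.inl d.1 ∈ FD ∨ Sum.inr (T.e d.2 d.1) ∈ FD)).card =
      3 * (Finset.univ.filter (fun w : W => (Sum.inl w : W ⊕ B) ∈ FD)).card
        + (O.filter (fun w => (Sum.inl w : W ⊕ B) ∉ FD)).card ∧
    (Finset.univ.filter (fun d : W × ZMod 3 =>
      Sum.inl d.1 ∈ FD ∨ Sum.inr (T.e d.2 d.1) ∈ FD)).card =
      3 * (Finset.univ.filter (fun b : B => (Sum.inr b : W ⊕ B) ∈ FD)).card
        + (O.filter (fun w => (Sum.inl w : W ⊕ B) ∈ FD)).card := by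
  have c1 : (Finset.univ.filter (fun d : W × ZMod 3 => Sum.inl d.1 ∈ FD)).card =
      3 * (Finset.univ.filter (fun w : W => (Sum.inl w : W ⊕ B) ∈ FD)).card := by
    have : Finset.univ.filter (fun d : W × ZMod 3 => Sum.inl d.1 ∈ FD) =
        (Finset.univ.filter (fun w : W => (Sum.inl w : W ⊕ B) ∈ FD)) ×ˢ
          (Finset.univ : Finset (ZMod 3)) := by
      ext ⟨w, k⟩
      simp
    rw [this, Finset.card_product, Finset.card_univ, ZMod.card, mul_comm]
  have c4 : (Finset.univ.filter (fun d : W × ZMod 3 => Sum.inr (T.e d.2 d.1) ∈ FD)).card =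
      3 * (Finset.univ.filter (fun b : B => (Sum.inr b : W ⊕ B) ∈ FD)).card := by
    have e1 : ((Finset.univ.filter (fun b : B => (Sum.inr b : W ⊕ B) ∈ FD)) ×ˢ
          (Finset.univ : Finset (ZMod 3))).card = 3 *
          (Finset.univ.filter (fun b : B => (Sum.inr b : W ⊕ B) ∈ FD)).card := by
      rw [Finset.card_product, Finset.card_univ, ZMod.card, mul_comm]
    rw [← e1]
    refine Finset.card_nbij' (fun d => (T.e d.2 d.1, d.2)) (fun d => ((T.e d.2).symm d.1, d.2))
      ?_ ?_ ?_ ?_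
    · intro d hd
      simpa using hd
    · intro d hd
      simpa using hd
    · intro d _
      simp
    · intro d _
      simp
  have c2 : (Finset.univ.filter (fun d : W × ZMod 3 => Sum.inl d.1 ∉ FD ∧
      Sum.inr (T.e d.2 d.1) ∈ FD)).card = (O.filter (fun w => (Sum.inl w : W ⊕ B) ∉ FD)).card := by
    symm
    refine Finset.card_nbij' (fun w => (w, cc (ms w) (mt w))) (fun d => d.1) ?_ ?_ ?_ ?_
    · intro w hw
      simp only [Finset.coe_filter, Set.mem_ofPred_eq] at hw
      simp only [Finset.coe_filter, Set.mem_ofPred_eq]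
      refine ⟨Finset.mem_univ _, hw.2, ?_⟩
      by_contra hcon
      exact (hC w (cc (ms w) (mt w))).1 ⟨fun h => absurd h hw.2, fun h => absurd h hcon⟩
        ⟨hw.1, rfl⟩
    · rintro ⟨w, k⟩ hd
      simp only [Finset.coe_filter, Set.mem_ofPred_eq] at hd
      simp only [Finset.coe_filter, Set.mem_ofPred_eq]
      refine ⟨?_, hd.2.1⟩
      by_contra hcon
      exact hd.2.1 (((hC w k).2 (fun h => hcon h.1)).2 hd.2.2)
    · intro w _; rfl
    · rintro ⟨w, k⟩ hd
      simp only [Finset.coe_filter, Set.mem_ofPred_eq] at hd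
      by_contra hcon
      refine hd.2.1 (((hC w k).2 (fun h => hcon ?_)).2 hd.2.2)
      rw [h.2]
  have c3 : (Finset.univ.filter (fun d : W × ZMod 3 => Sum.inl d.1 ∈ FD ∧
      Sum.inr (T.e d.2 d.1) ∉ FD)).card = (O.filter (fun w => (Sum.inl w : W ⊕ B) ∈ FD)).card := by
    symm
    refine Finset.card_nbij' (fun w => (w, cc (ms w) (mt w))) (fun d => d.1) ?_ ?_ ?_ ?_
    · intro w hw
      simp only [Finset.coe_filter, Set.mem_ofPred_eq] at hw
      simp only [Finset.coe_filter, Set.mem_ofPred_eq]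
      refine ⟨Finset.mem_univ _, hw.2, ?_⟩
      intro hcon
      exact (hC w (cc (ms w) (mt w))).1 ⟨fun _ => hcon, fun _ => hw.2⟩
        ⟨hw.1, rfl⟩
    · rintro ⟨w, k⟩ hd
      simp only [Finset.coe_filter, Set.mem_ofPred_eq] at hd
      simp only [Finset.coe_filter, Set.mem_ofPred_eq]
      refine ⟨?_, hd.2.1⟩
      by_contra hcon
      exact hd.2.2 (((hC w k).2 (fun h => hcon h.1)).1 hd.2.1)
    · intro w _; rfl
    · rintro ⟨w, k⟩ hd
      simp only [Finset.coe_filter, Set.mem_ofPred_eq] at hd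
      by_contra hcon
      refine hd.2.2 (((hC w k).2 (fun h => hcon ?_)).1 hd.2.1)
      rw [h.2]
  constructor
  · rw [← c1, ← c2, ← Finset.card_union_of_disjoint]
    · congr 1
      ext d
      simp only [Finset.mem_filter, Finset.mem_univ, true_and, Finset.mem_union]
      tauto
    · rw [Finset.disjoint_left]
      intro d hd hd'
      simp only [Finset.mem_filter, Finset.mem_univ, true_and] at hd hd'
      exact hd'.1 hd
  · rw [← c4, ← c3, ← Finset.card_union_of_disjoint]
    · congr 1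
      ext d
      simp only [Finset.mem_filter, Finset.mem_univ, true_and, Finset.mem_union]
      tauto
    · rw [Finset.disjoint_left]
      intro d hd hd'
      simp only [Finset.mem_filter, Finset.mem_univ, true_and] at hd hd'
      exact hd'.2 hd

/-- DISC COUNT for a cover cycle -/
theorem disc_count (hc : T.Conn) (hg : T.Genus0) (hO : O.Nonempty)
    (hne : ∀ w ∈ O, ms w ≠ mt w)
    (hinj : ∀ w ∈ O, ∀ w' ∈ O, T.p (ms w) w = T.p (ms w') w' → w = w')
    (himg : ∀ w ∈ O, ∃ w' ∈ O, T.p (mt w) w = T.p (ms w') w')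
    (hcyc : ∀ h : W → ℚ, (∀ w ∈ O, ∀ w' ∈ O, T.p (mt w) w = T.p (ms w') w' → h w = h w') →
      ∀ w ∈ O, ∀ w' ∈ O, h w = h w')
    (FD : Finset (W ⊕ B)) (hC : ∀ w k, (Sum.inl w ∈ FD ↔ Sum.inr (T.e k w) ∈ FD) ↔
      ¬ (w ∈ O ∧ k = cc (ms w) (mt w))) (hout : ∃ y, y ∉ FD) (hin : ∃ y, y ∈ FD)
    (hIN : (Finset.univ.filter (fun v : T.Vert => v ∉ VS T ms O ∧
      ∀ w, T.p v.1 w = v → Sum.inl w ∈ FD)).card + (O.filter (fun w => (Sum.inl w : W ⊕ B) ∈ FD)).card
      = (Finset.univ.filter (fun w : W => (Sum.inl w : W ⊕ B) ∈ FD)).card) :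
    O.card = 2 * (O.filter (fun w => (Sum.inl w : W ⊕ B) ∈ FD)).card + 3 ∧
    (Finset.univ.filter (fun b : B => (Sum.inr b : W ⊕ B) ∈ FD)).card =
      (Finset.univ.filter (fun w : W => (Sum.inl w : W ⊕ B) ∈ FD)).card + 1 := by
  have hC' : ∀ w k, (Sum.inl w ∈ FDᶜ ↔ Sum.inr (T.e k w) ∈ FDᶜ) ↔
      ¬ (w ∈ O ∧ k = cc (ms w) (mt w)) := by
    intro w k
    rw [← hC w k, Finset.mem_compl, Finset.mem_compl, not_iff_not]
  have i1 := disc_ineq T ms mt O hc hO hne hinj himg hcyc FD hC hout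
  have i2 := disc_ineq T ms mt O hc hO hne hinj himg hcyc FDᶜ hC' (by
    obtain ⟨y, hy⟩ := hin
    exact ⟨y, by rw [Finset.mem_compl, not_not]; exact hy⟩)
  have e1 := edges_card T ms mt O FD hC
  have e2 := edges_card T ms mt O FDᶜ hC'
  -- vertices
  have ends : ∀ i j : ZMod 3, i ≠ j → (cc i j - 1 = i ∧ cc i j + 1 = j) ∨
      (cc i j - 1 = j ∧ cc i j + 1 = i) := by decide
  have hSmem : ∀ w ∈ O, T.p (ms w) w ∈ VS T ms O := fun w hw => Finset.mem_image_of_mem _ hw
  have hTmem : ∀ w ∈ O, T.p (mt w) w ∈ VS T ms O := by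
    intro w hw
    obtain ⟨w', hw', e⟩ := himg w hw
    rw [e]; exact hSmem w' hw'
  have hScard : (VS T ms O).card = O.card :=
    Finset.card_image_of_injOn (fun w hw w' hw' h => hinj w hw w' hw' h)
  have hoff : ∀ v : T.Vert, v ∉ VS T ms O → ∀ k w, (T.p (k - 1) w = v ∨ T.p (k + 1) w = v) →
      (Sum.inl w ∈ FD ↔ Sum.inr (T.e k w) ∈ FD) := by
    intro v hv k w hk
    rw [hC]
    rintro ⟨hw, rfl⟩
    rcases ends _ _ (hne w hw) with ⟨e1, e2⟩ | ⟨e1, e2⟩ <;> rw [e1, e2] at hk <;>
      rcases hk with hk | hk <;> apply hv <;> rw [← hk]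
    · exact hSmem w hw
    · exact hTmem w hw
    · exact hTmem w hw
    · exact hSmem w hw
  have hV : (Finset.univ.filter (fun v : T.Vert => v ∉ VS T ms O ∧
      ∀ w, T.p v.1 w = v → Sum.inl w ∈ FD)).card + (Finset.univ.filter (fun v : T.Vert =>
      v ∉ VS T ms O ∧ ∀ w, T.p v.1 w = v → Sum.inl w ∈ FDᶜ)).card + O.card =
      Fintype.card W + 2 := by
    rw [← T.card_vert hg, ← hScard, ← Finset.card_union_of_disjoint,
      ← Finset.card_union_of_disjoint, ← Finset.card_univ]
    · congr 1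
      ext v
      simp only [Finset.mem_union, Finset.mem_filter, Finset.mem_univ, true_and, iff_true]
      by_cases hv : v ∈ VS T ms O
      · exact Or.inr hv
      · left
        obtain ⟨w, hw⟩ := T.exists_p v
        by_cases hw2 : Sum.inl w ∈ FD
        · left
          exact ⟨hv, fun w' hw' => (face_const T FD v (hoff v hv) w w' hw hw').1 hw2⟩
        · right
          refine ⟨hv, fun w' hw' => ?_⟩
          rw [Finset.mem_compl]
          exact fun h => hw2 ((face_const T FD v (hoff v hv) w w' hw hw').2 h)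
    · rw [Finset.disjoint_left]
      intro v hv hv'
      simp only [Finset.mem_union, Finset.mem_filter, Finset.mem_univ, true_and] at hv
      rcases hv with hv | hv
      · exact hv.1 hv'
      · exact hv.1 hv'
    · rw [Finset.disjoint_left]
      intro v hv hv'
      simp only [Finset.mem_filter, Finset.mem_univ, true_and] at hv hv'
      obtain ⟨w, hw⟩ := T.exists_p v
      have := hv'.2 w hw
      rw [Finset.mem_compl] at this
      exact this (hv.2 w hw)
  -- faces
  have hF : ∀ G : Finset (W ⊕ B), G.card = (Finset.univ.filter (fun w : W => (Sum.inl w : W ⊕ B) ∈ G)).card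
      + (Finset.univ.filter (fun b : B => (Sum.inr b : W ⊕ B) ∈ G)).card := by
    intro G
    rw [← Finset.card_map (⟨Sum.inl, Sum.inl_injective⟩ : W ↪ W ⊕ B) (s := Finset.univ.filter (fun w : W => (Sum.inl w : W ⊕ B) ∈ G)),
      ← Finset.card_map (⟨Sum.inr, Sum.inr_injective⟩ : B ↪ W ⊕ B) (s := Finset.univ.filter (fun b : B => (Sum.inr b : W ⊕ B) ∈ G)),
      ← Finset.card_union_of_disjoint]
    · congr 1
      ext y
      rcases y with y | y <;> simp
    · rw [Finset.disjoint_left]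
      intro y hy hy'
      rcases y with y | y
      · simp at hy'
      · simp at hy
  have f1 := hF FD
  have f2 := hF FDᶜ
  have f3 : FD.card + FDᶜ.card = Fintype.card (W ⊕ B) := by
    rw [← Finset.card_add_card_compl FD]
  rw [Fintype.card_sum, T.card_B] at f3
  have g1 : (O.filter (fun w => (Sum.inl w : W ⊕ B) ∈ FD)).card
      + (O.filter (fun w => (Sum.inl w : W ⊕ B) ∉ FD)).card = O.card :=
    Finset.card_filter_add_card_filter_not _
  have g2 : (O.filter (fun w => (Sum.inl w : W ⊕ B) ∈ FDᶜ)) =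
      (O.filter (fun w => (Sum.inl w : W ⊕ B) ∉ FD)) := by
    apply Finset.filter_congr; intro w _; rw [Finset.mem_compl]
  have g3 : (O.filter (fun w => (Sum.inl w : W ⊕ B) ∉ FDᶜ)) =
      (O.filter (fun w => (Sum.inl w : W ⊕ B) ∈ FD)) := by
    apply Finset.filter_congr; intro w _; rw [Finset.mem_compl, not_not]
  have g4 : (Finset.univ.filter (fun w : W => (Sum.inl w : W ⊕ B) ∈ FD)).card +
      (Finset.univ.filter (fun w : W => (Sum.inl w : W ⊕ B) ∈ FDᶜ)).card = Fintype.card W := by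
    rw [← Finset.card_univ, ← Finset.card_filter_add_card_filter_not (s := Finset.univ)
      (fun w : W => (Sum.inl w : W ⊕ B) ∈ FD)]
    congr 2
    apply Finset.filter_congr; intro w _; rw [Finset.mem_compl]
  rw [g2, g3] at e2
  obtain ⟨e11, e12⟩ := e1
  obtain ⟨e21, e22⟩ := e2
  rw [e11] at i1 e12
  rw [e21] at i2 e22
  omega

end

end Crest.Agent.R039.Cyc
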