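import Crest.Agent.R039.Cyc282C

/-!
# Row 39: the facts about one cycle of a rooted cycle cover

`cover_cycle`: for a connected genus-zero `Tri` and a root `w0` there is an integer corner
function `phi` such that for any two corner choices `ms`, `mt` and every cycle `O` of
`s⁻¹ t` one has `|O| = 2 r + 3`, `∏ om = a (-1)^(r+1)`, `∑ (phi_t - phi_s) = a A`, `A ≥ 1`.
-/

set_option autoImplicit false
set_option linter.unusedSectionVars false

namespace Crest.Agent.R039.Cyc

open Matrix Crest.Agent.R039.Map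
open scoped Classical

theorem om_local : ∀ i a b : ZMod 3, a ≠ b →
    ((if i + 1 = cc a b then om a b else 0) - (if i + 2 = cc a b then om a b else 0) : ℤ) =
      (if b = i then 1 else 0) - (if a = i then 1 else 0) := by decide

theorem om_phi : ∀ a b : ZMod 3, a ≠ b → (om a b = 1 ∧ cc a b + 1 = a ∧ cc a b + 2 = b) ∨
    (om a b = -1 ∧ cc a b + 1 = b ∧ cc a b + 2 = a) := by decide

section

variable {W B : Type*} [Fintype W] [Fintype B] [DecidableEq W] [DecidableEq B] (T : Tri W B)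
variable (ms mt : W → ZMod 3) (O : Finset W)

/-- the oriented chain of a cycle -/
noncomputable def zc (k : ZMod 3) (w : W) : ℚ :=
  if w ∈ O ∧ k = cc (ms w) (mt w) then ((om (ms w) (mt w) : ℤ) : ℚ) else 0

theorem zc_sum (hne : ∀ w ∈ O, ms w ≠ mt w) (y : W → ℚ) (v : T.Vert) :
    ∑ w : W, (if T.p v.1 w = v then zc ms mt O (v.1 + 1) w * y w - zc ms mt O (v.1 + 2) w * y w
      else 0) =
    (∑ w ∈ O, if T.p (mt w) w = v then y w else 0) -
      (∑ w ∈ O, if T.p (ms w) w = v then y w else 0) := by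
  rw [← Finset.sum_sub_distrib, ← Finset.sum_subset (Finset.subset_univ O)]
  · refine Finset.sum_congr rfl (fun w hw => ?_)
    have hv : ∀ j : ZMod 3, T.p j w = v ↔ j = v.1 ∧ T.p v.1 w = v := by
      intro j
      constructor
      · intro h
        have : j = v.1 := by rw [← h]; rfl
        subst this
        exact ⟨rfl, h⟩
      · rintro ⟨rfl, h⟩; exact h
    have hl := om_local v.1 (ms w) (mt w) (hne w hw)
    have hl' : zc ms mt O (v.1 + 1) w - zc ms mt O (v.1 + 2) w =
        (if mt w = v.1 then 1 else 0) - (if ms w = v.1 then 1 else 0) := by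
      have : ((((if v.1 + 1 = cc (ms w) (mt w) then om (ms w) (mt w) else 0) -
        (if v.1 + 2 = cc (ms w) (mt w) then om (ms w) (mt w) else 0) : ℤ)) : ℚ) =
        (((if mt w = v.1 then 1 else 0) - (if ms w = v.1 then 1 else 0) : ℤ) : ℚ) := by
        rw [hl]
      push_cast at this
      rw [← this]
      unfold zc
      simp only [hw, true_and]
    rw [← sub_mul, hl', if_congr (hv (mt w)) rfl rfl, if_congr (hv (ms w)) rfl rfl]
    by_cases h : T.p v.1 w = v
    · simp only [h, and_true, if_true]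
      by_cases h1 : mt w = v.1 <;> by_cases h2 : ms w = v.1 <;> simp [h1, h2]
    · simp only [h, and_false, if_false, sub_zero]
  · intro w _ hw
    unfold zc
    simp [hw]

theorem sum_single {X : Type*} [DecidableEq X] (f : W → X)
    (hf : ∀ w ∈ O, ∀ w' ∈ O, f w = f w' → w = w') (y : W → ℚ) (w1 : W) (h1 : w1 ∈ O) :
    (∑ w ∈ O, if f w = f w1 then y w else 0) = y w1 := by
  rw [Finset.sum_eq_single w1]
  · rw [if_pos rfl]
  · intro w hw hne
    rw [if_neg]
    intro h
    exact hne (hf w hw w1 h1 h)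
  · intro h; exact absurd h1 h

theorem cover_cycle_aux (hc : T.Conn) (hg : T.Genus0) (w0 : W)
    (phi : ZMod 3 → W → ℤ)
    (hphi : ∀ (g : ZMod 3 → W → ℚ) (hW : W → ℚ)
      (hB : B → ℚ), (∀ k w, g k w = hW w - hB (T.e k w)) → hW w0 = 0 → (∀ k, g k w0 = 0) →
      ∑ w, ∑ k, g k w * ((phi (k + 2) w - phi (k + 1) w : ℤ) : ℚ) = ∑ b, hB b)
    (hsinj : ∀ w w', w ≠ w0 → w' ≠ w0 → T.p (ms w) w = T.p (ms w') w' → w = w')
    (hssurj : ∀ v : T.Vert, (∀ i, T.p i w0 ≠ v) → ∃ w, w ≠ w0 ∧ T.p (ms w) w = v)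
    (htinj : ∀ w ∈ O, ∀ w' ∈ O, T.p (mt w) w = T.p (mt w') w' → w = w')
    (hO : O.Nonempty) (hO0 : w0 ∉ O)
    (hne : ∀ w ∈ O, ms w ≠ mt w)
    (himg : ∀ w ∈ O, ∃ w' ∈ O, T.p (mt w) w = T.p (ms w') w')
    (hcyc : ∀ h : W → ℚ, (∀ w ∈ O, ∀ w' ∈ O, T.p (mt w) w = T.p (ms w') w' → h w = h w') →
      ∀ w ∈ O, ∀ w' ∈ O, h w = h w') :
    ∃ (a : ℤ) (r A : ℕ), (a = 1 ∨ a = -1) ∧ 1 ≤ A ∧ O.card = 2 * r + 3 ∧
      ∏ w ∈ O, om (ms w) (mt w) = a * (-1) ^ (r + 1) ∧
      ∑ w ∈ O, (phi (mt w) w - phi (ms w) w) = a * A := by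
  have hO0' : ∀ w ∈ O, w ≠ w0 := fun w hw h => hO0 (h ▸ hw)
  have hinj : ∀ w ∈ O, ∀ w' ∈ O, T.p (ms w) w = T.p (ms w') w' → w = w' :=
    fun w hw w' hw' h => hsinj w w' (hO0' w hw) (hO0' w' hw') h
  have himgeq : O.image (fun w => T.p (mt w) w) = O.image (fun w => T.p (ms w) w) := by
    apply Finset.eq_of_subset_of_card_le
    · intro v hv
      obtain ⟨w, hw, rfl⟩ := Finset.mem_image.1 hv
      obtain ⟨w', hw', e⟩ := himg w hw
      rw [e]
      exact Finset.mem_image_of_mem _ hw'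
    · rw [Finset.card_image_of_injOn (fun w hw w' hw' h => hinj w hw w' hw' h),
        Finset.card_image_of_injOn (fun w hw w' hw' h => htinj w hw w' hw' h)]
  -- the chain is closed
  have hclosed : ∀ v : T.Vert, ∑ w : W, (if T.p v.1 w = v then zc ms mt O (v.1 + 1) w
      - zc ms mt O (v.1 + 2) w else 0) = 0 := by
    intro v
    have := zc_sum T ms mt O hne (fun _ => 1) v
    simp only [mul_one] at this
    rw [this, sub_eq_zero]
    by_cases hv : v ∈ O.image (fun w => T.p (ms w) w)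
    · obtain ⟨w', hw', e'⟩ := Finset.mem_image.1 hv
      rw [← himgeq] at hv
      obtain ⟨w, hw, e⟩ := Finset.mem_image.1 hv
      have h1 := sum_single O (fun w => T.p (mt w) w) htinj (fun _ => 1) w hw
      have h2 := sum_single O (fun w => T.p (ms w) w) hinj (fun _ => 1) w' hw'
      simp only [e] at h1
      simp only [e'] at h2
      rw [h1, h2]
    · have hv' : v ∉ O.image (fun w => T.p (mt w) w) := by rw [himgeq]; exact hv
      rw [Finset.sum_eq_zero, Finset.sum_eq_zero]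
      · intro w hw
        rw [if_neg]
        intro h; apply hv; rw [← h]; exact Finset.mem_image_of_mem _ hw
      · intro w hw
        rw [if_neg]
        intro h; apply hv'; rw [← h]
        exact Finset.mem_image_of_mem (fun w => T.p (mt w) w) hw
  obtain ⟨h0, hh0⟩ := T.dual_exact hc hg (zc ms mt O) hclosed
  obtain ⟨h, hh, hroot⟩ : ∃ h : W ⊕ B → ℚ, (∀ k w, h (Sum.inl w) - h (Sum.inr (T.e k w)) =
      zc ms mt O k w) ∧ h (Sum.inl w0) = 0 :=
    ⟨fun y => h0 y - h0 (Sum.inl w0), fun k w => by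
      rw [← hh0 k w]; ring, sub_self _⟩
  -- the square trick
  let y : W → ℚ := fun w => h (Sum.inl w) + h (Sum.inr (T.e (cc (ms w) (mt w)) w))
  have hsq : ∀ k w, h (Sum.inl w) ^ 2 - h (Sum.inr (T.e k w)) ^ 2 = zc ms mt O k w * y w := by
    intro k w
    have e1 : h (Sum.inl w) ^ 2 - h (Sum.inr (T.e k w)) ^ 2 =
        (h (Sum.inl w) - h (Sum.inr (T.e k w))) * (h (Sum.inl w) + h (Sum.inr (T.e k w))) := by
      ring
    rw [e1, hh]
    by_cases hk : w ∈ O ∧ k = cc (ms w) (mt w)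
    · rw [hk.2]
    · have : zc ms mt O k w = 0 := if_neg hk
      rw [this, zero_mul, zero_mul]
  have hy1 : ∀ w ∈ O, ∀ w' ∈ O, T.p (mt w) w = T.p (ms w') w' → y w = y w' := by
    intro w hw w' hw' e
    have e0 := congrFun (T.inc_delta (F := ℚ) (fun x => h x ^ 2)) (T.p (mt w) w)
    have e1 := T.inc_apply (F := ℚ) (fun k w => h (Sum.inl w) ^ 2 - h (Sum.inr (T.e k w)) ^ 2)
      (T.p (mt w) w)
    rw [e1] at e0
    simp only [hsq] at e0
    rw [zc_sum T ms mt O hne y] at e0
    have h1 := sum_single O (fun w => T.p (mt w) w) htinj y w hw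
    have h2 := sum_single O (fun w => T.p (ms w) w) hinj y w' hw'
    rw [h1, e, h2] at e0
    exact sub_eq_zero.1 e0
  have hyc := hcyc y hy1
  obtain ⟨w1, hw1⟩ := hO
  set α := y w1 with hα
  have hval : ∀ x, h x = 0 ∨ h x = α := by
    have hconst := T.conn_face hc (fun x => h x ^ 2 - α * h x) (by
      intro k w
      have e1 := hsq k w
      have e2 := hh k w
      by_cases hk : w ∈ O ∧ k = cc (ms w) (mt w)
      · have e3 : y w = α := hyc w hk.1 w1 hw1
        rw [e3] at e1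
        rw [← e2] at e1
        show h (Sum.inl w) ^ 2 - α * h (Sum.inl w) = h (Sum.inr (T.e k w)) ^ 2
          - α * h (Sum.inr (T.e k w))
        linarith
      · have e3 : zc ms mt O k w = 0 := if_neg hk
        rw [e3, sub_eq_zero] at e2
        show h (Sum.inl w) ^ 2 - α * h (Sum.inl w) = h (Sum.inr (T.e k w)) ^ 2
          - α * h (Sum.inr (T.e k w))
        rw [e2])
    intro x
    have := hconst x (Sum.inl w0)
    simp only [hroot] at this
    have e : h x * (h x - α) = 0 := by nlinarith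
    rcases mul_eq_zero.1 e with e | e
    · exact Or.inl e
    · exact Or.inr (sub_eq_zero.1 e)
  have homq : ∀ w, ((om (ms w) (mt w) : ℤ) : ℚ) = 1 ∨ ((om (ms w) (mt w) : ℤ) : ℚ) = -1 := by
    intro w
    rcases om_sq (ms w) (mt w) with e | e <;> rw [e] <;> simp
  have hedge : ∀ w ∈ O, h (Sum.inl w) - h (Sum.inr (T.e (cc (ms w) (mt w)) w)) =
      ((om (ms w) (mt w) : ℤ) : ℚ) := by
    intro w hw
    rw [hh]
    exact if_pos ⟨hw, rfl⟩
  -- α = ±1
  obtain ⟨a, ha, haα⟩ : ∃ a : ℤ, (a = 1 ∨ a = -1) ∧ (a : ℚ) = α := by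
    have e := hedge w1 hw1
    rcases hval (Sum.inl w1) with e1 | e1 <;>
      rcases hval (Sum.inr (T.e (cc (ms w1) (mt w1)) w1)) with e2 | e2 <;> rw [e1, e2] at e <;>
      rcases homq w1 with e3 | e3 <;> rw [e3] at e
    · norm_num at e
    · norm_num at e
    · exact ⟨-1, Or.inr rfl, by push_cast; linarith⟩
    · exact ⟨1, Or.inl rfl, by push_cast; linarith⟩
    · exact ⟨1, Or.inl rfl, by push_cast; linarith⟩
    · exact ⟨-1, Or.inr rfl, by push_cast; linarith⟩
    · norm_num at e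
    · norm_num at e
  have hα0 : α ≠ 0 := by
    rw [← haα]
    rcases ha with rfl | rfl <;> norm_num
  set FD : Finset (W ⊕ B) := Finset.univ.filter (fun x => h x = α) with hFD
  have hmem : ∀ x, x ∈ FD ↔ h x = α := fun x => by rw [hFD, Finset.mem_filter]; simp
  have hnmem : ∀ x, x ∉ FD ↔ h x = 0 := by
    intro x
    rw [hmem]
    rcases hval x with e | e
    · rw [e]; simp [Ne.symm hα0]
    · rw [e]; simp [hα0]
  have hC : ∀ w k, (Sum.inl w ∈ FD ↔ Sum.inr (T.e k w) ∈ FD) ↔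
      ¬ (w ∈ O ∧ k = cc (ms w) (mt w)) := by
    intro w k
    have e := hh k w
    constructor
    · intro hiff hk
      have e3 : zc ms mt O k w = ((om (ms w) (mt w) : ℤ) : ℚ) := if_pos hk
      have e4 : h (Sum.inl w) = h (Sum.inr (T.e k w)) := by
        by_cases hw : Sum.inl w ∈ FD
        · rw [(hmem _).1 hw, (hmem _).1 (hiff.1 hw)]
        · rw [(hnmem _).1 hw, (hnmem _).1 (fun h' => hw (hiff.2 h'))]
      rw [e4, sub_self, e3] at e
      rcases homq w with e5 | e5 <;> rw [e5] at e <;> norm_num at e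
    · intro hk
      have e3 : zc ms mt O k w = 0 := if_neg hk
      rw [e3, sub_eq_zero] at e
      rw [hmem, hmem, e]
  have hroot' : (Sum.inl w0 : W ⊕ B) ∉ FD := (hnmem _).2 hroot
  -- vertices off the cycle
  have ends : ∀ i j : ZMod 3, i ≠ j → (cc i j - 1 = i ∧ cc i j + 1 = j) ∨
      (cc i j - 1 = j ∧ cc i j + 1 = i) := by decide
  have hSmem : ∀ w ∈ O, T.p (ms w) w ∈ VS T ms O := fun w hw => Finset.mem_image_of_mem _ hw
  have hTmem : ∀ w ∈ O, T.p (mt w) w ∈ VS T ms O := by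
    intro w hw
    obtain ⟨w', hw', e⟩ := himg w hw
    rw [e]; exact hSmem w' hw'
  have hoff : ∀ v : T.Vert, v ∉ VS T ms O → ∀ k w, (T.p (k - 1) w = v ∨ T.p (k + 1) w = v) →
      (Sum.inl w ∈ FD ↔ Sum.inr (T.e k w) ∈ FD) := by
    intro v hv k w hk
    rw [hC]
    rintro ⟨hw, rfl⟩
    rcases ends _ _ (hne w hw) with ⟨e1, e2⟩ | ⟨e1, e2⟩ <;> rw [e1, e2] at hk <;>
      rcases hk with hk | hk <;> apply hv <;> rw [← hk]
    · exact hSmem w hw
    · exact hTmem w hw
    · exact hTmem w hw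
    · exact hSmem w hw
  have hIN : (Finset.univ.filter (fun v : T.Vert => v ∉ VS T ms O ∧
      ∀ w, T.p v.1 w = v → Sum.inl w ∈ FD)).card + (O.filter (fun w => (Sum.inl w : W ⊕ B) ∈ FD)).card
      = (Finset.univ.filter (fun w : W => (Sum.inl w : W ⊕ B) ∈ FD)).card := by
    have e1 : (Finset.univ.filter (fun v : T.Vert => v ∉ VS T ms O ∧
        ∀ w, T.p v.1 w = v → Sum.inl w ∈ FD)).card =
        (Finset.univ.filter (fun w : W => (Sum.inl w : W ⊕ B) ∈ FD ∧ w ∉ O)).card := by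
      symm
      refine Finset.card_bij (fun w _ => T.p (ms w) w) ?_ ?_ ?_
      · intro w hw
        simp only [Finset.mem_filter, Finset.mem_univ, true_and] at hw ⊢
        have hw0 : w ≠ w0 := fun h' => hroot' (h' ▸ hw.1)
        have hnot : T.p (ms w) w ∉ VS T ms O := by
          intro hcon
          obtain ⟨w', hw', e⟩ := Finset.mem_image.1 hcon
          have := hsinj w' w (hO0' w' hw') hw0 e
          exact hw.2 (this ▸ hw')
        exact ⟨hnot, fun w' hw' => (face_const T FD _ (hoff _ hnot) w w' rfl hw').1 hw.1⟩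
      · intro w hw w' hw' e
        simp only [Finset.mem_filter, Finset.mem_univ, true_and] at hw hw'
        exact hsinj w w' (fun h' => hroot' (h' ▸ hw.1)) (fun h' => hroot' (h' ▸ hw'.1)) e
      · intro v hv
        simp only [Finset.mem_filter, Finset.mem_univ, true_and] at hv
        obtain ⟨w, hw0, rfl⟩ := hssurj v (fun i hi => hroot' (hv.2 w0 (by
          rw [← hi]; rfl)))
        refine ⟨w, ?_, rfl⟩
        simp only [Finset.mem_filter, Finset.mem_univ, true_and]
        exact ⟨hv.2 w rfl, fun hw => hv.1 (hSmem w hw)⟩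
    rw [e1, ← Finset.card_union_of_disjoint]
    · congr 1
      ext w
      simp only [Finset.mem_union, Finset.mem_filter, Finset.mem_univ, true_and]
      tauto
    · rw [Finset.disjoint_left]
      intro w hw hw'
      simp only [Finset.mem_filter, Finset.mem_univ, true_and] at hw hw'
      exact hw.2 hw'.1
  have hin : ∃ x, x ∈ FD := by
    by_contra hcon
    rw [not_exists] at hcon
    exact (hC w1 (cc (ms w1) (mt w1))).1 ⟨fun h' => absurd h' (hcon _),
      fun h' => absurd h' (hcon _)⟩ ⟨hw1, rfl⟩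
  obtain ⟨hcard, hblack⟩ := disc_count T ms mt O hc hg ⟨w1, hw1⟩ hne hinj himg hcyc FD hC
    ⟨_, hroot'⟩ hin hIN
  refine ⟨a, (O.filter (fun w => (Sum.inl w : W ⊕ B) ∈ FD)).card,
    (Finset.univ.filter (fun b : B => (Sum.inr b : W ⊕ B) ∈ FD)).card, ha, ?_, hcard, ?_, ?_⟩
  · rw [hblack]; omega
  · -- product
    have hom : ∀ w ∈ O, om (ms w) (mt w) = if (Sum.inl w : W ⊕ B) ∈ FD then a else -a := by
      intro w hw
      have e := hedge w hw
      by_cases hw2 : (Sum.inl w : W ⊕ B) ∈ FD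
      · have hb : Sum.inr (T.e (cc (ms w) (mt w)) w) ∉ FD := by
          intro hb
          exact (hC w (cc (ms w) (mt w))).1 ⟨fun _ => hb, fun _ => hw2⟩ ⟨hw, rfl⟩
        rw [(hmem _).1 hw2, (hnmem _).1 hb, sub_zero, ← haα] at e
        rw [if_pos hw2]
        exact_mod_cast e.symm
      · have hb : Sum.inr (T.e (cc (ms w) (mt w)) w) ∈ FD := by
          by_contra hb
          exact (hC w (cc (ms w) (mt w))).1 ⟨fun h' => absurd h' hw2, fun h' => absurd h' hb⟩
            ⟨hw, rfl⟩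
        rw [(hnmem _).1 hw2, (hmem _).1 hb, zero_sub, ← haα] at e
        rw [if_neg hw2]
        exact_mod_cast e.symm
    rw [Finset.prod_congr rfl hom, Finset.prod_ite, Finset.prod_const, Finset.prod_const]
    have g1 : (O.filter (fun w => (Sum.inl w : W ⊕ B) ∈ FD)).card
      + (O.filter (fun w => (Sum.inl w : W ⊕ B) ∉ FD)).card = O.card :=
      Finset.card_filter_add_card_filter_not _
    generalize (O.filter (fun w => (Sum.inl w : W ⊕ B) ∈ FD)).card = r at *
    have g2 : (O.filter (fun w => (Sum.inl w : W ⊕ B) ∉ FD)).card = r + 3 := by omega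
    rw [g2]
    have ha2 : a * a = 1 := by rcases ha with rfl | rfl <;> norm_num
    have ha3 : ∀ n : ℕ, a ^ n * a ^ n = 1 := by
      intro n; rw [← mul_pow, ha2, one_pow]
    rw [neg_pow a (r + 3)]
    have e1 : a ^ r * ((-1) ^ (r + 3) * a ^ (r + 3)) = (a ^ r * a ^ r) * (a * a) * a *
      ((-1) ^ (r + 1) * ((-1) * (-1))) := by ring
    rw [e1, ha3, ha2]
    ring
  · -- potential
    have e := hphi (zc ms mt O) (fun w => h (Sum.inl w)) (fun b => h (Sum.inr b))
      (fun k w => (hh k w).symm) hroot (fun k => if_neg (fun h' => hO0 h'.1))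
    have e1 : ∑ w, ∑ k, zc ms mt O k w * ((phi (k + 2) w - phi (k + 1) w : ℤ) : ℚ) =
        ∑ w ∈ O, ((phi (mt w) w - phi (ms w) w : ℤ) : ℚ) := by
      rw [← Finset.sum_subset (Finset.subset_univ O)]
      · refine Finset.sum_congr rfl (fun w hw => ?_)
        rw [Finset.sum_eq_single (cc (ms w) (mt w))]
        · have : zc ms mt O (cc (ms w) (mt w)) w = ((om (ms w) (mt w) : ℤ) : ℚ) := if_pos ⟨hw, rfl⟩
          rw [this]
          rcases om_phi (ms w) (mt w) (hne w hw) with ⟨f1, f2, f3⟩ | ⟨f1, f2, f3⟩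
          · rw [f1, f2, f3]; push_cast; ring
          · rw [f1, f2, f3]; push_cast; ring
        · intro k _ hk
          have : zc ms mt O k w = 0 := if_neg (fun h' => hk h'.2)
          rw [this, zero_mul]
        · intro h'; exact absurd (Finset.mem_univ _) h'
      · intro w _ hw
        refine Finset.sum_eq_zero (fun k _ => ?_)
        have : zc ms mt O k w = 0 := if_neg (fun h' => hw h'.1)
        rw [this, zero_mul]
    rw [e1] at e
    have e2 : ∑ b, h (Sum.inr b) = (a : ℚ) *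
        ((Finset.univ.filter (fun b : B => (Sum.inr b : W ⊕ B) ∈ FD)).card : ℚ) := by
      have : ∀ b, h (Sum.inr b) = if (Sum.inr b : W ⊕ B) ∈ FD then (a : ℚ) else 0 := by
        intro b
        by_cases hb : (Sum.inr b : W ⊕ B) ∈ FD
        · rw [if_pos hb, haα]; exact (hmem _).1 hb
        · rw [if_neg hb]; exact (hnmem _).1 hb
      rw [Finset.sum_congr rfl (fun b _ => this b), ← Finset.sum_filter, Finset.sum_const,
        nsmul_eq_mul, mul_comm]
    rw [e2] at e
    exact_mod_cast e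

/-- THE FACTS ABOUT ONE CYCLE OF A ROOTED CYCLE COVER -/
theorem cover_cycle (hc : T.Conn) (hg : T.Genus0) (w0 : W) :
    ∃ phi : ZMod 3 → W → ℤ, ∀ (ms mt : W → ZMod 3) (O : Finset W),
      (∀ w w', w ≠ w0 → w' ≠ w0 → T.p (ms w) w = T.p (ms w') w' → w = w') →
      (∀ v : T.Vert, (∀ i, T.p i w0 ≠ v) → ∃ w, w ≠ w0 ∧ T.p (ms w) w = v) →
      (∀ w ∈ O, ∀ w' ∈ O, T.p (mt w) w = T.p (mt w') w' → w = w') →
      O.Nonempty → w0 ∉ O → (∀ w ∈ O, ms w ≠ mt w) →
      (∀ w ∈ O, ∃ w' ∈ O, T.p (mt w) w = T.p (ms w') w') →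
      (∀ h : W → ℚ, (∀ w ∈ O, ∀ w' ∈ O, T.p (mt w) w = T.p (ms w') w' → h w = h w') →
        ∀ w ∈ O, ∀ w' ∈ O, h w = h w') →
      ∃ (a : ℤ) (r A : ℕ), (a = 1 ∨ a = -1) ∧ 1 ≤ A ∧ O.card = 2 * r + 3 ∧
        ∏ w ∈ O, om (ms w) (mt w) = a * (-1) ^ (r + 1) ∧
        ∑ w ∈ O, (phi (mt w) w - phi (ms w) w) = a * A := by
  obtain ⟨phi, hphi⟩ := T.exists_phi hc w0
  exact ⟨phi, fun ms mt O h1 h2 h3 h4 h5 h6 h7 h8 =>
    cover_cycle_aux T ms mt O hc hg w0 phi (fun g hW hB => hphi ℚ g hW hB) h1 h2 h3 h4 h5 h6 h7 h8⟩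

end

end Crest.Agent.R039.Cyc
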