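import Crest.Agent.R039.Pair563
import Crest.Agent.R039.Defs29
import Crest.Agent.R039.Pot599
import Crest.Agent.R039.Key123

/-!
# Row 39, block B2: translation between covers of a triangulation and the abstract signed sum

* `om` : orientation symbol of a white face.
* `exists_valid` : a cover gives a pair (matching, permutation).
* `tree_of_det` : a matching whose matrix has non-zero determinant is of tree type.
-/

set_option autoImplicit false
set_option linter.unusedSectionVars false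

namespace Crest.Agent.R039.Key563

open Finset Matrix

variable {W B : Type*}

/-- orientation symbol: `1` if `y` follows `x` in `w`, `-1` if `x` follows `y`, `0` otherwise -/
noncomputable def om (T : Tri W B) (w : W) (x y : T.Vert) : ℤ :=
  open Classical in
  (if T.p x.1 w = x ∧ T.p (x.1 + 1) w = y then 1 else 0) -
    (if T.p x.1 w = x ∧ T.p (x.1 + 2) w = y then 1 else 0)

variable (T : Tri W B) (w0 : W)

/-- vertices off the root -/
abbrev Off : Type _ := {v : T.Vert // ∀ i, T.p i w0 ≠ v}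

/-- white faces different from the root -/
abbrev Wh (w0 : W) : Type _ := {w : W // w ≠ w0}

variable {T w0}

theorem p_inj {i j : ZMod 3} {w w' : W} (h : T.p i w = T.p j w') : i = j := (T.p_eq_iff.1 h).1

theorem om_add_one (w : W) (i : ZMod 3) : om T w (T.p i w) (T.p (i + 1) w) = 1 := by
  unfold om
  rw [if_pos ⟨rfl, rfl⟩, if_neg]
  · norm_num
  · rintro ⟨_, h⟩
    have h3 := p_inj h
    have : ∀ i : ZMod 3, i + 2 ≠ i + 1 := by decide
    exact this i h3

theorem om_add_two (w : W) (i : ZMod 3) : om T w (T.p i w) (T.p (i + 2) w) = -1 := by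
  unfold om
  rw [if_neg, if_pos ⟨rfl, rfl⟩]
  · norm_num
  · rintro ⟨_, h⟩
    have h3 := p_inj h
    have : ∀ i : ZMod 3, i + 1 ≠ i + 2 := by decide
    exact this i h3

theorem om_ne_zero {w : W} {x y : T.Vert} (h : om T w x y ≠ 0) :
    T.p x.1 w = x ∧ (T.p (x.1 + 1) w = y ∨ T.p (x.1 + 2) w = y) := by
  unfold om at h
  by_cases h1 : T.p x.1 w = x ∧ T.p (x.1 + 1) w = y
  · exact ⟨h1.1, Or.inl h1.2⟩
  · by_cases h2 : T.p x.1 w = x ∧ T.p (x.1 + 2) w = y
    · exact ⟨h2.1, Or.inr h2.2⟩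
    · rw [if_neg h1, if_neg h2] at h
      exact absurd rfl h

/-- antisymmetry -/
theorem om_antisymm (w : W) (x y : T.Vert) : om T w y x = - om T w x y := by
  have key : ∀ i j : ZMod 3, (i + 1 = j ↔ j + 2 = i) ∧ (i + 2 = j ↔ j + 1 = i) := by decide
  have e1 : ∀ x y : T.Vert, (T.p x.1 w = x ∧ T.p (x.1 + 1) w = y) ↔
      (T.p y.1 w = y ∧ T.p (y.1 + 2) w = x) := by
    intro x y
    constructor
    · rintro ⟨h1, h2⟩
      have h3 : x.1 + 1 = y.1 := by rw [← h2]; rfl
      have h4 := (key x.1 y.1).1.1 h3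
      rw [h4, ← h3]
      exact ⟨h2, h1⟩
    · rintro ⟨h1, h2⟩
      have h3 : y.1 + 2 = x.1 := by rw [← h2]; rfl
      have h4 := (key x.1 y.1).1.2 h3
      rw [h4, ← h3]
      exact ⟨h2, h1⟩
  unfold om
  simp only [e1 y x, e1 x y]
  ring

theorem om_values (w : W) (x y : T.Vert) : om T w x y = 0 ∨ om T w x y = 1 ∨ om T w x y = -1 := by
  unfold om
  split_ifs <;> simp

theorem om_self (w : W) (x : T.Vert) : om T w x x = 0 := by
  have := om_antisymm w x x
  omega

/-! ### a cover gives a valid pair -/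

variable [Fintype W] [Fintype B] [DecidableEq W] [DecidableEq B]

/-- a cover gives two disjoint matchings `s` and `s ∘ π` -/
theorem exists_valid (m : W → ZMod 3) (hm : T.Cover w0 m) :
    ∃ (s : Wh w0 ≃ Off T w0) (π : Equiv.Perm (Wh w0)),
      ∀ w, om T w.1 (s w).1 (s (π w)).1 ≠ 0 := by
  classical
  obtain ⟨hm1, hm2⟩ := hm
  obtain ⟨ms, mt, h1, h2, h3, h4, h5⟩ := Pair.exists_pair T w0 m (by
    intro v hv
    rw [← hm2 v (fun j h => hv j h.symm), Set.ncard_eq_toFinset_card']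
    refine card_bij (fun w _ => (v.1, w)) ?_ ?_ ?_
    · intro w hw
      simp only [mem_filter, mem_univ, true_and] at hw
      simp only [Set.mem_toFinset, Set.mem_ofPred_eq]
      exact ⟨hw.1, fun h => hw.2.2 h.symm, hw.2.1⟩
    · intro a _ b _ h; exact congrArg Prod.snd h
    · rintro ⟨i, w⟩ hw
      simp only [Set.mem_toFinset, Set.mem_ofPred_eq] at hw
      have hi : v.1 = i := by rw [← hw.2.2]; rfl
      refine ⟨w, ?_, ?_⟩
      · simp only [mem_filter, mem_univ, true_and]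
        exact ⟨hw.1, by rw [hi]; exact hw.2.2, by rw [hi]; exact fun h => hw.2.1 h.symm⟩
      · rw [hi]) (by
    intro w hw i hi j h
    have hij := p_inj h
    subst hij
    exact hm1 w hw j hi h.symm)
  have off : ∀ (mm : W → ZMod 3), (∀ w, mm w ≠ m w) → ∀ w : Wh w0, ∀ i, T.p i w0 ≠ T.p (mm w.1) w.1 := by
    intro mm hmm w i h
    have hij := p_inj h
    rw [hij] at h
    exact hm1 w.1 w.2 (mm w.1) (hmm w.1) h.symm
  let s : Wh w0 ≃ Off T w0 := Equiv.ofBijective
    (fun w => ⟨T.p (ms w.1) w.1, off ms (fun w => (h1 w).1) w⟩) ⟨by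
      intro a b h
      exact Subtype.ext (h2 a.1 b.1 a.2 b.2 (congrArg Subtype.val h)), by
      intro v
      obtain ⟨w, hw, hv⟩ := h4 v.1 v.2
      exact ⟨⟨w, hw⟩, Subtype.ext hv⟩⟩
  let t : Wh w0 ≃ Off T w0 := Equiv.ofBijective
    (fun w => ⟨T.p (mt w.1) w.1, off mt (fun w => (h1 w).2.1) w⟩) ⟨by
      intro a b h
      exact Subtype.ext (h3 a.1 b.1 a.2 b.2 (congrArg Subtype.val h)), by
      intro v
      obtain ⟨w, hw, hv⟩ := h5 v.1 v.2
      exact ⟨⟨w, hw⟩, Subtype.ext hv⟩⟩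
  refine ⟨s, t.trans s.symm, ?_⟩
  intro w
  have e0 : s ((t.trans s.symm) w) = t w := s.apply_symm_apply (t w)
  rw [e0]
  have e1 : (s w).1 = T.p (ms w.1) w.1 := rfl
  have e2 : (t w).1 = T.p (mt w.1) w.1 := rfl
  rw [e1, e2]
  have key : ∀ a b : ZMod 3, a ≠ b → b = a + 1 ∨ b = a + 2 := by decide
  rcases key _ _ (h1 w.1).2.2 with h | h
  · rw [h, om_add_one]; norm_num
  · rw [h, om_add_two]; norm_num

/-! ### non-zero determinant gives tree type -/

theorem sum_om (w : W) (i : ZMod 3) (x : T.Vert → ℤ) (hx : ∀ j, x (T.p j w0) = 0) :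
    ∑ v : Off T w0, x v.1 * om T w (T.p i w) v.1 = x (T.p (i + 1) w) - x (T.p (i + 2) w) := by
  classical
  have e1 : ∑ v : Off T w0, x v.1 * om T w (T.p i w) v.1
      = ∑ v : T.Vert, x v * om T w (T.p i w) v := by
    rw [← Finset.sum_subtype (univ.filter fun v : T.Vert => ∀ i, T.p i w0 ≠ v) (by simp)
      (fun v => x v * om T w (T.p i w) v)]
    rw [Finset.sum_filter]
    refine sum_congr rfl (fun v _ => ?_)
    split_ifs with h
    · rfl
    · push Not at h
      obtain ⟨j, hj⟩ := h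
      rw [← hj, hx, zero_mul]
  rw [e1]
  have e2 : ∀ v : T.Vert, x v * om T w (T.p i w) v
      = (if T.p (i + 1) w = v then x v else 0) - (if T.p (i + 2) w = v then x v else 0) := by
    intro v
    unfold om
    simp only [Tri.p_fst, true_and]
    split_ifs <;> ring
  rw [sum_congr rfl (fun v _ => e2 v), sum_sub_distrib, Finset.sum_ite_eq, Finset.sum_ite_eq,
    if_pos (mem_univ _), if_pos (mem_univ _)]

theorem tree_of_det (s : Wh w0 ≃ Off T w0)
    (h : (Matrix.of fun w' w => om T w.1 (s w).1 (s w').1 : Matrix (Wh w0) (Wh w0) ℤ).det ≠ 0) :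
    ∃ m, T.Tree w0 m := by
  classical
  have hinc : ∀ w : Wh w0, T.p (s w).1.1 w.1 = (s w).1 := by
    intro w
    by_contra hcon
    apply h
    refine Matrix.det_eq_zero_of_column_eq_zero w (fun w' => ?_)
    show om T w.1 (s w).1 (s w').1 = 0
    by_contra h2
    exact hcon (om_ne_zero h2).1
  have hmw : ∀ w : Wh w0, (fun w => if hw : w ≠ w0 then (s ⟨w, hw⟩).1.1 else (0 : ZMod 3)) w.1
      = (s w).1.1 := by
    intro w
    simp only [dif_pos w.2]
  set m : W → ZMod 3 := fun w => if hw : w ≠ w0 then (s ⟨w, hw⟩).1.1 else 0 with hmdef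
  have hp : ∀ w : Wh w0, T.p (m w.1) w.1 = (s w).1 := by
    intro w
    rw [hmw]; exact hinc w
  refine ⟨m, ⟨?_, ?_⟩, ?_⟩
  · intro w hw h2
    have := (s ⟨w, hw⟩).2 (m w)
    rw [← hp ⟨w, hw⟩] at this
    exact this h2.symm
  · intro w w' hw hw' h2
    rw [hp ⟨w, hw⟩, hp ⟨w', hw'⟩] at h2
    exact congrArg Subtype.val (s.injective (Subtype.ext h2))
  · intro x hx0 hx v
    have h3 : (fun w' : Wh w0 => x (s w').1) ᵥ*
        (Matrix.of fun w' w => om T w.1 (s w).1 (s w').1 : Matrix (Wh w0) (Wh w0) ℤ) = 0 := by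
      funext w
      show ∑ w' : Wh w0, x (s w').1 * om T w.1 (s w).1 (s w').1 = 0
      rw [Equiv.sum_comp s (fun v : Off T w0 => x v.1 * om T w.1 (s w).1 v.1), ← hp w,
        sum_om w.1 (m w.1) x hx0, hx w.1 w.2, sub_self]
    have h4 := Matrix.eq_zero_of_vecMul_eq_zero h h3
    by_cases hv : ∀ i, T.p i w0 ≠ v
    · have := congrFun h4 (s.symm ⟨v, hv⟩)
      simpa using this
    · push Not at hv
      obtain ⟨j, hj⟩ := hv
      rw [← hj]; exact hx0 j

/-- BLOCK B2 from the orbit facts -/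
theorem blockSum_of
    (H : ∀ (W B : Type) [Fintype W] [Fintype B] [DecidableEq W] [DecidableEq B] (T : Tri W B),
      T.Conn → T.Genus0 → ∀ w0 : W, ∃ φ : Wh w0 → Off T w0 → ℤ,
      ∀ (s : Wh w0 ≃ Off T w0) (π : Equiv.Perm (Wh w0)),
        (∀ w, om T w.1 (s w).1 (s (π w)).1 ≠ 0) → ∀ O ∈ Key.orbs π,
        Odd O.card ∧ 0 < (-1 : ℤ) ^ ((O.card - 1) / 2) *
          (∏ w ∈ O, om T w.1 (s w).1 (s (π w)).1) *
          ∑ w ∈ O, (φ w (s (π w)) - φ w (s w))) : BlockSum := by
  intro W B _ _ _ _ T hc hg w0 hm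
  obtain ⟨m, hm⟩ := hm
  obtain ⟨φ, hφ⟩ := H W B T hc hg w0
  obtain ⟨s₀, π₀, h₀⟩ := exists_valid m hm
  obtain ⟨s, hs⟩ := Key.exists_det_ne_zero (W := Wh w0) (V := Off T w0)
    (fun w a b => om T w.1 a.1 b.1) φ (fun w a b => om_antisymm _ _ _) hφ s₀ π₀ h₀
  exact tree_of_det s hs

end Crest.Agent.R039.Key563
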