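import Crest.Agent.R039.Cyc282D
import Crest.Agent.R039.Key563

/-!
# Row 39: block B2 finished: the orbit facts in helper563's form
-/

set_option autoImplicit false
set_option linter.unusedSectionVars false

namespace Crest.Agent.R039.Cyc

open Key563

theorem orbit_facts (W B : Type) [Fintype W] [Fintype B] [DecidableEq W] [DecidableEq B]
    (T : Tri W B) (hc : T.Conn) (hg : T.Genus0) (w0 : W) :
    ∃ φ : Wh w0 → Off T w0 → ℤ, ∀ (s : Wh w0 ≃ Off T w0) (π : Equiv.Perm (Wh w0)),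
      (∀ w, Key563.om T w.1 (s w).1 (s (π w)).1 ≠ 0) → ∀ O ∈ Key.orbs π,
      Odd O.card ∧ 0 < (-1 : ℤ) ^ ((O.card - 1) / 2) *
        (∏ w ∈ O, Key563.om T w.1 (s w).1 (s (π w)).1) *
        ∑ w ∈ O, (φ w (s (π w)) - φ w (s w)) := by
  classical
  obtain ⟨phi, hphi⟩ := cover_cycle T hc hg w0
  refine ⟨fun w a => phi a.1.1 w.1, ?_⟩
  intro s π hval O hO
  obtain ⟨x0, _, rfl⟩ := Finset.mem_image.1 hO
  let ms : W → ZMod 3 := fun w => if h : w ≠ w0 then (s ⟨w, h⟩).1.1 else 0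
  let mt : W → ZMod 3 := fun w => if h : w ≠ w0 then (s (π ⟨w, h⟩)).1.1 else 0
  have hms : ∀ w : Wh w0, ms w.1 = (s w).1.1 := fun w => dif_pos w.2
  have hmt : ∀ w : Wh w0, mt w.1 = (s (π w)).1.1 := fun w => dif_pos w.2
  have hs1 : ∀ w : Wh w0, T.p (ms w.1) w.1 = (s w).1 := by
    intro w
    rw [hms]
    exact (om_ne_zero (hval w)).1
  have hcol : ∀ w : Wh w0, (s (π w)).1.1 = (s w).1.1 + 1 ∨ (s (π w)).1.1 = (s w).1.1 + 2 := by
    intro w
    rcases (om_ne_zero (hval w)).2 with h | h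
    · left; rw [← h]; rfl
    · right; rw [← h]; rfl
  have ht1 : ∀ w : Wh w0, T.p (mt w.1) w.1 = (s (π w)).1 := by
    intro w
    rw [hmt]
    rcases (om_ne_zero (hval w)).2 with h | h
    · rw [← h]; rfl
    · rw [← h]; rfl
  have hom : ∀ w : Wh w0, Key563.om T w.1 (s w).1 (s (π w)).1 = om (ms w.1) (mt w.1) := by
    intro w
    have h1 := hs1 w
    have h2 := ht1 w
    have hne2 : ∀ i : ZMod 3, i + 2 ≠ i + 1 := by decide
    rcases hcol w with h | h
    · rw [← hms w, ← hmt w] at h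
      rw [← h1, ← h2, h, om_add_one]
      unfold om
      rw [if_pos rfl]
    · rw [← hms w, ← hmt w] at h
      rw [← h1, ← h2, h, om_add_two]
      unfold om
      rw [if_neg (hne2 _)]
  set O' : Finset W := (Key.orb π x0).map (Function.Embedding.subtype _) with hO'
  have hmem : ∀ w : Wh w0, w.1 ∈ O' ↔ π.SameCycle x0 w := by
    intro w
    rw [hO', Finset.mem_map]
    constructor
    · rintro ⟨x, hx, e⟩
      have : x = w := Subtype.ext e
      rw [← this]
      exact (Finset.mem_filter.1 hx).2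
    · intro h
      exact ⟨w, Finset.mem_filter.2 ⟨Finset.mem_univ _, h⟩, rfl⟩
  have hO0 : w0 ∉ O' := by
    rw [hO', Finset.mem_map]
    rintro ⟨x, _, e⟩
    exact x.2 e
  have hsub : ∀ w ∈ O', ∃ x : Wh w0, x.1 = w ∧ π.SameCycle x0 x := by
    intro w hw
    have hw0 : w ≠ w0 := fun h => hO0 (h ▸ hw)
    exact ⟨⟨w, hw0⟩, rfl, (hmem ⟨w, hw0⟩).1 hw⟩
  obtain ⟨a, r, A, ha, hA, hcard, hprod, hsum⟩ := hphi ms mt O'
    (by
      intro w w' h h' e
      have e1 := hs1 ⟨w, h⟩
      have e2 := hs1 ⟨w', h'⟩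
      have e3 : (s ⟨w, h⟩).1 = (s ⟨w', h'⟩).1 := by rw [← e1, ← e2]; exact e
      exact congrArg Subtype.val (s.injective (Subtype.ext e3)))
    (by
      intro v hv
      refine ⟨(s.symm ⟨v, hv⟩).1, (s.symm ⟨v, hv⟩).2, ?_⟩
      rw [hs1, Equiv.apply_symm_apply])
    (by
      intro w hw w' hw' e
      obtain ⟨x, rfl, _⟩ := hsub w hw
      obtain ⟨x', rfl, _⟩ := hsub w' hw'
      rw [ht1, ht1] at e
      rw [π.injective (s.injective (Subtype.ext e))])
    ⟨x0.1, (hmem x0).2 (Equiv.Perm.SameCycle.refl _ _)⟩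
    hO0
    (by
      intro w hw
      obtain ⟨x, rfl, _⟩ := hsub w hw
      rw [hms, hmt]
      have k1 : ∀ i : ZMod 3, i ≠ i + 1 := by decide
      have k2 : ∀ i : ZMod 3, i ≠ i + 2 := by decide
      rcases hcol x with h | h <;> rw [h]
      · exact k1 _
      · exact k2 _)
    (by
      intro w hw
      obtain ⟨x, rfl, hx⟩ := hsub w hw
      refine ⟨(π x).1, (hmem _).2 (Equiv.Perm.sameCycle_apply_right.2 hx), ?_⟩
      rw [ht1, hs1])
    (by
      intro h hh
      have step : ∀ x : Wh w0, π.SameCycle x0 x → h x.1 = h (π x).1 := by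
        intro x hx
        refine hh x.1 ((hmem x).2 hx) (π x).1
          ((hmem _).2 (Equiv.Perm.sameCycle_apply_right.2 hx)) ?_
        rw [ht1, hs1]
      have key : ∀ x : Wh w0, π.SameCycle x0 x → h x.1 = h x0.1 := by
        intro x hx
        obtain ⟨n, hn⟩ := hx.exists_nat_pow_eq
        rw [← hn]
        clear hn hx
        induction n with
        | zero => rfl
        | succ n ih =>
          rw [pow_succ', Equiv.Perm.mul_apply,
            ← step _ (Equiv.Perm.sameCycle_pow_right.2 (Equiv.Perm.SameCycle.refl _ _))]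
          exact ih
      intro w hw w' hw'
      obtain ⟨x, rfl, hx⟩ := hsub w hw
      obtain ⟨x', rfl, hx'⟩ := hsub w' hw'
      rw [key x hx, key x' hx'])
  have hcard' : (Key.orb π x0).card = 2 * r + 3 := by
    rw [← hcard, hO', Finset.card_map]
  have hprod' : ∏ w ∈ Key.orb π x0, Key563.om T w.1 (s w).1 (s (π w)).1 = a * (-1) ^ (r + 1) := by
    rw [← hprod, hO', Finset.prod_map]
    exact Finset.prod_congr rfl (fun w _ => hom w)
  have hsum' : ∑ w ∈ Key.orb π x0, (phi (s (π w)).1.1 w.1 - phi (s w).1.1 w.1) = a * A := by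
    rw [← hsum, hO', Finset.sum_map]
    refine Finset.sum_congr rfl (fun w _ => ?_)
    show _ = phi (mt w.1) w.1 - phi (ms w.1) w.1
    rw [hms, hmt]
  refine ⟨⟨r + 1, by rw [hcard']; ring⟩, ?_⟩
  rw [hprod', hsum', hcard']
  have e1 : (2 * r + 3 - 1) / 2 = r + 1 := by omega
  rw [e1]
  have e2 : (-1 : ℤ) ^ (r + 1) * (a * (-1) ^ (r + 1)) * (a * A) =
      ((-1 : ℤ) ^ (r + 1) * (-1) ^ (r + 1)) * (a * a) * A := by ring
  have e3 : (-1 : ℤ) ^ (r + 1) * (-1) ^ (r + 1) = 1 := by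
    rw [← mul_pow]; norm_num
  have e4 : a * a = 1 := by rcases ha with rfl | rfl <;> norm_num
  rw [e2, e3, e4]
  have : (1 : ℤ) ≤ A := by exact_mod_cast hA
  linarith

/-- BLOCK B2 -/
theorem blockSum : BlockSum := blockSum_of orbit_facts

end Crest.Agent.R039.Cyc
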