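import Crest.Agent.R039.TriEx995

/-!
# Row 39: the disc count, without curves (block (D))

`euler_le` : Euler's inequality `V' + F' ≤ E' + 1` for a connected subcomplex (rank count).
`Tri.disc_count` : for a set of faces `D` whose boundary `C` is "connected" with `|C| ≤ |VC|`:
`|VC| = |C|`, `|VC| + i + |Dw| + |Db| = |E_D| + 1`, `3|Dw| + 3 = 3 i + |C| + lw`.
-/

set_option autoImplicit false
set_option linter.unusedSectionVars false

namespace Crest.Agent.R039.Disc

open Matrix Crest.Agent.R039.Map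

section abstractEuler

variable {E X Y F : Type*} [Fintype E] [DecidableEq E] [DecidableEq X]
  [DecidableEq Y] [Field F]

/-- EULER'S INEQUALITY for a subcomplex -/
theorem euler_le (s t : E → X) (l r : E → Y) (V' : Finset X) (E' : Finset E) (Y' : Finset Y)
    (hends : ∀ d ∈ E', s d ∈ V' ∧ t d ∈ V')
    (hconn : ∀ h : X → F, (∀ d ∈ E', h (s d) = h (t d)) → ∀ x ∈ V', ∀ y ∈ V', h x = h y)
    (hfaces : ∀ d, (l d ∈ Y' ∨ r d ∈ Y') → d ∈ E')
    (hzero : ∀ f : Y → F, (inc F s t) *ᵥ (fun d => f (l d) - f (r d)) = 0)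
    (hinj : ∀ f : Y → F, (∀ y, y ∉ Y' → f y = 0) → (∀ d, f (l d) = f (r d)) → f = 0) :
    V'.card + Y'.card ≤ E'.card + 1 := by
  classical
  let s' : {d // d ∈ E'} → {x // x ∈ V'} := fun d => ⟨s d.1, (hends d.1 d.2).1⟩
  let t' : {d // d ∈ E'} → {x // x ∈ V'} := fun d => ⟨t d.1, (hends d.1 d.2).2⟩
  have h1 : Fintype.card {x // x ∈ V'} ≤ (inc F s' t').rank + 1 := by
    refine card_le_rank_inc (F := F) s' t' ?_
    intro h hh x y
    let h' : X → F := fun x => if hx : x ∈ V' then h ⟨x, hx⟩ else 0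
    have key : ∀ x : {x // x ∈ V'}, h' x.1 = h x := by
      intro x
      show (if hx : x.1 ∈ V' then h ⟨x.1, hx⟩ else 0) = h x
      rw [dif_pos x.2]
    rw [← key x, ← key y]
    refine hconn h' ?_ x.1 x.2 y.1 y.2
    intro d hd
    have := hh ⟨d, hd⟩
    rw [← key, ← key] at this
    exact this
  rw [Fintype.card_coe] at h1
  have h2 := LinearMap.finrank_range_add_finrank_ker ((inc F s' t').mulVecLin)
  rw [Module.finrank_fintype_fun_eq_card, Fintype.card_coe] at h2
  have h3 : (inc F s' t').rank = Module.finrank F (LinearMap.range ((inc F s' t').mulVecLin)) := rfl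
  -- the face boundaries
  let ext : ({y // y ∈ Y'} → F) → (Y → F) := fun f y => if hy : y ∈ Y' then f ⟨y, hy⟩ else 0
  let Φ : ({y // y ∈ Y'} → F) →ₗ[F] ({d // d ∈ E'} → F) :=
    { toFun := fun f d => ext f (l d.1) - ext f (r d.1)
      map_add' := by
        intro f g
        funext d
        show ext (f + g) (l d.1) - ext (f + g) (r d.1) = _
        have : ∀ y, ext (f + g) y = ext f y + ext g y := by
          intro y
          show (if hy : y ∈ Y' then (f + g) ⟨y, hy⟩ else 0) =
            (if hy : y ∈ Y' then f ⟨y, hy⟩ else 0) + (if hy : y ∈ Y' then g ⟨y, hy⟩ else 0)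
          split_ifs
          · rfl
          · rw [add_zero]
        rw [this, this]
        show _ = (ext f (l d.1) - ext f (r d.1)) + (ext g (l d.1) - ext g (r d.1))
        ring
      map_smul' := by
        intro c f
        funext d
        show ext (c • f) (l d.1) - ext (c • f) (r d.1) = _
        have : ∀ y, ext (c • f) y = c * ext f y := by
          intro y
          show (if hy : y ∈ Y' then (c • f) ⟨y, hy⟩ else 0) =
            c * (if hy : y ∈ Y' then f ⟨y, hy⟩ else 0)
          split_ifs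
          · rfl
          · rw [mul_zero]
        rw [this, this]
        show _ = c * (ext f (l d.1) - ext f (r d.1))
        ring }
  have hext0 : ∀ f y, y ∉ Y' → ext f y = 0 := fun f y hy => dif_neg hy
  have hext1 : ∀ f (y : {y // y ∈ Y'}), ext f y.1 = f y := fun f y => dif_pos y.2
  have hΦinj : Function.Injective Φ := by
    rw [← LinearMap.ker_eq_bot, LinearMap.ker_eq_bot']
    intro f hf
    have h0 : ext f = 0 := by
      refine hinj (ext f) (hext0 f) ?_
      intro d
      by_cases hd : d ∈ E'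
      · exact sub_eq_zero.1 (congrFun hf ⟨d, hd⟩)
      · have hl : l d ∉ Y' := fun h => hd (hfaces d (Or.inl h))
        have hr : r d ∉ Y' := fun h => hd (hfaces d (Or.inr h))
        rw [hext0 f _ hl, hext0 f _ hr]
    funext y
    rw [← hext1 f y, h0]; rfl
  have hΦker : LinearMap.range Φ ≤ LinearMap.ker ((inc F s' t').mulVecLin) := by
    rintro _ ⟨f, rfl⟩
    rw [LinearMap.mem_ker, Matrix.mulVecLin_apply]
    funext x
    rw [inc_mulVec]
    have h0 := congrFun (hzero (ext f)) x.1
    rw [inc_mulVec] at h0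
    show _ = (0 : F)
    have h0' : ∑ d, ((if s d = x.1 then ext f (l d) - ext f (r d) else 0)
        - (if t d = x.1 then ext f (l d) - ext f (r d) else 0)) = 0 := h0
    refine Eq.trans ?_ h0'
    have e1 : ∀ d : {d // d ∈ E'}, ((if s' d = x then (Φ f) d else 0) - (if t' d = x then (Φ f) d else 0))
        = (fun d : E => (if s d = x.1 then ext f (l d) - ext f (r d) else 0)
        - (if t d = x.1 then ext f (l d) - ext f (r d) else 0)) d.1 := by
      intro d
      have hs : (s' d = x) = (s d.1 = x.1) := propext Subtype.ext_iff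
      have ht : (t' d = x) = (t d.1 = x.1) := propext Subtype.ext_iff
      show ((if s' d = x then ext f (l d.1) - ext f (r d.1) else 0)
        - (if t' d = x then ext f (l d.1) - ext f (r d.1) else 0)) = _
      simp only [hs, ht]
    rw [Finset.sum_congr rfl (fun d _ => e1 d)]
    rw [Finset.sum_coe_sort E' (fun d : E => (if s d = x.1 then ext f (l d) - ext f (r d) else 0)
        - (if t d = x.1 then ext f (l d) - ext f (r d) else 0))]
    refine Finset.sum_subset (Finset.subset_univ _) ?_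
    intro d _ hd
    have hl : l d ∉ Y' := fun h => hd (hfaces d (Or.inl h))
    have hr : r d ∉ Y' := fun h => hd (hfaces d (Or.inr h))
    rw [hext0 f _ hl, hext0 f _ hr]
    simp
  have h4 : Module.finrank F (LinearMap.range Φ) = Y'.card := by
    rw [LinearMap.finrank_range_of_inj hΦinj, Module.finrank_fintype_fun_eq_card, Fintype.card_coe]
  have h5 := Submodule.finrank_mono hΦker
  omega

end abstractEuler

end Crest.Agent.R039.Disc

namespace Crest.Agent.R039.Tri

open Matrix Crest.Agent.R039.Map Crest.Agent.R039.Disc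

variable {W B : Type*} (T : Tri W B)

/-- the edges: the edge of colour `k` of the white face `w` -/
abbrev Ed (_T : Tri W B) : Type _ := ZMod 3 × W

/-- first end -/
def src (d : T.Ed) : T.Vert := T.p (d.1 + 1) d.2
/-- second end -/
def tgt (d : T.Ed) : T.Vert := T.p (d.1 + 2) d.2
/-- the white face -/
def lf (d : T.Ed) : W ⊕ B := Sum.inl d.2
/-- the black face -/
def rf (d : T.Ed) : W ⊕ B := Sum.inr (T.e d.1 d.2)

theorem e_pi (i : ZMod 3) (w : W) : T.e (i + 2) (T.pi i w) = T.e (i + 1) w := by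
  show T.e (i + 2) ((T.e (i + 2)).symm (T.e (i + 1) w)) = _
  rw [Equiv.apply_symm_apply]

/-- a property of white faces invariant under `pi i` is constant on the vertex -/
theorem iff_of_pi [Finite W] {i : ZMod 3} {P : W → Prop} (v : T.Vert)
    (h : ∀ w, T.p i w = v → (P (T.pi i w) ↔ P w)) {w w' : W} (hw : T.p i w = v)
    (hw' : T.p i w' = v) : P w ↔ P w' := by
  have h1 : T.p i w = T.p i w' := hw.trans hw'.symm
  obtain ⟨_, h2⟩ := T.p_eq_iff.1 h1
  have h3 : ∀ n : ℕ, T.p i (((T.pi i) ^ n) w) = v ∧ (P w ↔ P (((T.pi i) ^ n) w)) := by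
    intro n
    induction n with
    | zero => exact ⟨hw, Iff.rfl⟩
    | succ n ih =>
      rw [pow_succ', Equiv.Perm.mul_apply]
      refine ⟨(T.p_pi i _).trans ih.1, ih.2.trans (h _ ih.1).symm⟩
  obtain ⟨n, hn⟩ := h2.exists_nat_pow_eq
  rw [← hn]
  exact (h3 n).2

/-- face functions without jumps are constant -/
theorem conn_faces (hc : T.Conn) {A : Type*} (f : W ⊕ B → A) (hf : ∀ d : T.Ed, f (T.lf d) = f (T.rf d))
    (x y : W ⊕ B) : f x = f y := by
  have h1 : ∀ k w, f (Sum.inl w) = f (Sum.inr (T.e k w)) := fun k w => hf (k, w)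
  have h2 : ∀ w w', f (Sum.inl w) = f (Sum.inl w') := by
    intro w w'
    have h3 := hc {v | f (Sum.inl v) = f (Sum.inl w)} ⟨w, rfl⟩ (by
      intro i v hv
      show f (Sum.inl (T.pi i v)) = f (Sum.inl w)
      rw [h1 (i + 2) (T.pi i v), T.e_pi, ← h1 (i + 1) v]
      exact hv)
    have h4 : w' ∈ {v | f (Sum.inl v) = f (Sum.inl w)} := by rw [h3]; trivial
    exact h4.symm
  have h3 : ∀ x, ∃ w, f x = f (Sum.inl w) := by
    intro x
    cases x with
    | inl w => exact ⟨w, rfl⟩
    | inr b =>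
      refine ⟨(T.e 0).symm b, ?_⟩
      rw [h1 0, Equiv.apply_symm_apply]
  obtain ⟨w, hw⟩ := h3 x
  obtain ⟨w', hw'⟩ := h3 y
  rw [hw, hw', h2 w w']

/-- vertex functions constant along all edges are constant -/
theorem conn_verts (hc : T.Conn) {A : Type*} (h : T.Vert → A)
    (hh : ∀ d : T.Ed, h (T.src d) = h (T.tgt d)) (x y : T.Vert) : h x = h y := by
  have h0 : ∀ (i j : ZMod 3) (w : W), h (T.p i w) = h (T.p j w) := by
    intro i j w
    have key : ∀ i j : ZMod 3, i = j ∨ (∃ k : ZMod 3, i = k + 1 ∧ j = k + 2) ∨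
        (∃ k : ZMod 3, j = k + 1 ∧ i = k + 2) := by decide
    rcases key i j with rfl | ⟨k, rfl, rfl⟩ | ⟨k, rfl, rfl⟩
    · rfl
    · exact hh (k, w)
    · exact (hh (k, w)).symm
  obtain ⟨w, hw⟩ := T.exists_p x
  obtain ⟨w', hw'⟩ := T.exists_p y
  have h3 := hc {v | h (T.p 0 v) = h (T.p 0 w)} ⟨w, rfl⟩ (by
    intro i v hv
    show h (T.p 0 (T.pi i v)) = h (T.p 0 w)
    rw [h0 0 i, T.p_pi, h0 i 0]
    exact hv)
  have h4 : w' ∈ {v | h (T.p 0 v) = h (T.p 0 w)} := by rw [h3]; trivial
  rw [← hw, ← hw', h0 x.1 0, h0 y.1 0]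
  exact h4.symm

variable [Fintype W]

/-- the jumps of a face function are closed at every vertex -/
theorem hzero {F : Type*} [Field F] [DecidableEq T.Vert] (f : W ⊕ B → F) :
    (inc F T.src T.tgt) *ᵥ (fun d : T.Ed => f (T.lf d) - f (T.rf d)) = 0 := by
  funext x
  rw [inc_mulVec]
  show _ = (0 : F)
  obtain ⟨w0, hw0⟩ := T.exists_p x
  set i := x.1 with hi
  rw [Finset.sum_sub_distrib]
  -- the edges with first end `x`
  have hs : ∑ d : T.Ed, (if T.src d = x then f (T.lf d) - f (T.rf d) else 0)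
      = ∑ w : W, if T.p i w = x then f (Sum.inl w) - f (Sum.inr (T.e (i + 2) w)) else 0 := by
    rw [Fintype.sum_prod_type]
    rw [Finset.sum_eq_single (i + 2)]
    · refine Finset.sum_congr rfl (fun w _ => ?_)
      have e1 : T.src (i + 2, w) = T.p i w := by
        show T.p (i + 2 + 1) w = T.p i w
        have : i + 2 + 1 = i := by rw [add_assoc]; have : (2 : ZMod 3) + 1 = 0 := by decide
                                   rw [this, add_zero]
        rw [this]
      rw [e1]; rfl
    · intro k _ hk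
      refine Finset.sum_eq_zero (fun w _ => ?_)
      rw [if_neg]
      intro h
      apply hk
      have h1 : T.p (k + 1) w = T.p i w0 := h.trans hw0.symm
      have h2 := (T.p_eq_iff.1 h1).1
      rw [← h2, add_assoc]
      have : (1 : ZMod 3) + 2 = 0 := by decide
      rw [this, add_zero]
    · intro h; exact absurd (Finset.mem_univ _) h
  have ht : ∑ d : T.Ed, (if T.tgt d = x then f (T.lf d) - f (T.rf d) else 0)
      = ∑ w : W, if T.p i w = x then f (Sum.inl w) - f (Sum.inr (T.e (i + 1) w)) else 0 := by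
    rw [Fintype.sum_prod_type]
    rw [Finset.sum_eq_single (i + 1)]
    · refine Finset.sum_congr rfl (fun w _ => ?_)
      have e1 : T.tgt (i + 1, w) = T.p i w := by
        show T.p (i + 1 + 2) w = T.p i w
        have : i + 1 + 2 = i := by rw [add_assoc]; have : (1 : ZMod 3) + 2 = 0 := by decide
                                   rw [this, add_zero]
        rw [this]
      rw [e1]; rfl
    · intro k _ hk
      refine Finset.sum_eq_zero (fun w _ => ?_)
      rw [if_neg]
      intro h
      apply hk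
      have h1 : T.p (k + 2) w = T.p i w0 := h.trans hw0.symm
      have h2 := (T.p_eq_iff.1 h1).1
      rw [← h2, add_assoc]
      have : (2 : ZMod 3) + 1 = 0 := by decide
      rw [this, add_zero]
    · intro h; exact absurd (Finset.mem_univ _) h
  rw [hs, ht, ← Finset.sum_sub_distrib]
  have e1 : ∀ w : W, ((if T.p i w = x then f (Sum.inl w) - f (Sum.inr (T.e (i + 2) w)) else 0)
      - (if T.p i w = x then f (Sum.inl w) - f (Sum.inr (T.e (i + 1) w)) else 0))
      = (if T.p i w = x then f (Sum.inr (T.e (i + 1) w)) else 0)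
        - (if T.p i w = x then f (Sum.inr (T.e (i + 2) w)) else 0) := by
    intro w
    split_ifs
    · ring
    · ring
  rw [Finset.sum_congr rfl (fun w _ => e1 w), Finset.sum_sub_distrib]
  have e2 : ∑ w : W, (if T.p i w = x then f (Sum.inr (T.e (i + 2) w)) else 0)
      = ∑ w : W, (if T.p i w = x then f (Sum.inr (T.e (i + 1) w)) else 0) := by
    rw [← Equiv.sum_comp (T.pi i)]
    refine Finset.sum_congr rfl (fun w _ => ?_)
    rw [T.p_pi, T.e_pi]
  rw [e2, sub_self]

/-! ### the two sides of a set of faces -/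

section sides

variable [Fintype B] [DecidableEq W] [DecidableEq B] [Fintype T.Vert] [DecidableEq T.Vert]
  (Dw : Finset W) (Db : Finset B)

/-- the boundary edges -/
def bdry : Finset T.Ed := Finset.univ.filter (fun d => ¬ (d.2 ∈ Dw ↔ T.e d.1 d.2 ∈ Db))

/-- the ends of a set of edges -/
def ends (C : Finset T.Ed) : Finset T.Vert := C.image T.src ∪ C.image T.tgt

/-- the interior vertices of a set of faces -/
def inner : Finset T.Vert :=
  Finset.univ.filter (fun v => v ∉ T.ends (T.bdry Dw Db) ∧ ∀ k w, T.p k w = v → w ∈ Dw)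

/-- the edges touching a set of faces -/
def touch : Finset T.Ed := Finset.univ.filter (fun d => d.2 ∈ Dw ∨ T.e d.1 d.2 ∈ Db)

variable {Dw Db}

omit [Fintype B] [Fintype T.Vert] [DecidableEq T.Vert] in
theorem mem_bdry {d : T.Ed} : d ∈ T.bdry Dw Db ↔ ¬ (d.2 ∈ Dw ↔ T.e d.1 d.2 ∈ Db) := by
  unfold bdry; rw [Finset.mem_filter]; exact and_iff_right (Finset.mem_univ _)

omit [Fintype B] [Fintype T.Vert] [DecidableEq T.Vert] in
theorem mem_touch {d : T.Ed} : d ∈ T.touch Dw Db ↔ (d.2 ∈ Dw ∨ T.e d.1 d.2 ∈ Db) := by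
  unfold touch; rw [Finset.mem_filter]; exact and_iff_right (Finset.mem_univ _)

omit [Fintype W] [Fintype B] [DecidableEq W] [DecidableEq B] [Fintype T.Vert] in
theorem src_mem_ends {C : Finset T.Ed} {d : T.Ed} (h : d ∈ C) : T.src d ∈ T.ends C :=
  Finset.mem_union_left _ (Finset.mem_image_of_mem _ h)

omit [Fintype W] [Fintype B] [DecidableEq W] [DecidableEq B] [Fintype T.Vert] in
theorem tgt_mem_ends {C : Finset T.Ed} {d : T.Ed} (h : d ∈ C) : T.tgt d ∈ T.ends C :=
  Finset.mem_union_right _ (Finset.mem_image_of_mem _ h)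

omit [Fintype W] [Fintype B] [DecidableEq W] [DecidableEq B] [Fintype T.Vert] in
theorem mem_ends {C : Finset T.Ed} {v : T.Vert} :
    v ∈ T.ends C ↔ ∃ d ∈ C, T.src d = v ∨ T.tgt d = v := by
  unfold ends
  rw [Finset.mem_union, Finset.mem_image, Finset.mem_image]
  constructor
  · rintro (⟨d, hd, h⟩ | ⟨d, hd, h⟩)
    · exact ⟨d, hd, Or.inl h⟩
    · exact ⟨d, hd, Or.inr h⟩
  · rintro ⟨d, hd, h | h⟩
    · exact Or.inl ⟨d, hd, h⟩
    · exact Or.inr ⟨d, hd, h⟩

omit [Fintype B] in
theorem mem_inner {v : T.Vert} : v ∈ T.inner Dw Db ↔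
    (v ∉ T.ends (T.bdry Dw Db) ∧ ∀ k w, T.p k w = v → w ∈ Dw) := by
  unfold inner; rw [Finset.mem_filter]; exact and_iff_right (Finset.mem_univ _)

omit [Fintype B] [DecidableEq B] [DecidableEq W] in
theorem z21 (i : ZMod 3) : i + 2 + 1 = i := by
  have : (2 : ZMod 3) + 1 = 0 := by decide
  rw [add_assoc, this, add_zero]

omit [Fintype B] [DecidableEq B] [DecidableEq W] in
theorem z12 (i : ZMod 3) : i + 1 + 2 = i := by
  have : (1 : ZMod 3) + 2 = 0 := by decide
  rw [add_assoc, this, add_zero]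

omit [Fintype B] [Fintype T.Vert] in
/-- the faces at a vertex off the boundary are on one side -/
theorem star {v : T.Vert} (hv : v ∉ T.ends (T.bdry Dw Db)) {k k' : ZMod 3} {w w' : W}
    (hw : T.p k w = v) (hw' : T.p k' w' = v) : w ∈ Dw ↔ w' ∈ Dw := by
  have hk : k = k' := (T.p_eq_iff.1 (hw.trans hw'.symm)).1
  subst hk
  refine T.iff_of_pi (P := fun w => w ∈ Dw) v ?_ hw hw'
  intro u hu
  have h1 : (k + 2, T.pi k u) ∉ T.bdry Dw Db := by
    intro h
    apply hv
    have h2 := T.src_mem_ends h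
    have h3 : T.src (k + 2, T.pi k u) = v := by
      show T.p (k + 2 + 1) (T.pi k u) = v
      rw [z21, T.p_pi, hu]
    rwa [h3] at h2
  have h2 : (k + 1, u) ∉ T.bdry Dw Db := by
    intro h
    apply hv
    have h2 := T.tgt_mem_ends h
    have h3 : T.tgt (k + 1, u) = v := by
      show T.p (k + 1 + 2) u = v
      rw [z12, hu]
    rwa [h3] at h2
  rw [T.mem_bdry, not_not] at h1 h2
  have h1' : T.pi k u ∈ Dw ↔ T.e (k + 2) (T.pi k u) ∈ Db := h1
  have h2' : u ∈ Dw ↔ T.e (k + 1) u ∈ Db := h2
  rw [T.e_pi] at h1'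
  exact h1'.trans h2'.symm

omit [Fintype B] [Fintype T.Vert] in
/-- same statement for the black faces at a vertex off the boundary -/
theorem star_black {d : T.Ed} (hv : T.src d ∉ T.ends (T.bdry Dw Db) ∨ T.tgt d ∉ T.ends (T.bdry Dw Db)) :
    d.2 ∈ Dw ↔ T.e d.1 d.2 ∈ Db := by
  by_contra h
  have h1 : d ∈ T.bdry Dw Db := T.mem_bdry.2 h
  rcases hv with hv | hv
  · exact hv (T.src_mem_ends h1)
  · exact hv (T.tgt_mem_ends h1)

omit [DecidableEq T.Vert] [Fintype T.Vert] [Fintype B] in
theorem bdry_nonempty (hc : T.Conn) (h1 : Dw.Nonempty ∨ Db.Nonempty)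
    (h2 : (∃ w, w ∉ Dw) ∨ ∃ b, b ∉ Db) : (T.bdry Dw Db).Nonempty := by
  by_contra hcon
  rw [Finset.not_nonempty_iff_eq_empty] at hcon
  let f : W ⊕ B → Prop := fun x => Sum.elim (fun w => w ∈ Dw) (fun b => b ∈ Db) x
  have hf := T.conn_faces hc f (by
    intro d
    have : d ∉ T.bdry Dw Db := by rw [hcon]; exact Finset.notMem_empty _
    rw [T.mem_bdry, not_not] at this
    exact propext this)
  have ha : ∃ x, f x := by
    rcases h1 with ⟨w, hw⟩ | ⟨b, hb⟩
    · exact ⟨Sum.inl w, hw⟩
    · exact ⟨Sum.inr b, hb⟩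
  have hb : ∃ x, ¬ f x := by
    rcases h2 with ⟨w, hw⟩ | ⟨b, hb⟩
    · exact ⟨Sum.inl w, hw⟩
    · exact ⟨Sum.inr b, hb⟩
  obtain ⟨x, hx⟩ := ha
  obtain ⟨y, hy⟩ := hb
  rw [hf x y] at hx
  exact hy hx

/-- Euler's inequality for one side -/
theorem one_side (hc : T.Conn) (h1 : Dw.Nonempty ∨ Db.Nonempty)
    (h2 : (∃ w, w ∉ Dw) ∨ ∃ b, b ∉ Db)
    (hconn : ∀ h : T.Vert → ℚ, (∀ d ∈ T.bdry Dw Db, h (T.src d) = h (T.tgt d)) →
      ∀ x ∈ T.ends (T.bdry Dw Db), ∀ y ∈ T.ends (T.bdry Dw Db), h x = h y) :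
    (T.ends (T.bdry Dw Db)).card + (T.inner Dw Db).card + (Dw.card + Db.card)
      ≤ (T.touch Dw Db).card + 1 := by
  classical
  have hne := T.bdry_nonempty hc h1 h2
  have hdisj : Disjoint (T.ends (T.bdry Dw Db)) (T.inner Dw Db) := by
    rw [Finset.disjoint_left]
    intro v hv hv'
    exact (T.mem_inner.1 hv').1 hv
  have hYc : (Dw.disjSum Db).card = Dw.card + Db.card := Finset.card_disjSum _ _
  rw [← Finset.card_union_of_disjoint hdisj, ← hYc]
  have hbt : ∀ d ∈ T.bdry Dw Db, d ∈ T.touch Dw Db := by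
    intro d hd
    rw [T.mem_bdry] at hd
    rw [T.mem_touch]
    tauto
  have hin : ∀ d, d ∈ T.touch Dw Db → ∀ v, (T.src d = v ∨ T.tgt d = v) →
      v ∈ T.ends (T.bdry Dw Db) ∪ T.inner Dw Db := by
    intro d hd v hdv
    rw [Finset.mem_union]
    by_cases hv : v ∈ T.ends (T.bdry Dw Db)
    · exact Or.inl hv
    · right
      rw [T.mem_inner]
      refine ⟨hv, ?_⟩
      have hd2 : d.2 ∈ Dw ↔ T.e d.1 d.2 ∈ Db := by
        apply T.star_black
        rcases hdv with h | h
        · exact Or.inl (h ▸ hv)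
        · exact Or.inr (h ▸ hv)
      have hd3 : d.2 ∈ Dw := by
        rw [T.mem_touch] at hd
        tauto
      have hp : ∃ k, T.p k d.2 = v := by
        rcases hdv with h | h
        · exact ⟨_, h⟩
        · exact ⟨_, h⟩
      obtain ⟨k0, hk0⟩ := hp
      intro k w hw
      exact (T.star hv hw hk0).2 hd3
  refine euler_le (F := ℚ) T.src T.tgt T.lf T.rf _ (T.touch Dw Db) (Dw.disjSum Db) ?_ ?_ ?_ ?_ ?_
  · intro d hd
    exact ⟨hin d hd _ (Or.inl rfl), hin d hd _ (Or.inr rfl)⟩
  · intro h hh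
    have hVC := hconn h (fun d hd => hh d (hbt d hd))
    obtain ⟨d0, hd0⟩ := hne
    set c0 := h (T.src d0) with hc0
    have hVC' : ∀ x ∈ T.ends (T.bdry Dw Db), h x = c0 := fun x hx =>
      hVC x hx _ (T.src_mem_ends hd0)
    let h' : T.Vert → ℚ := fun v => if v ∈ T.ends (T.bdry Dw Db) ∪ T.inner Dw Db then h v else c0
    have h'1 : ∀ v, v ∈ T.ends (T.bdry Dw Db) ∪ T.inner Dw Db → h' v = h v := fun v hv => if_pos hv
    have h'2 : ∀ v, v ∉ T.inner Dw Db → h' v = c0 := by
      intro v hv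
      by_cases hv' : v ∈ T.ends (T.bdry Dw Db)
      · rw [h'1 v (Finset.mem_union_left _ hv'), hVC' v hv']
      · exact if_neg (by rw [Finset.mem_union]; tauto)
    have hconst := T.conn_verts hc h' (by
      intro d
      by_cases hd : d ∈ T.touch Dw Db
      · rw [h'1 _ (hin d hd _ (Or.inl rfl)), h'1 _ (hin d hd _ (Or.inr rfl))]
        exact hh d hd
      · have hd2 : d.2 ∉ Dw := by
          intro h
          exact hd (T.mem_touch.2 (Or.inl h))
        rw [h'2, h'2]
        · intro h
          exact hd2 ((T.mem_inner.1 h).2 _ _ rfl)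
        · intro h
          exact hd2 ((T.mem_inner.1 h).2 _ _ rfl))
    intro x hx y hy
    rw [← h'1 x hx, ← h'1 y hy]
    exact hconst x y
  · intro d hd
    rw [T.mem_touch]
    rcases hd with hd | hd
    · left
      have : Sum.inl d.2 ∈ Dw.disjSum Db := hd
      rwa [Finset.inl_mem_disjSum] at this
    · right
      have : Sum.inr (T.e d.1 d.2) ∈ Dw.disjSum Db := hd
      rwa [Finset.inr_mem_disjSum] at this
  · intro f
    exact T.hzero f
  · intro f hf0 hf
    have hconst := T.conn_faces hc f hf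
    have hz : ∃ x, f x = 0 := by
      rcases h2 with ⟨w, hw⟩ | ⟨b, hb⟩
      · exact ⟨Sum.inl w, hf0 _ (by rw [Finset.inl_mem_disjSum]; exact hw)⟩
      · exact ⟨Sum.inr b, hf0 _ (by rw [Finset.inr_mem_disjSum]; exact hb)⟩
    obtain ⟨x, hx⟩ := hz
    funext y
    rw [hconst y x, hx]; rfl

omit [Fintype B] [Fintype T.Vert] [DecidableEq T.Vert] in
theorem card_filter_W (P : W → Prop) [DecidablePred P] :
    ((Finset.univ : Finset T.Ed).filter (fun d => P d.2)).card
      = 3 * ((Finset.univ : Finset W).filter P).card := by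
  have h1 : (Finset.univ : Finset T.Ed).filter (fun d => P d.2)
      = (Finset.univ : Finset (ZMod 3)) ×ˢ ((Finset.univ : Finset W).filter P) := by
    ext d
    simp only [Finset.mem_filter, Finset.mem_univ, true_and, Finset.mem_product]
  rw [h1, Finset.card_product, Finset.card_univ, ZMod.card]

omit [DecidableEq W] [Fintype T.Vert] [DecidableEq T.Vert] in
theorem card_filter_B (P : B → Prop) [DecidablePred P] :
    ((Finset.univ : Finset T.Ed).filter (fun d => P (T.e d.1 d.2))).card
      = 3 * ((Finset.univ : Finset B).filter P).card := by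
  classical
  have h1 : ((Finset.univ : Finset T.Ed).filter (fun d => P (T.e d.1 d.2))).card
      = ((Finset.univ : Finset (ZMod 3 × B)).filter (fun d => P d.2)).card := by
    refine Finset.card_bij (fun d _ => (d.1, T.e d.1 d.2)) ?_ ?_ ?_
    · intro d hd
      rw [Finset.mem_filter] at hd ⊢
      exact ⟨Finset.mem_univ _, hd.2⟩
    · rintro ⟨k, w⟩ _ ⟨k', w'⟩ _ h
      rw [Prod.mk.injEq] at h
      obtain ⟨h1, h2⟩ := h
      have h1' : k = k' := h1
      subst h1'
      have h2' : T.e k w = T.e k w' := h2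
      rw [(T.e k).injective h2']
    · rintro ⟨k, b⟩ hb
      refine ⟨(k, (T.e k).symm b), ?_, ?_⟩
      · rw [Finset.mem_filter] at hb ⊢
        refine ⟨Finset.mem_univ _, ?_⟩
        show P (T.e k ((T.e k).symm b))
        rw [Equiv.apply_symm_apply]
        exact hb.2
      · show (k, T.e k ((T.e k).symm b)) = (k, b)
        rw [Equiv.apply_symm_apply]
  have h2 : (Finset.univ : Finset (ZMod 3 × B)).filter (fun d => P d.2)
      = (Finset.univ : Finset (ZMod 3)) ×ˢ ((Finset.univ : Finset B).filter P) := by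
    ext d
    simp only [Finset.mem_filter, Finset.mem_univ, true_and, Finset.mem_product]
  rw [h1, h2, Finset.card_product, Finset.card_univ, ZMod.card]

/-- white count of the edges touching `D` : `3 |Dw| + lb` -/
theorem card_touch : (T.touch Dw Db).card
    = 3 * Dw.card + ((T.bdry Dw Db).filter (fun d => T.e d.1 d.2 ∈ Db)).card := by
  classical
  have h1 := T.card_filter_W (fun w => w ∈ Dw)
  have e1 : (Finset.univ : Finset W).filter (fun w => w ∈ Dw) = Dw := by
    ext w; simp
  rw [e1] at h1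
  have h2 : T.touch Dw Db = (Finset.univ : Finset T.Ed).filter (fun d => d.2 ∈ Dw)
      ∪ (T.bdry Dw Db).filter (fun d => T.e d.1 d.2 ∈ Db) := by
    ext d
    rw [T.mem_touch, Finset.mem_union, Finset.mem_filter, Finset.mem_filter, T.mem_bdry]
    have := Finset.mem_univ d
    tauto
  rw [h2, Finset.card_union_of_disjoint, h1]
  rw [Finset.disjoint_left]
  intro d hd hd'
  rw [Finset.mem_filter] at hd hd'
  rw [T.mem_bdry] at hd'
  tauto

/-- black count of the edges touching `D` : `3 |Db| + lw` -/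
theorem card_touch' : (T.touch Dw Db).card
    = 3 * Db.card + ((T.bdry Dw Db).filter (fun d => d.2 ∈ Dw)).card := by
  classical
  have h1 := T.card_filter_B (fun b => b ∈ Db)
  have e1 : (Finset.univ : Finset B).filter (fun w => w ∈ Db) = Db := by
    ext w; simp
  rw [e1] at h1
  have h2 : T.touch Dw Db = (Finset.univ : Finset T.Ed).filter (fun d => T.e d.1 d.2 ∈ Db)
      ∪ (T.bdry Dw Db).filter (fun d => d.2 ∈ Dw) := by
    ext d
    rw [T.mem_touch, Finset.mem_union, Finset.mem_filter, Finset.mem_filter, T.mem_bdry]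
    have := Finset.mem_univ d
    tauto
  rw [h2, Finset.card_union_of_disjoint, h1]
  rw [Finset.disjoint_left]
  intro d hd hd'
  rw [Finset.mem_filter] at hd hd'
  rw [T.mem_bdry] at hd'
  tauto

/-- the boundary edges: white side in `D` or black side in `D` -/
theorem card_bdry : (T.bdry Dw Db).card = ((T.bdry Dw Db).filter (fun d => d.2 ∈ Dw)).card
    + ((T.bdry Dw Db).filter (fun d => T.e d.1 d.2 ∈ Db)).card := by
  classical
  rw [← Finset.card_filter_add_card_filter_not (s := T.bdry Dw Db) (fun d => d.2 ∈ Dw)]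
  congr 2
  ext d
  rw [Finset.mem_filter, Finset.mem_filter, T.mem_bdry]
  tauto

/-- COLOUR COUNT (no planarity): `3 (|Dw| - |Db|) = lw - lb` -/
theorem colour_count : 3 * Dw.card + ((T.bdry Dw Db).filter (fun d => T.e d.1 d.2 ∈ Db)).card
    = 3 * Db.card + ((T.bdry Dw Db).filter (fun d => d.2 ∈ Dw)).card := by
  rw [← T.card_touch, ← T.card_touch']

/-- complement: same boundary -/
theorem bdry_compl : T.bdry Dwᶜ Dbᶜ = T.bdry Dw Db := by
  ext d
  rw [T.mem_bdry, T.mem_bdry, Finset.mem_compl, Finset.mem_compl]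
  tauto

/-- THE DISC COUNT. `D = (Dw, Db)` a set of faces, neither empty nor everything, `C` its boundary
edges, `VC` their ends; functions on `VC` that are constant along `C` are constant and
`|C| ≤ |VC|`. Then `|VC| = |C|`, `|VC| + i + |Dw| + |Db| = |E_D| + 1` and
`3 |Dw| + 3 = 3 i + |C| + lw`, `3 |Db| + 3 = 3 i + |C| + lb`. -/
theorem disc_count (hc : T.Conn) (hg : T.Genus0) (h1 : Dw.Nonempty ∨ Db.Nonempty)
    (h2 : (∃ w, w ∉ Dw) ∨ ∃ b, b ∉ Db)
    (hconn : ∀ h : T.Vert → ℚ, (∀ d ∈ T.bdry Dw Db, h (T.src d) = h (T.tgt d)) →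
      ∀ x ∈ T.ends (T.bdry Dw Db), ∀ y ∈ T.ends (T.bdry Dw Db), h x = h y)
    (hcard : (T.bdry Dw Db).card ≤ (T.ends (T.bdry Dw Db)).card) :
    (T.ends (T.bdry Dw Db)).card = (T.bdry Dw Db).card ∧
    (T.ends (T.bdry Dw Db)).card + (T.inner Dw Db).card + (Dw.card + Db.card)
      = (T.touch Dw Db).card + 1 ∧
    3 * Dw.card + 3 = 3 * (T.inner Dw Db).card + (T.bdry Dw Db).card
      + ((T.bdry Dw Db).filter (fun d => d.2 ∈ Dw)).card ∧
    3 * Db.card + 3 = 3 * (T.inner Dw Db).card + (T.bdry Dw Db).card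
      + ((T.bdry Dw Db).filter (fun d => T.e d.1 d.2 ∈ Db)).card := by
  classical
  have a1 := T.one_side hc h1 h2 hconn
  have a2 := T.one_side (Dw := Dwᶜ) (Db := Dbᶜ) hc
    (by
      rcases h2 with ⟨w, hw⟩ | ⟨b, hb⟩
      · exact Or.inl ⟨w, Finset.mem_compl.2 hw⟩
      · exact Or.inr ⟨b, Finset.mem_compl.2 hb⟩)
    (by
      rcases h1 with ⟨w, hw⟩ | ⟨b, hb⟩
      · exact Or.inl ⟨w, fun h => (Finset.mem_compl.1 h) hw⟩
      · exact Or.inr ⟨b, fun h => (Finset.mem_compl.1 h) hb⟩)
    (by rw [T.bdry_compl]; exact hconn)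
  rw [T.bdry_compl] at a2
  -- the edges
  have e1 : (T.touch Dw Db).card + (T.touch Dwᶜ Dbᶜ).card
      = 3 * Fintype.card W + (T.bdry Dw Db).card := by
    have hu : T.touch Dw Db ∪ T.touch Dwᶜ Dbᶜ = Finset.univ := by
      ext d
      rw [Finset.mem_union, T.mem_touch, T.mem_touch, Finset.mem_compl, Finset.mem_compl]
      have := Finset.mem_univ d
      tauto
    have hi : T.touch Dw Db ∩ T.touch Dwᶜ Dbᶜ = T.bdry Dw Db := by
      ext d
      rw [Finset.mem_inter, T.mem_touch, T.mem_touch, Finset.mem_compl, Finset.mem_compl,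
        T.mem_bdry]
      tauto
    rw [← Finset.card_union_add_card_inter, hu, hi, Finset.card_univ, Fintype.card_prod,
      ZMod.card]
  -- the vertices
  have e2 : (T.ends (T.bdry Dw Db)).card + (T.inner Dw Db).card + (T.inner Dwᶜ Dbᶜ).card
      = Fintype.card T.Vert := by
    have d1 : Disjoint (T.ends (T.bdry Dw Db)) (T.inner Dw Db) := by
      rw [Finset.disjoint_left]
      intro v hv hv'
      exact (T.mem_inner.1 hv').1 hv
    have d2 : Disjoint (T.ends (T.bdry Dw Db) ∪ T.inner Dw Db) (T.inner Dwᶜ Dbᶜ) := by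
      rw [Finset.disjoint_left]
      intro v hv hv'
      rw [T.mem_inner, T.bdry_compl] at hv'
      rw [Finset.mem_union] at hv
      rcases hv with hv | hv
      · exact hv'.1 hv
      · obtain ⟨w, hw⟩ := T.exists_p v
        exact (Finset.mem_compl.1 (hv'.2 _ _ hw)) ((T.mem_inner.1 hv).2 _ _ hw)
    rw [← Finset.card_union_of_disjoint d1, ← Finset.card_union_of_disjoint d2,
      ← Finset.card_univ]
    congr 1
    ext v
    rw [Finset.mem_union, Finset.mem_union, T.mem_inner, T.mem_inner, T.bdry_compl]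
    refine ⟨fun _ => Finset.mem_univ _, fun _ => ?_⟩
    by_cases hv : v ∈ T.ends (T.bdry Dw Db)
    · exact Or.inl (Or.inl hv)
    · obtain ⟨w, hw⟩ := T.exists_p v
      by_cases hwD : w ∈ Dw
      · exact Or.inl (Or.inr ⟨hv, fun k w' hw' => (T.star hv hw' hw).2 hwD⟩)
      · exact Or.inr ⟨hv, fun k w' hw' => Finset.mem_compl.2
          (fun h => hwD ((T.star hv hw' hw).1 h))⟩
  have hg' : Fintype.card T.Vert = Fintype.card W + 2 := by
    have := hg
    unfold Genus0 at this
    rwa [Nat.card_eq_fintype_card, Nat.card_eq_fintype_card] at this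
  have hB : Fintype.card W = Fintype.card B := Fintype.card_congr (T.e 0)
  have hW' := Finset.card_add_card_compl Dw
  have hB' := Finset.card_add_card_compl Db
  have t1 := T.card_touch (Dw := Dw) (Db := Db)
  have t2 := T.card_touch' (Dw := Dw) (Db := Db)
  have t3 := T.card_bdry (Dw := Dw) (Db := Db)
  refine ⟨by omega, by omega, by omega, by omega⟩

end sides

end Crest.Agent.R039.Tri

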