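import Crest.Agent.R039.Map834E

/-!
# Row 39: exactness for the abstract triangulation `Tri`
-/

set_option autoImplicit false
set_option linter.unusedSectionVars false

namespace Crest.Agent.R039

open Crest.Agent.R039.Map
open scoped Matrix

namespace Tri

variable {W B : Type*} (T : Tri W B)

theorem pi_apply (i : ZMod 3) (w : W) : T.pi i w = (T.e (i + 2)).symm (T.e (i + 1) w) := rfl

theorem exists_p (v : T.Vert) : ∃ w, T.p v.1 w = v := by
  obtain ⟨i, x⟩ := v
  obtain ⟨w, rfl⟩ := Quotient.exists_rep x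
  exact ⟨w, rfl⟩

@[simp] theorem p_fst (i : ZMod 3) (w : W) : (T.p i w).1 = i := rfl

@[simp] theorem q_fst (i : ZMod 3) (b : B) : (T.q i b).1 = i := rfl

/-- the vertices of the black face across the edge `k` of `w`, of a colour different from `k`,
are the vertices of `w`. -/
theorem q_eq (i k : ZMod 3) (h : k ≠ i) (w : W) : T.q i (T.e k w) = T.p i w := T.bic.hpq i k w h

theorem p_pi (i : ZMod 3) (w : W) : T.p i (T.pi i w) = T.p i w := by
  rw [T.p_eq_iff]
  exact ⟨rfl, (Equiv.Perm.sameCycle_apply_left).2 (Equiv.Perm.SameCycle.refl _ _)⟩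

theorem conn_face (hT : T.Conn) {A : Type*} (h : W ⊕ B → A)
    (hh : ∀ k w, h (Sum.inl w) = h (Sum.inr (T.e k w))) (x y : W ⊕ B) : h x = h y := by
  have hW : ∀ w w' : W, h (Sum.inl w) = h (Sum.inl w') := by
    intro w w'
    have := hT {v | h (Sum.inl v) = h (Sum.inl w)} ⟨w, rfl⟩ (by
      intro i v hv
      show h (Sum.inl (T.pi i v)) = h (Sum.inl w)
      rw [hh (i + 2) (T.pi i v), T.pi_apply, Equiv.apply_symm_apply, ← hh]
      exact hv)
    have h2 : w' ∈ (Set.univ : Set W) := trivial
    rw [← this] at h2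
    exact h2.symm
  have hB : ∀ b : B, h (Sum.inr b) = h (Sum.inl ((T.e 0).symm b)) := by
    intro b
    rw [hh 0, Equiv.apply_symm_apply]
  rcases x with x | x <;> rcases y with y | y
  · exact hW _ _
  · rw [hB]; exact hW _ _
  · rw [hB]; exact hW _ _
  · rw [hB, hB]; exact hW _ _

theorem conn_vert (hT : T.Conn) {A : Type*} (h : T.Vert → A)
    (hh : ∀ k w, h (T.p (k - 1) w) = h (T.p (k + 1) w)) (x y : T.Vert) : h x = h y := by
  have key0 : ∀ i j : ZMod 3, i = j ∨ (∃ k : ZMod 3, i = k - 1 ∧ j = k + 1) ∨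
      (∃ k : ZMod 3, j = k - 1 ∧ i = k + 1) := by decide
  have key : ∀ i j w, h (T.p i w) = h (T.p j w) := by
    intro i j w
    rcases key0 i j with rfl | ⟨k, rfl, rfl⟩ | ⟨k, rfl, rfl⟩
    · rfl
    · exact hh k w
    · exact (hh k w).symm
  obtain ⟨w, hw⟩ := T.exists_p x
  obtain ⟨w', hw'⟩ := T.exists_p y
  have := hT {v | h (T.p 0 v) = h (T.p 0 w)} ⟨w, rfl⟩ (by
    intro i v hv
    show h (T.p 0 (T.pi i v)) = h (T.p 0 w)
    rw [key 0 i, T.p_pi, key i 0]
    exact hv)
  have h2 : w' ∈ (Set.univ : Set W) := trivial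
  rw [← this] at h2
  have h3 : h (T.p 0 w') = h (T.p 0 w) := h2
  rw [← hw, ← hw', key x.1 0, key y.1 0, h3]

variable [Fintype W] [Fintype B] [DecidableEq W] [DecidableEq B]

noncomputable instance : DecidableEq T.Vert := Classical.decEq _
noncomputable instance : Fintype T.Vert := Fintype.ofFinite _

include T in
theorem card_B : Fintype.card B = Fintype.card W := (Fintype.card_congr (T.e 0)).symm

theorem card_vert (hg : T.Genus0) : Fintype.card T.Vert = Fintype.card W + 2 := by
  rw [← Nat.card_eq_fintype_card, ← Nat.card_eq_fintype_card]; exact hg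

/-- boundary of a boundary, at the vertex `v` -/
theorem inc_delta {F : Type*} [Field F] (f : W ⊕ B → F) :
    (inc F (fun d : W × ZMod 3 => T.p (d.2 - 1) d.1) (fun d : W × ZMod 3 => T.p (d.2 + 1) d.1)) *ᵥ
      (fun d => f (Sum.inl d.1) - f (Sum.inr (T.e d.2 d.1))) = 0 := by
  funext v
  rw [inc_mulVec]
  obtain ⟨i, hi⟩ : ∃ i, v.1 = i := ⟨_, rfl⟩
  have e1 : ∀ w : W, ∑ k : ZMod 3, ((if T.p (k - 1) w = v then
      f (Sum.inl w) - f (Sum.inr (T.e k w)) else 0) -
      (if T.p (k + 1) w = v then f (Sum.inl w) - f (Sum.inr (T.e k w)) else 0)) =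
      if T.p i w = v then f (Sum.inr (T.e (i + 2) w)) - f (Sum.inr (T.e (i + 1) w)) else 0 := by
    intro w
    have hne : ∀ j : ZMod 3, j ≠ i → ¬ T.p j w = v := by
      intro j hj h
      apply hj
      rw [← hi, ← h]; rfl
    have e2 : ∀ k : ZMod 3, (if T.p (k - 1) w = v then
        f (Sum.inl w) - f (Sum.inr (T.e k w)) else 0) = if k = i + 1 then
        (if T.p i w = v then f (Sum.inl w) - f (Sum.inr (T.e (i + 1) w)) else 0) else 0 := by
      intro k
      by_cases hk : k = i + 1
      · subst hk; rw [if_pos rfl, add_sub_cancel_right]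
      · rw [if_neg hk, if_neg]
        apply hne
        intro h; apply hk; rw [← h]; ring
    have e3 : ∀ k : ZMod 3, (if T.p (k + 1) w = v then
        f (Sum.inl w) - f (Sum.inr (T.e k w)) else 0) = if k = i + 2 then
        (if T.p i w = v then f (Sum.inl w) - f (Sum.inr (T.e (i + 2) w)) else 0) else 0 := by
      intro k
      have h3 : i + 2 + 1 = i := by
        have : ∀ i : ZMod 3, i + 2 + 1 = i := by decide
        exact this i
      by_cases hk : k = i + 2
      · subst hk; rw [if_pos rfl, h3]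
      · rw [if_neg hk, if_neg]
        apply hne
        intro h; apply hk; rw [← h]
        have : ∀ k : ZMod 3, k = k + 1 + 2 := by decide
        exact this k
    rw [Finset.sum_sub_distrib, Finset.sum_congr rfl (fun k _ => e2 k),
      Finset.sum_congr rfl (fun k _ => e3 k), Finset.sum_ite_eq', Finset.sum_ite_eq',
      if_pos (Finset.mem_univ _), if_pos (Finset.mem_univ _)]
    split_ifs <;> ring
  rw [Fintype.sum_prod_type, Finset.sum_congr rfl (fun w _ => e1 w)]
  show _ = (0 : F)
  have e4 : ∀ w : W, (if T.p i w = v then f (Sum.inr (T.e (i + 2) w)) -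
      f (Sum.inr (T.e (i + 1) w)) else 0) =
      (if T.p i w = v then f (Sum.inr (T.e (i + 2) w)) else 0) -
      (if T.p i (T.pi i w) = v then f (Sum.inr (T.e (i + 2) (T.pi i w))) else 0) := by
    intro w
    rw [T.p_pi, T.pi_apply, Equiv.apply_symm_apply]
    split_ifs <;> simp
  rw [Finset.sum_congr rfl (fun w _ => e4 w), Finset.sum_sub_distrib,
    Equiv.sum_comp (T.pi i) (fun w => if T.p i w = v then f (Sum.inr (T.e (i + 2) w)) else 0),
    sub_self]

/-- boundary of a cochain on edges at a vertex, in the coloured form -/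
theorem inc_apply {F : Type*} [Field F] (g : ZMod 3 → W → F) (v : T.Vert) :
    ((inc F (fun d : W × ZMod 3 => T.p (d.2 - 1) d.1)
      (fun d : W × ZMod 3 => T.p (d.2 + 1) d.1)) *ᵥ (fun d => g d.2 d.1)) v =
    ∑ w : W, if T.p v.1 w = v then g (v.1 + 1) w - g (v.1 + 2) w else 0 := by
  rw [inc_mulVec, Fintype.sum_prod_type]
  refine Finset.sum_congr rfl (fun w _ => ?_)
  obtain ⟨i, hi⟩ : ∃ i, v.1 = i := ⟨_, rfl⟩
  have hne : ∀ j : ZMod 3, j ≠ i → ¬ T.p j w = v := by
    intro j hj h
    apply hj
    rw [← hi, ← h]; rfl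
  rw [hi]
  have e2 : ∀ k : ZMod 3, (if T.p (k - 1) w = v then g k w else 0) = if k = i + 1 then
      (if T.p i w = v then g (i + 1) w else 0) else 0 := by
    intro k
    by_cases hk : k = i + 1
    · subst hk; rw [if_pos rfl, add_sub_cancel_right]
    · rw [if_neg hk, if_neg]
      apply hne
      intro h; apply hk; rw [← h]; ring
  have e3 : ∀ k : ZMod 3, (if T.p (k + 1) w = v then g k w else 0) = if k = i + 2 then
      (if T.p i w = v then g (i + 2) w else 0) else 0 := by
    intro k
    have h3 : i + 2 + 1 = i := by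
      have : ∀ i : ZMod 3, i + 2 + 1 = i := by decide
      exact this i
    by_cases hk : k = i + 2
    · subst hk; rw [if_pos rfl, h3]
    · rw [if_neg hk, if_neg]
      apply hne
      intro h; apply hk; rw [← h]
      have : ∀ k : ZMod 3, k = k + 1 + 2 := by decide
      exact this k
  rw [Finset.sum_sub_distrib, Finset.sum_congr rfl (fun k _ => e2 k),
    Finset.sum_congr rfl (fun k _ => e3 k), Finset.sum_ite_eq', Finset.sum_ite_eq',
    if_pos (Finset.mem_univ _), if_pos (Finset.mem_univ _)]
  split_ifs <;> ring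

/-- DUAL EXACTNESS: a function on the edges with zero alternating sum at every vertex is the
difference of a function on the faces. -/
theorem dual_exact (hT : T.Conn) (hg : T.Genus0) {F : Type*} [Field F] (g : ZMod 3 → W → F)
    (hx : ∀ v : T.Vert, ∑ w : W, (if T.p v.1 w = v then g (v.1 + 1) w - g (v.1 + 2) w else 0) = 0) :
    ∃ h : W ⊕ B → F, ∀ k w, h (Sum.inl w) - h (Sum.inr (T.e k w)) = g k w := by
  have hcB := T.card_B
  have hcV := T.card_vert hg
  obtain ⟨h, hh⟩ := exists_primitive (F := F) (fun d : W × ZMod 3 => T.p (d.2 - 1) d.1)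
    (fun d : W × ZMod 3 => T.p (d.2 + 1) d.1)
    (fun d : W × ZMod 3 => (Sum.inl d.1 : W ⊕ B))
    (fun d : W × ZMod 3 => (Sum.inr (T.e d.2 d.1) : W ⊕ B))
    (fun h hh => T.conn_vert hT h (fun k w => hh (w, k)))
    (fun h hh => T.conn_face hT h (fun k w => hh (w, k)))
    (fun f => T.inc_delta f)
    (by rw [Fintype.card_prod, Fintype.card_sum, hcB, hcV, ZMod.card]; omega)
    (fun d => g d.2 d.1) (by
      funext v
      rw [T.inc_apply]
      exact hx v)
  exact ⟨h, fun k w => hh (w, k)⟩

/-- PRIMAL EXACTNESS: a function on the edges with zero sum at every white and black face is the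
difference of a function on the vertices. -/
theorem primal_exact (hT : T.Conn) (hg : T.Genus0) {F : Type*} [Field F] (g : ZMod 3 → W → F)
    (hw : ∀ w, ∑ k, g k w = 0) (hb : ∀ b, ∑ k, g k ((T.e k).symm b) = 0) :
    ∃ f : T.Vert → F, ∀ k w, f (T.p (k - 1) w) - f (T.p (k + 1) w) = g k w := by
  have hcB := T.card_B
  have hcV := T.card_vert hg
  obtain ⟨f, hf⟩ := exists_primitive (F := F)
    (fun d : W × ZMod 3 => (Sum.inl d.1 : W ⊕ B))
    (fun d : W × ZMod 3 => (Sum.inr (T.e d.2 d.1) : W ⊕ B))
    (fun d : W × ZMod 3 => T.p (d.2 - 1) d.1)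
    (fun d : W × ZMod 3 => T.p (d.2 + 1) d.1)
    (fun h hh => T.conn_face hT h (fun k w => hh (w, k)))
    (fun h hh => T.conn_vert hT h (fun k w => hh (w, k)))
    (fun f => zero_transpose _ _ _ _ (fun f => T.inc_delta f) f)
    (by rw [Fintype.card_prod, Fintype.card_sum, hcB, hcV, ZMod.card]; omega)
    (fun d => g d.2 d.1) (by
      funext x
      rw [inc_mulVec, Finset.sum_sub_distrib, Fintype.sum_prod_type, Fintype.sum_prod_type_right]
      rcases x with x | x
      · have e1 : ∑ w : W, ∑ k : ZMod 3, (if (Sum.inl w : W ⊕ B) = Sum.inl x then g k w else 0)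
            = 0 := by
          refine Finset.sum_eq_zero (fun w _ => ?_)
          by_cases h : w = x
          · subst h; simp only [if_true]; exact hw w
          · simp only [Sum.inl.injEq, if_neg h]; exact Finset.sum_const_zero
        have e2 : ∑ k : ZMod 3, ∑ w : W, (if (Sum.inr (T.e k w) : W ⊕ B) = Sum.inl x
            then g k w else 0) = 0 := by
          simp
        rw [e1, e2, sub_zero]; rfl
      · have e1 : ∑ w : W, ∑ k : ZMod 3, (if (Sum.inl w : W ⊕ B) = Sum.inr x then g k w else 0)
            = 0 := by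
          simp
        have e2 : ∑ k : ZMod 3, ∑ w : W, (if (Sum.inr (T.e k w) : W ⊕ B) = Sum.inr x
            then g k w else 0) = 0 := by
          refine Eq.trans (Finset.sum_congr rfl (fun k _ => ?_)) (hb x)
          have e3 := Equiv.sum_comp (T.e k).symm
            (fun w => if (Sum.inr (T.e k w) : W ⊕ B) = Sum.inr x then g k w else 0)
          rw [← e3]
          simp only [Equiv.apply_symm_apply, Sum.inr.injEq, Finset.sum_ite_eq', Finset.mem_univ,
            if_true]
        rw [e1, e2, sub_zero]; rfl)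
  exact ⟨f, fun k w => hf (w, k)⟩

end Tri

end Crest.Agent.R039
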