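import Crest.Agent.R039.Defs29
import Crest.Agent.R039.TriEx995

/-!
# Row 39: `Ham` gives a Hamiltonian cycle
-/

set_option autoImplicit false
set_option linter.unusedSectionVars false

namespace Crest.Agent.R039

namespace Tri

variable {W B : Type*} (T : Tri W B)

/-- the relation of the 2-factor -/
def Rel (m : W → ZMod 3) (w : W) (b : B) : Prop := ∃ c, c ≠ m w ∧ T.e c w = b

/-- the 2-factor as a graph -/
def H2 (m : W → ZMod 3) : SimpleGraph (W ⊕ B) where
  Adj x y := (∃ w b, T.Rel m w b ∧ x = Sum.inl w ∧ y = Sum.inr b) ∨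
    (∃ w b, T.Rel m w b ∧ x = Sum.inr b ∧ y = Sum.inl w)
  symm := ⟨by
    rintro x y (⟨w, b, h, rfl, rfl⟩ | ⟨w, b, h, rfl, rfl⟩)
    · exact Or.inr ⟨w, b, h, rfl, rfl⟩
    · exact Or.inl ⟨w, b, h, rfl, rfl⟩⟩
  loopless := ⟨by
    rintro x (⟨w, b, h, rfl, h2⟩ | ⟨w, b, h, rfl, h2⟩)
    · exact absurd h2 (by simp)
    · exact absurd h2 (by simp)⟩

theorem H2_adj_lr (m : W → ZMod 3) (w : W) (b : B) :
    (T.H2 m).Adj (Sum.inl w) (Sum.inr b) ↔ T.Rel m w b := by
  constructor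
  · rintro (⟨w', b', h, h1, h2⟩ | ⟨w', b', h, h1, h2⟩)
    · rw [Sum.inl.inj h1, Sum.inr.inj h2]; exact h
    · exact absurd h1 (by simp)
  · intro h; exact Or.inl ⟨w, b, h, rfl, rfl⟩

theorem H2_adj_l (m : W → ZMod 3) (w : W) (x : W ⊕ B) :
    (T.H2 m).Adj (Sum.inl w) x ↔ ∃ b, x = Sum.inr b ∧ T.Rel m w b := by
  constructor
  · rintro (⟨w', b', h, h1, h2⟩ | ⟨w', b', h, h1, h2⟩)
    · exact ⟨b', h2, by rw [Sum.inl.inj h1]; exact h⟩
    · exact absurd h1 (by simp)
  · rintro ⟨b, rfl, h⟩; exact Or.inl ⟨w, b, h, rfl, rfl⟩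

theorem H2_adj_r (m : W → ZMod 3) (b : B) (x : W ⊕ B) :
    (T.H2 m).Adj (Sum.inr b) x ↔ ∃ w, x = Sum.inl w ∧ T.Rel m w b := by
  constructor
  · rintro (⟨w', b', h, h1, h2⟩ | ⟨w', b', h, h1, h2⟩)
    · exact absurd h1 (by simp)
    · exact ⟨w', h2, by rw [Sum.inr.inj h1]; exact h⟩
  · rintro ⟨w, rfl, h⟩; exact Or.inr ⟨w, b, h, rfl, rfl⟩

theorem zc (k c : ZMod 3) : c = k ∨ c = k + 1 ∨ c = k + 2 := by revert k c; decide
theorem zc1 (k : ZMod 3) : k + 1 ≠ k := by revert k; decide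
theorem zc2 (k : ZMod 3) : k + 2 ≠ k := by revert k; decide

theorem e_ne (hpi : ∀ i w, T.pi i w ≠ w) (i : ZMod 3) (w : W) :
    T.e (i + 1) w ≠ T.e (i + 2) w := by
  intro h
  apply hpi i w
  rw [T.pi_apply, h, Equiv.symm_apply_apply]

theorem neighbor_l (m : W → ZMod 3) (w : W) :
    (T.H2 m).neighborSet (Sum.inl w) =
      {Sum.inr (T.e (m w + 1) w), Sum.inr (T.e (m w + 2) w)} := by
  ext x
  rw [SimpleGraph.mem_neighborSet, H2_adj_l]
  constructor
  · rintro ⟨b, rfl, c, hc, rfl⟩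
    rcases zc (m w) c with h | h | h
    · exact absurd h hc
    · rw [h]; simp
    · rw [h]; simp
  · rintro (h | h)
    · exact ⟨_, h, _, zc1 _, rfl⟩
    · exact ⟨_, h, _, zc2 _, rfl⟩

theorem neighbor_r {m : W → ZMod 3} (hm : Function.Bijective (fun w => T.e (m w) w)) (w : W) :
    (T.H2 m).neighborSet (Sum.inr (T.e (m w) w)) =
      {Sum.inl ((T.e (m w + 1)).symm (T.e (m w) w)),
        Sum.inl ((T.e (m w + 2)).symm (T.e (m w) w))} := by
  have key : ∀ k, k ≠ m w → k ≠ m ((T.e k).symm (T.e (m w) w)) := by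
    intro k hk h
    have h1 : T.e (m ((T.e k).symm (T.e (m w) w))) ((T.e k).symm (T.e (m w) w)) =
        T.e (m w) w := by
      rw [← h, Equiv.apply_symm_apply]
    have h2 := hm.1 h1
    rw [h2] at h
    exact hk h
  ext x
  rw [SimpleGraph.mem_neighborSet, H2_adj_r]
  constructor
  · rintro ⟨w', rfl, c, hc, h'⟩
    have hw' : w' = (T.e c).symm (T.e (m w) w) := by rw [← h', Equiv.symm_apply_apply]
    rcases zc (m w) c with h | h | h
    · exfalso
      rw [h, Equiv.symm_apply_apply] at hw'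
      rw [hw', h] at hc
      exact hc rfl
    · rw [hw', h]; simp
    · rw [hw', h]; simp
  · rintro (h | h)
    · exact ⟨_, h, _, key _ (zc1 _), Equiv.apply_symm_apply _ _⟩
    · exact ⟨_, h, _, key _ (zc2 _), Equiv.apply_symm_apply _ _⟩

theorem isCycles_H2 (hpi : ∀ i w, T.pi i w ≠ w) {m : W → ZMod 3}
    (hm : Function.Bijective (fun w => T.e (m w) w)) : (T.H2 m).IsCycles := by
  intro v _
  cases v with
  | inl w =>
    rw [neighbor_l]
    exact Set.ncard_pair (fun h => T.e_ne hpi _ _ (Sum.inr.inj h))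
  | inr b =>
    obtain ⟨w, rfl⟩ := hm.2 b
    show ((T.H2 m).neighborSet (Sum.inr (T.e (m w) w))).ncard = 2
    rw [T.neighbor_r hm]
    refine Set.ncard_pair (fun h => ?_)
    have h1 := Sum.inl.inj h
    have h2 : T.e (m w + 2) ((T.e (m w + 2)).symm (T.e (m w) w)) = T.e (m w) w :=
      Equiv.apply_symm_apply _ _
    rw [← h1] at h2
    have h3 : T.e (m w + 1) ((T.e (m w + 1)).symm (T.e (m w) w)) = T.e (m w) w :=
      Equiv.apply_symm_apply _ _
    exact T.e_ne hpi (m w) _ (h3.trans h2.symm)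

theorem conn_H2 {m : W → ZMod 3} (hm : T.Ham m) (w0 : W) (x : W ⊕ B) :
    (T.H2 m).Reachable (Sum.inl w0) x := by
  have h1 : ∀ w, (T.H2 m).Reachable (Sum.inl w0) (Sum.inl w) := by
    have hS := hm.2 {w | (T.H2 m).Reachable (Sum.inl w0) (Sum.inl w)}
      ⟨w0, SimpleGraph.Reachable.refl _⟩ (by
        intro w hw w' c c' hc hc' he
        have a1 : (T.H2 m).Adj (Sum.inl w) (Sum.inr (T.e c w)) :=
          (T.H2_adj_lr m w _).2 ⟨c, hc, rfl⟩
        have a2 : (T.H2 m).Adj (Sum.inl w') (Sum.inr (T.e c w)) :=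
          (T.H2_adj_lr m w' _).2 ⟨c', hc', he.symm⟩
        exact (SimpleGraph.Reachable.trans hw a1.reachable).trans a2.symm.reachable)
    intro w
    have : w ∈ (Set.univ : Set W) := trivial
    rw [← hS] at this
    exact this
  cases x with
  | inl w => exact h1 w
  | inr b =>
    obtain ⟨w, rfl⟩ := hm.1.2 b
    show (T.H2 m).Reachable (Sum.inl w0) (Sum.inr (T.e (m w) w))
    have h2 : (Sum.inl ((T.e (m w + 1)).symm (T.e (m w) w)) : W ⊕ B) ∈
        (T.H2 m).neighborSet (Sum.inr (T.e (m w) w)) := by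
      rw [T.neighbor_r hm.1]; simp
    have h3 : (T.H2 m).Adj (Sum.inr (T.e (m w) w))
      (Sum.inl ((T.e (m w + 1)).symm (T.e (m w) w))) := h2
    exact (h1 _).trans h3.symm.reachable

/-- a Hamiltonian cycle of the 2-factor graph -/
theorem exists_ham_cycle [Finite W] [Finite B] [DecidableEq W] [DecidableEq B]
    (hpi : ∀ i w, T.pi i w ≠ w) {m : W → ZMod 3}
    (hm : T.Ham m) (w0 : W) : ∃ p : (T.H2 m).Walk (Sum.inl w0) (Sum.inl w0),
      p.IsHamiltonianCycle := by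
  have hc := T.isCycles_H2 hpi hm.1
  obtain ⟨p, hp, hv⟩ := hc.exists_cycle_toSubgraph_verts_eq_connectedComponentSupp
    (v := Sum.inl w0) (c := (T.H2 m).connectedComponentMk (Sum.inl w0)) rfl (by
      rw [neighbor_l]; exact ⟨_, Or.inl rfl⟩)
  have hall : ∀ x, x ∈ p.support := by
    intro x
    rw [← SimpleGraph.Walk.mem_verts_toSubgraph, hv, SimpleGraph.ConnectedComponent.mem_supp_iff,
      SimpleGraph.ConnectedComponent.eq]
    exact (T.conn_H2 hm w0 x).symm
  refine ⟨p, ⟨hp, ?_⟩⟩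
  refine hp.isPath_tail.isHamiltonian_of_mem ?_
  intro x
  have hx := hall x
  rw [← SimpleGraph.Walk.cons_support_tail (SimpleGraph.Walk.IsCycle.not_nil hp), List.mem_cons] at hx
  rcases hx with rfl | hx
  · exact SimpleGraph.Walk.end_mem_support _
  · exact hx

/-- EXTRACTION from `Ham` -/
theorem isHamiltonian_of_ham [Fintype W] [Fintype B] [DecidableEq W] [DecidableEq B] [Nonempty W]
    {V : Type*} [Fintype V] [DecidableEq V] {G : SimpleGraph V} (f : W ⊕ B ≃ V)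
    (hG : ∀ c w, G.Adj (f (Sum.inl w)) (f (Sum.inr (T.e c w))))
    (hpi : ∀ i w, T.pi i w ≠ w) {m : W → ZMod 3} (hm : T.Ham m) : G.IsHamiltonian := by
  intro _
  obtain ⟨w0⟩ := ‹Nonempty W›
  obtain ⟨p, hp⟩ := T.exists_ham_cycle hpi hm w0
  let φ : T.H2 m →g G := ⟨f, by
    rintro x y (⟨w, b, ⟨c, _, rfl⟩, rfl, rfl⟩ | ⟨w, b, ⟨c, _, rfl⟩, rfl, rfl⟩)
    · exact hG c w
    · exact (hG c w).symm⟩
  exact ⟨_, p.map φ, hp.map (f := φ) f.bijective⟩

end Tri

/-- REDUCTION OF S0053 TO `Star` for simple genus-zero triangulations -/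
theorem isHamiltonian_of_star
    (hstar : ∀ (W B : Type) [Fintype W] [Fintype B] [DecidableEq W] [DecidableEq B] (T : Tri W B),
      T.Conn → T.Genus0 → T.Simple → Nontrivial W → T.Star) (V : Type)
    [Fintype V] [DecidableEq V] (G : SimpleGraph V) [DecidableRel G.Adj]
    (hcubic : G.IsRegularOfDegree 3) (hbip : G.Colorable 2)
    (hplanar : Crest.CombinatoricsR.PlanarMap.IsPlanarMap G)
    (hconn : Crest.CombinatoricsR.PlanarMap.IsThreeConnected G) :
    G.IsHamiltonian := by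
  classical
  obtain ⟨M⟩ := Map.exists_data G hcubic hbip hplanar
  have hnt := M.nontrivial_W hconn
  obtain ⟨w0⟩ : Nonempty M.W := inferInstance
  obtain ⟨m, hm, _⟩ := hstar M.W M.B M.tri M.tri_conn M.tri_genus0 (M.tri_simple hconn) hnt w0 0
  exact M.tri.isHamiltonian_of_ham M.vEquiv M.adj_e M.pi_ne hm

/-- S0053 from the four blocks -/
theorem isHamiltonian_of_blocks (h1 : BlockHall) (h2 : BlockSum) (h3 : BlockCrit)
    (h4 : BlockSum3) (V : Type)
    [Fintype V] [DecidableEq V] (G : SimpleGraph V) [DecidableRel G.Adj]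
    (hcubic : G.IsRegularOfDegree 3) (hbip : G.Colorable 2)
    (hplanar : Crest.CombinatoricsR.PlanarMap.IsPlanarMap G)
    (hconn : Crest.CombinatoricsR.PlanarMap.IsThreeConnected G) :
    G.IsHamiltonian := by
  refine isHamiltonian_of_star ?_ V G hcubic hbip hplanar hconn
  intro W B _ _ _ _ T hc hg hs hn
  exact star_of_blocks h1 h2 h3 h4 W B T hc hg hs hn

end Crest.Agent.R039
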