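import Crest.Agent.R039.TriEx995

/-!
# Row 39: Euler's inequality for connected `Tri`, and `Genus0` from dual exactness
-/

set_option autoImplicit false
set_option linter.unusedSectionVars false

namespace Crest.Agent.R039

open Crest.Agent.R039.Map
open scoped Matrix

namespace Rank300

section rank

variable {D X Y F : Type*} [Fintype D] [Fintype X] [Fintype Y] [DecidableEq X] [DecidableEq Y]
  [Field F]

/-- the rank of an incidence matrix is at most `|X| - 1` -/
theorem rank_inc_lt [Nonempty X] (s t : D → X) : (inc F s t).rank + 1 ≤ Fintype.card X := by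
  have h1 : (inc F s t)ᵀ.rank = (inc F s t).rank := Matrix.rank_transpose _
  have h2 := LinearMap.finrank_range_add_finrank_ker ((inc F s t)ᵀ.mulVecLin)
  rw [Module.finrank_fintype_fun_eq_card] at h2
  have h4 : (inc F s t)ᵀ.rank = Module.finrank F (LinearMap.range ((inc F s t)ᵀ.mulVecLin)) := rfl
  have h3 : 1 ≤ Module.finrank F (LinearMap.ker ((inc F s t)ᵀ.mulVecLin)) := by
    have hmem : (fun _ : X => (1 : F)) ∈ LinearMap.ker ((inc F s t)ᵀ.mulVecLin) := by
      rw [LinearMap.mem_ker, Matrix.mulVecLin_apply, inc_transpose_mulVec]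
      funext d; simp
    have hne : (⟨fun _ : X => (1 : F), hmem⟩ : LinearMap.ker ((inc F s t)ᵀ.mulVecLin)) ≠ 0 := by
      intro h
      have h' := congrArg Subtype.val h
      obtain ⟨x⟩ := (inferInstance : Nonempty X)
      have h'' := congrFun h' x
      exact one_ne_zero h''
    have : Nontrivial (LinearMap.ker ((inc F s t)ᵀ.mulVecLin)) := ⟨⟨_, _, hne⟩⟩
    exact Module.finrank_pos
  omega

/-- EULER'S INEQUALITY: `|X| + |Y| ≤ |D| + 2` -/
theorem euler_le (F : Type*) [Field F] (s t : D → X) (l r : D → Y)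
    (hX : ∀ h : X → F, (∀ d, h (s d) = h (t d)) → ∀ x y, h x = h y)
    (hY : ∀ h : Y → F, (∀ d, h (l d) = h (r d)) → ∀ x y, h x = h y)
    (hzero : ∀ f : Y → F, (inc F s t) *ᵥ (fun d => f (l d) - f (r d)) = 0) :
    Fintype.card X + Fintype.card Y ≤ Fintype.card D + 2 := by
  have r1 := card_le_rank_inc (F := F) s t hX
  have r2 := card_le_rank_inc (F := F) l r hY
  have h2 := LinearMap.finrank_range_add_finrank_ker ((inc F s t).mulVecLin)
  rw [Module.finrank_fintype_fun_eq_card] at h2
  have h3 : (inc F s t).rank = Module.finrank F (LinearMap.range ((inc F s t).mulVecLin)) := rfl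
  have h4 : (inc F l r)ᵀ.rank = (inc F l r).rank := Matrix.rank_transpose _
  have h5 : (inc F l r)ᵀ.rank = Module.finrank F (LinearMap.range ((inc F l r)ᵀ.mulVecLin)) := rfl
  have hle : LinearMap.range ((inc F l r)ᵀ.mulVecLin) ≤ LinearMap.ker ((inc F s t).mulVecLin) := by
    rintro _ ⟨f, rfl⟩
    rw [LinearMap.mem_ker, Matrix.mulVecLin_apply, Matrix.mulVecLin_apply, inc_transpose_mulVec]
    exact hzero f
  have h6 := Submodule.finrank_mono hle
  omega

/-- the other inequality from exactness -/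
theorem euler_ge (F : Type*) [Field F] [Nonempty X] [Nonempty Y] (s t : D → X) (l r : D → Y)
    (hex : ∀ g : D → F, (inc F s t) *ᵥ g = 0 → ∃ f : Y → F, ∀ d, f (l d) - f (r d) = g d) :
    Fintype.card D + 2 ≤ Fintype.card X + Fintype.card Y := by
  have r1 := rank_inc_lt (F := F) s t
  have r2 := rank_inc_lt (F := F) l r
  have h2 := LinearMap.finrank_range_add_finrank_ker ((inc F s t).mulVecLin)
  rw [Module.finrank_fintype_fun_eq_card] at h2
  have h3 : (inc F s t).rank = Module.finrank F (LinearMap.range ((inc F s t).mulVecLin)) := rfl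
  have h4 : (inc F l r)ᵀ.rank = (inc F l r).rank := Matrix.rank_transpose _
  have h5 : (inc F l r)ᵀ.rank = Module.finrank F (LinearMap.range ((inc F l r)ᵀ.mulVecLin)) := rfl
  have hle : LinearMap.ker ((inc F s t).mulVecLin) ≤ LinearMap.range ((inc F l r)ᵀ.mulVecLin) := by
    intro g hg
    rw [LinearMap.mem_ker, Matrix.mulVecLin_apply] at hg
    obtain ⟨f, hf⟩ := hex g hg
    refine ⟨f, ?_⟩
    rw [Matrix.mulVecLin_apply, inc_transpose_mulVec]
    exact funext hf
  have h6 := Submodule.finrank_mono hle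
  omega

end rank

end Rank300

namespace Tri

variable {W B : Type*} (T : Tri W B)
variable [Fintype W] [Fintype B] [DecidableEq W] [DecidableEq B]

open Rank300

/-- Euler's inequality: the genus is non-negative -/
theorem card_vert_le (hT : T.Conn) : Fintype.card T.Vert ≤ Fintype.card W + 2 := by
  have hcB := T.card_B
  have h := euler_le ℚ (fun d : W × ZMod 3 => T.p (d.2 - 1) d.1)
    (fun d : W × ZMod 3 => T.p (d.2 + 1) d.1)
    (fun d : W × ZMod 3 => (Sum.inl d.1 : W ⊕ B))
    (fun d : W × ZMod 3 => (Sum.inr (T.e d.2 d.1) : W ⊕ B))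
    (fun h hh => T.conn_vert hT h (fun k w => hh (w, k)))
    (fun h hh => T.conn_face hT h (fun k w => hh (w, k)))
    (fun f => T.inc_delta f)
  rw [Fintype.card_prod, Fintype.card_sum, hcB, ZMod.card] at h
  omega

/-- `Genus0` from the equality of numbers -/
theorem genus0_of_card (h : Fintype.card T.Vert = Fintype.card W + 2) : T.Genus0 := by
  show Nat.card T.Vert = Nat.card W + 2
  rw [Nat.card_eq_fintype_card, Nat.card_eq_fintype_card]; exact h

theorem genus0_of_ge (hT : T.Conn) (h : Fintype.card W + 2 ≤ Fintype.card T.Vert) : T.Genus0 :=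
  T.genus0_of_card (le_antisymm (T.card_vert_le hT) h)

/-- GENUS ZERO FROM DUAL EXACTNESS -/
theorem genus0_of_dualExact (hT : T.Conn) [Nonempty W]
    (hex : ∀ g : ZMod 3 → W → ℚ,
      (∀ v : T.Vert, ∑ w : W, (if T.p v.1 w = v then g (v.1 + 1) w - g (v.1 + 2) w else 0) = 0) →
      ∃ h : W ⊕ B → ℚ, ∀ k w, h (Sum.inl w) - h (Sum.inr (T.e k w)) = g k w) : T.Genus0 := by
  have hcB := T.card_B
  obtain ⟨w0⟩ := (inferInstance : Nonempty W)
  have : Nonempty T.Vert := ⟨T.p 0 w0⟩
  have : Nonempty (W ⊕ B) := ⟨Sum.inl w0⟩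
  have h := euler_ge ℚ (fun d : W × ZMod 3 => T.p (d.2 - 1) d.1)
    (fun d : W × ZMod 3 => T.p (d.2 + 1) d.1)
    (fun d : W × ZMod 3 => (Sum.inl d.1 : W ⊕ B))
    (fun d : W × ZMod 3 => (Sum.inr (T.e d.2 d.1) : W ⊕ B))
    (by
      intro g hg
      obtain ⟨f, hf⟩ := hex (fun k w => g (w, k)) (fun v => by
        rw [← T.inc_apply (fun k w => g (w, k)) v]
        exact congrFun hg v)
      exact ⟨f, fun d => hf d.2 d.1⟩)
  rw [Fintype.card_prod, Fintype.card_sum, hcB, ZMod.card] at h
  exact T.genus0_of_ge hT (by omega)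

/-- the same with the condition stated for pairs (colour, white face) -/
theorem genus0_of_dualExact' (hT : T.Conn) [Nonempty W]
    (hex : ∀ g : ZMod 3 → W → ℚ,
      (∀ i w0, ∑ w : W, (if T.p i w = T.p i w0 then g (i + 1) w - g (i + 2) w else 0) = 0) →
      ∃ h : W ⊕ B → ℚ, ∀ k w, h (Sum.inl w) - h (Sum.inr (T.e k w)) = g k w) : T.Genus0 := by
  refine T.genus0_of_dualExact hT (fun g hg => hex g (fun i w0 => ?_))
  exact hg (T.p i w0)

end Tri

end Crest.Agent.R039
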