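import Crest.Agent.R039.Hall995C

/-!
# Row 39, block B1 (Hall): `blockHall : BlockHall`
-/

set_option autoImplicit false
set_option linter.unusedSectionVars false

namespace Crest.Agent.R039

namespace Tri

variable {W B : Type*} [Fintype W] [Fintype B] [DecidableEq W] [DecidableEq B] {T : Tri W B}

/-- no vertex has a single white face -/
theorem pi_ne_of_cyc (hn : Nontrivial W) (hc : T.Cyc) (i : ZMod 3) (w : W) : T.pi i w ≠ w := by
  classical
  intro h
  have hb : T.e (i + 1) w = T.e (i + 2) w := by
    rw [T.pi_apply] at h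
    rw [← h, Equiv.apply_symm_apply, h]
  have key : ∀ k i : ZMod 3, k = i ∨ k = i + 1 ∨ k = i + 2 := by decide
  have hW : 2 ≤ Fintype.card W := Fintype.one_lt_card
  have hB : Fintype.card B = Fintype.card W := T.card_B
  let S : Finset (W ⊕ B) := {Sum.inl w, Sum.inr (T.e (i + 1) w)}
  have m1 : ∀ v : W, (Sum.inl v : W ⊕ B) ∈ S ↔ v = w := by
    intro v; simp [S]
  have m2 : ∀ b : B, (Sum.inr b : W ⊕ B) ∈ S ↔ b = T.e (i + 1) w := by
    intro b; simp [S]
  have hS : S.card = 2 := Finset.card_pair (by simp)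
  have hcut : (T.cutH S).card ≤ 3 := by
    have hsub : T.cutH S ⊆ {(i, w), (i, (T.e i).symm (T.e (i + 1) w))} := by
      rintro ⟨k, v⟩ hx
      rw [mem_cutH, m1, m2] at hx
      simp only at hx
      rw [Finset.mem_insert, Finset.mem_singleton]
      by_cases hv : v = w
      · subst hv
        left
        have hne : ¬ T.e k v = T.e (i + 1) v := fun h' => hx ⟨fun _ => h', fun _ => rfl⟩
        rcases key k i with rfl | rfl | rfl
        · rfl
        · exact (hne rfl).elim
        · exact (hne hb.symm).elim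
      · right
        have heq : T.e k v = T.e (i + 1) w := by
          by_contra h'
          exact hx ⟨fun h'' => (hv h'').elim, fun h'' => (h' h'').elim⟩
        rcases key k i with rfl | rfl | rfl
        · rw [← heq, Equiv.symm_apply_apply]
        · exact (hv ((T.e _).injective heq)).elim
        · rw [hb] at heq
          exact (hv ((T.e _).injective heq)).elim
    exact le_trans (Finset.card_le_card hsub) (le_trans Finset.card_le_two (by norm_num))
  rcases hc S hcut with h1 | h1
  · omega
  · rw [Finset.card_compl, hS, Fintype.card_sum, hB] at h1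
    omega

/-- THE ROOTED COVER in the form of `Defs29` -/
theorem exists_cover (hT : T.Conn) (hg : T.Genus0) (hs : T.Simple) (hn : Nontrivial W)
    (hc : T.Cyc) (w0 : W) : ∃ m, T.Cover w0 m := by
  classical
  obtain ⟨c, h1, h2⟩ := exists_parentH hT hg hs hc (pi_ne_of_cyc hn hc) w0
  refine ⟨c, ?_, ?_⟩
  · intro w hw i hi h
    exact hi (h1 w hw i h).symm
  · intro v hv
    have hv' : T.p v.1 w0 ≠ v := fun h => hv v.1 h.symm
    have h3 := h2 v hv'
    have h4 : {x : ZMod 3 × W | x.2 ≠ w0 ∧ x.1 ≠ c x.2 ∧ T.p x.1 x.2 = v} =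
        (((starH v).filter fun w => c w ≠ v.1).image (fun w => (v.1, w)) :
          Finset (ZMod 3 × W)) := by
      ext x
      rw [Set.mem_ofPred_eq, Finset.mem_coe, Finset.mem_image]
      constructor
      · rintro ⟨_, hx2, hx3⟩
        have hi : v.1 = x.1 := by rw [← hx3]; rfl
        refine ⟨x.2, ?_, ?_⟩
        · rw [Finset.mem_filter, mem_starH, hi]
          exact ⟨hx3, fun h => hx2 h.symm⟩
        · rw [hi]
      · rintro ⟨w, hw, rfl⟩
        rw [Finset.mem_filter, mem_starH] at hw
        refine ⟨?_, fun h => hw.2 h.symm, hw.1⟩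
        rintro rfl
        exact hv' hw.1
    rw [h4, Set.ncard_coe_finset, Finset.card_image_of_injective _ (fun a b h => (Prod.mk.inj h).2)]
    exact h3

/-- the same in the form used by `Pair563.exists_pair` -/
theorem exists_cover_pair (hT : T.Conn) (hg : T.Genus0) (hs : T.Simple) (hn : Nontrivial W)
    (hc : T.Cyc) (w0 : W) : ∃ pc : W → ZMod 3,
    (∀ v : T.Vert, (∀ i, T.p i w0 ≠ v) →
      (Finset.univ.filter fun w => w ≠ w0 ∧ T.p v.1 w = v ∧ pc w ≠ v.1).card = 2) ∧
    (∀ w, w ≠ w0 → ∀ i, i ≠ pc w → ∀ j, T.p j w0 ≠ T.p i w) := by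
  classical
  obtain ⟨c, h1, h2⟩ := exists_parentH hT hg hs hc (pi_ne_of_cyc hn hc) w0
  refine ⟨c, ?_, ?_⟩
  · intro v hv
    have hv' : T.p v.1 w0 ≠ v := hv v.1
    rw [← h2 v hv']
    congr 1
    ext w
    rw [Finset.mem_filter, Finset.mem_filter, mem_starH]
    constructor
    · rintro ⟨_, _, a, b⟩; exact ⟨a, b⟩
    · rintro ⟨a, b⟩
      refine ⟨Finset.mem_univ _, ?_, a, b⟩
      rintro rfl
      exact hv' a
  · intro w hw i hi j h
    have hij : j = i := by simpa using congrArg Sigma.fst h
    subst hij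
    exact hi (h1 w hw j h.symm).symm

end Tri

theorem blockHall : BlockHall := by
  intro W B _ _ _ _ T hT hg hs hn hc w0
  exact Tri.exists_cover hT hg hs hn hc w0

end Crest.Agent.R039
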