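import Crest.Agent.R039.TriEx995
import Crest.Agent.R039.Defs29

/-!
# Row 39, block B1 (Hall), part A: the counting inequality

For a set `X` of at least four vertices of a cyclically 4-connected triangulation
`e(X) + 4 ≤ 2 |X| + w(X)`.
-/

set_option autoImplicit false
set_option linter.unusedSectionVars false

namespace Crest.Agent.R039

open Crest.Agent.R039.Map
open scoped Matrix

namespace Tri

variable {W B : Type*} [Fintype W] [Fintype B] [DecidableEq W] [DecidableEq B] (T : Tri W B)

/-- the edges leaving a set of faces -/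
def cutH (S : Finset (W ⊕ B)) : Finset (ZMod 3 × W) :=
  Finset.univ.filter fun x => ¬ (Sum.inl x.2 ∈ S ↔ Sum.inr (T.e x.1 x.2) ∈ S)

theorem mem_cutH {S : Finset (W ⊕ B)} {x : ZMod 3 × W} :
    x ∈ T.cutH S ↔ ¬ (Sum.inl x.2 ∈ S ↔ Sum.inr (T.e x.1 x.2) ∈ S) := by
  simp [cutH]

/-- edges with both ends in `X` -/
noncomputable def EXH (X : Finset T.Vert) : Finset (ZMod 3 × W) :=
  Finset.univ.filter fun x => T.p (x.1 + 1) x.2 ∈ X ∧ T.p (x.1 + 2) x.2 ∈ X

/-- white faces with all vertices in `X` -/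
noncomputable def FWH (X : Finset T.Vert) : Finset W :=
  Finset.univ.filter fun w => ∀ i, T.p i w ∈ X

variable {T}

theorem mem_EXH {X : Finset T.Vert} {x : ZMod 3 × W} :
    x ∈ T.EXH X ↔ T.p (x.1 + 1) x.2 ∈ X ∧ T.p (x.1 + 2) x.2 ∈ X := by
  simp [EXH]

theorem mem_FWH {X : Finset T.Vert} {w : W} : w ∈ T.FWH X ↔ ∀ i, T.p i w ∈ X := by
  simp [FWH]

/-- crossing an edge which is not inside `X` -/
def relH (X : Finset T.Vert) (x y : W ⊕ B) : Prop :=
  ∃ k w, (k, w) ∉ T.EXH X ∧ x = Sum.inl w ∧ y = Sum.inr (T.e k w)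

/-- classes of faces -/
abbrev ClsH (X : Finset T.Vert) : Type _ := Quot (relH X)

noncomputable instance (X : Finset T.Vert) : Fintype (ClsH X) := Fintype.ofFinite _
noncomputable instance (X : Finset T.Vert) : DecidableEq (ClsH X) := Classical.decEq _

theorem cls_eqH {X : Finset T.Vert} {k : ZMod 3} {w : W} (h : (k, w) ∉ T.EXH X) :
    (Quot.mk _ (Sum.inl w) : ClsH X) = Quot.mk _ (Sum.inr (T.e k w)) :=
  Quot.sound ⟨k, w, h, rfl, rfl⟩

theorem sub_one_eqH (k : ZMod 3) : k - 1 = k + 2 := by
  revert k; decide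

/-- rank count: `e + 2 ≤ |X| + #classes` -/
theorem card_clsH (hT : T.Conn) (hg : T.Genus0) (X : Finset T.Vert) (hX : X.Nonempty)
    [Nonempty W] : (T.EXH X).card + 2 ≤ X.card + Fintype.card (ClsH X) := by
  classical
  let s : T.EXH X → X := fun d => ⟨T.p (d.1.1 + 2) d.1.2, (mem_EXH.1 d.2).2⟩
  let t : T.EXH X → X := fun d => ⟨T.p (d.1.1 + 1) d.1.2, (mem_EXH.1 d.2).1⟩
  let M := inc ℚ s t
  -- the rank of `M`
  have r1 : M.rank + 1 ≤ X.card := by
    have h2 := LinearMap.finrank_range_add_finrank_ker (Mᵀ.mulVecLin)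
    rw [Module.finrank_fintype_fun_eq_card, Fintype.card_coe] at h2
    have h3 : Mᵀ.rank = Module.finrank ℚ (LinearMap.range (Mᵀ.mulVecLin)) := rfl
    have h4 : Mᵀ.rank = M.rank := Matrix.rank_transpose _
    have h5 : 1 ≤ Module.finrank ℚ (LinearMap.ker (Mᵀ.mulVecLin)) := by
      rw [Submodule.one_le_finrank_iff]
      intro hbot
      have hone : (fun _ => 1 : X → ℚ) ∈ LinearMap.ker (Mᵀ.mulVecLin) := by
        rw [LinearMap.mem_ker, Matrix.mulVecLin_apply, inc_transpose_mulVec]
        funext d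
        simp
      rw [hbot, Submodule.mem_bot] at hone
      obtain ⟨x, hx⟩ := hX
      have := congrFun hone ⟨x, hx⟩
      simp at this
    omega
  have r2 := LinearMap.finrank_range_add_finrank_ker (M.mulVecLin)
  rw [Module.finrank_fintype_fun_eq_card, Fintype.card_coe] at r2
  have r3 : M.rank = Module.finrank ℚ (LinearMap.range (M.mulVecLin)) := rfl
  -- the coboundary on classes
  let δ : (ClsH X → ℚ) →ₗ[ℚ] (T.EXH X → ℚ) :=
    { toFun := fun h d => h (Quot.mk _ (Sum.inl d.1.2)) - h (Quot.mk _ (Sum.inr (T.e d.1.1 d.1.2)))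
      map_add' := by intro f g; funext d; simp only [Pi.add_apply]; ring
      map_smul' := by intro c f; funext d; simp only [Pi.smul_apply, smul_eq_mul, RingHom.id_apply]; ring }
  have d1 := LinearMap.finrank_range_add_finrank_ker δ
  rw [Module.finrank_fintype_fun_eq_card] at d1
  have d2 : 1 ≤ Module.finrank ℚ (LinearMap.ker δ) := by
    rw [Submodule.one_le_finrank_iff]
    intro hbot
    have hone : (fun _ => 1 : ClsH X → ℚ) ∈ LinearMap.ker δ := by
      rw [LinearMap.mem_ker]
      funext d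
      show (1 : ℚ) - 1 = 0
      ring
    rw [hbot, Submodule.mem_bot] at hone
    obtain ⟨w⟩ := ‹Nonempty W›
    have := congrFun hone (Quot.mk _ (Sum.inl w))
    simp at this
  have d3 : LinearMap.ker (M.mulVecLin) ≤ LinearMap.range δ := by
    intro g hg0
    rw [LinearMap.mem_ker, Matrix.mulVecLin_apply] at hg0
    let G : ZMod 3 → W → ℚ := fun k w => if h : (k, w) ∈ T.EXH X then g ⟨(k, w), h⟩ else 0
    obtain ⟨h, hh⟩ := T.dual_exact hT hg G (by
      intro v
      rw [← T.inc_apply G v, inc_mulVec]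
      by_cases hv : v ∈ X
      · have h0 := congrFun hg0 ⟨v, hv⟩
        rw [inc_mulVec] at h0
        have h1 : ∑ d : W × ZMod 3, ((if T.p (d.2 - 1) d.1 = v then G d.2 d.1 else 0) -
            (if T.p (d.2 + 1) d.1 = v then G d.2 d.1 else 0)) =
            ∑ x ∈ T.EXH X, ((if T.p (x.1 + 2) x.2 = v then G x.1 x.2 else 0) -
            (if T.p (x.1 + 1) x.2 = v then G x.1 x.2 else 0)) := by
          rw [← Equiv.sum_comp (Equiv.prodComm (ZMod 3) W)]
          simp only [Equiv.prodComm_apply, Prod.fst_swap, Prod.snd_swap, sub_one_eqH]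
          symm
          refine Finset.sum_subset (Finset.subset_univ _) (fun x _ hx => ?_)
          have : G x.1 x.2 = 0 := by
            show (if h : (x.1, x.2) ∈ T.EXH X then _ else _) = _
            rw [dif_neg hx]
          rw [this]; simp
        rw [h1, ← Finset.sum_coe_sort]
        refine Eq.trans (Finset.sum_congr rfl (fun d _ => ?_)) h0
        have e1 : G d.1.1 d.1.2 = g d := by
          show (if h : (d.1.1, d.1.2) ∈ T.EXH X then _ else _) = _
          rw [dif_pos d.2]
        rw [e1]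
        simp only [s, t, Subtype.mk.injEq]
      · refine Finset.sum_eq_zero (fun d _ => ?_)
        by_cases hd : (d.2, d.1) ∈ T.EXH X
        · have h1 := mem_EXH.1 hd
          have n1 : ¬ T.p (d.2 - 1) d.1 = v := by
            rw [sub_one_eqH]; intro h'; exact hv (h' ▸ h1.2)
          have n2 : ¬ T.p (d.2 + 1) d.1 = v := by
            intro h'; exact hv (h' ▸ h1.1)
          rw [if_neg n1, if_neg n2, sub_zero]
        · have : G d.2 d.1 = 0 := by
            show (if h : (d.2, d.1) ∈ T.EXH X then _ else _) = _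
            rw [dif_neg hd]
          rw [this]; simp)
    refine ⟨Quot.lift h ?_, ?_⟩
    · rintro _ _ ⟨k, w, hkw, rfl, rfl⟩
      have := hh k w
      have h0 : G k w = 0 := by
        show (if h : (k, w) ∈ T.EXH X then _ else _) = _
        rw [dif_neg hkw]
      rw [h0] at this
      exact sub_eq_zero.1 this
    · funext d
      show h (Sum.inl d.1.2) - h (Sum.inr (T.e d.1.1 d.1.2)) = g d
      rw [hh]
      show (if h : (d.1.1, d.1.2) ∈ T.EXH X then _ else _) = _
      rw [dif_pos d.2]
  have d4 := Submodule.finrank_mono d3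
  omega

end Tri

end Crest.Agent.R039
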