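import Crest.Agent.R039.Hall995A

/-!
# Row 39, block B1 (Hall), part B: the inequality `e(X) + 4 ≤ 2 |X| + w(X)` for `|X| ≥ 4`
-/

set_option autoImplicit false
set_option linter.unusedSectionVars false

namespace Crest.Agent.R039

namespace Tri

variable {W B : Type*} [Fintype W] [Fintype B] [DecidableEq W] [DecidableEq B] {T : Tri W B}

/-- edges inside `X` whose white face is in the class -/
noncomputable def lwH (X : Finset T.Vert) (κ : ClsH X) : Finset (ZMod 3 × W) :=
  (T.EXH X).filter fun x => (Quot.mk _ (Sum.inl x.2) : ClsH X) = κ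

/-- edges inside `X` whose black face is in the class -/
noncomputable def lbH (X : Finset T.Vert) (κ : ClsH X) : Finset (ZMod 3 × W) :=
  (T.EXH X).filter fun x => (Quot.mk _ (Sum.inr (T.e x.1 x.2)) : ClsH X) = κ

/-- full white faces in the class -/
noncomputable def fwH (X : Finset T.Vert) (κ : ClsH X) : Finset W :=
  (T.FWH X).filter fun w => (Quot.mk _ (Sum.inl w) : ClsH X) = κ

theorem card_fiber_whiteH (X : Finset T.Vert) (κ : ClsH X) :
    ((Finset.univ : Finset (ZMod 3 × W)).filter
      fun x => (Quot.mk _ (Sum.inl x.2) : ClsH X) = κ).card =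
    3 * ((Finset.univ : Finset W).filter fun w => (Quot.mk _ (Sum.inl w) : ClsH X) = κ).card := by
  have : ((Finset.univ : Finset (ZMod 3 × W)).filter
      fun x => (Quot.mk _ (Sum.inl x.2) : ClsH X) = κ) =
      (Finset.univ : Finset (ZMod 3)) ×ˢ
      ((Finset.univ : Finset W).filter fun w => (Quot.mk _ (Sum.inl w) : ClsH X) = κ) := by
    ext x; simp
  rw [this, Finset.card_product, Finset.card_univ, ZMod.card]

theorem card_fiber_blackH (X : Finset T.Vert) (κ : ClsH X) :
    ((Finset.univ : Finset (ZMod 3 × W)).filter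
      fun x => (Quot.mk _ (Sum.inr (T.e x.1 x.2)) : ClsH X) = κ).card =
    3 * ((Finset.univ : Finset B).filter fun b => (Quot.mk _ (Sum.inr b) : ClsH X) = κ).card := by
  have h1 : ((Finset.univ : Finset (ZMod 3 × B)).filter
      fun x => (Quot.mk _ (Sum.inr x.2) : ClsH X) = κ) =
      (Finset.univ : Finset (ZMod 3)) ×ˢ
      ((Finset.univ : Finset B).filter fun b => (Quot.mk _ (Sum.inr b) : ClsH X) = κ) := by
    ext x; simp
  have h2 : ((Finset.univ : Finset (ZMod 3 × W)).filter
      fun x => (Quot.mk _ (Sum.inr (T.e x.1 x.2)) : ClsH X) = κ).card =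
      ((Finset.univ : Finset (ZMod 3 × B)).filter
      fun x => (Quot.mk _ (Sum.inr x.2) : ClsH X) = κ).card := by
    refine Finset.card_bij (fun x _ => (x.1, T.e x.1 x.2)) ?_ ?_ ?_
    · intro x hx
      simpa using hx
    · rintro ⟨k, w⟩ _ ⟨k', w'⟩ _ h
      simp only [Prod.mk.injEq] at h
      obtain ⟨rfl, h⟩ := h
      rw [(T.e k).injective h]
    · rintro ⟨k, b⟩ hx
      refine ⟨(k, (T.e k).symm b), ?_, ?_⟩
      · simpa using hx
      · simp
  rw [h2, h1, Finset.card_product, Finset.card_univ, ZMod.card]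

/-- `lwH ≡ lbH` mod 3 -/
theorem exists_modH (X : Finset T.Vert) (κ : ClsH X) :
    ∃ a b c : ℕ, (lwH X κ).card + c = 3 * a ∧ (lbH X κ).card + c = 3 * b := by
  refine ⟨_, _, (((T.EXH X)ᶜ).filter fun x => (Quot.mk _ (Sum.inl x.2) : ClsH X) = κ).card,
    Eq.trans ?_ (card_fiber_whiteH X κ), Eq.trans ?_ (card_fiber_blackH X κ)⟩
  · rw [← Finset.card_union_of_disjoint]
    · congr 1
      ext x
      simp only [lwH, Finset.mem_union, Finset.mem_filter, Finset.mem_compl, Finset.mem_univ,
        true_and]
      tauto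
    · rw [Finset.disjoint_left]
      intro x hx hx'
      simp only [lwH, Finset.mem_filter, Finset.mem_compl] at hx hx'
      exact hx'.1 hx.1
  · have : (((T.EXH X)ᶜ).filter fun x => (Quot.mk _ (Sum.inl x.2) : ClsH X) = κ) =
        (((T.EXH X)ᶜ).filter fun x => (Quot.mk _ (Sum.inr (T.e x.1 x.2)) : ClsH X) = κ) := by
      refine Finset.filter_congr (fun x hx => ?_)
      rw [Finset.mem_compl] at hx
      rw [cls_eqH (k := x.1) (w := x.2) hx]
    rw [this, ← Finset.card_union_of_disjoint]
    · congr 1
      ext x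
      simp only [lbH, Finset.mem_union, Finset.mem_filter, Finset.mem_compl, Finset.mem_univ,
        true_and]
      tauto
    · rw [Finset.disjoint_left]
      intro x hx hx'
      simp only [lbH, Finset.mem_filter, Finset.mem_compl] at hx hx'
      exact hx'.1 hx.1

theorem card_zmod3_image_leH {A : Type*} (S : Finset A) (f : ZMod 3 → A)
    (hf : Function.Injective f) (h : ∀ k, f k ∈ S) : 3 ≤ S.card := by
  classical
  have h1 : (Finset.univ.image f).card = 3 := by
    rw [Finset.card_image_of_injective _ hf, Finset.card_univ, ZMod.card]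
  rw [← h1]
  refine Finset.card_le_card (fun x hx => ?_)
  rw [Finset.mem_image] at hx
  obtain ⟨k, _, rfl⟩ := hx
  exact h k

/-- LOCAL CLAIM -/
theorem six_leH (hc : T.Cyc) (X : Finset T.Vert) (he : 5 ≤ (T.EXH X).card) (κ : ClsH X) :
    6 ≤ (lwH X κ).card + 2 * (lbH X κ).card + 3 * (fwH X κ).card := by
  classical
  by_contra hlt
  push Not at hlt
  obtain ⟨a, b, c, ha, hb⟩ := exists_modH X κ
  have hle : (lwH X κ).card + (lbH X κ).card ≤ 3 := by omega
  have hlw : (lwH X κ).card ≤ 3 := by omega
  have hlb : (lbH X κ).card ≤ 1 := by omega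
  set S : Finset (W ⊕ B) := Finset.univ.filter fun f => (Quot.mk _ f : ClsH X) = κ with hS
  have memS : ∀ f, f ∈ S ↔ (Quot.mk _ f : ClsH X) = κ := by
    intro f; rw [hS]; simp
  have hcut : (T.cutH S).card ≤ 3 := by
    refine le_trans (Finset.card_le_card (t := lwH X κ ∪ lbH X κ) ?_)
      (le_trans (Finset.card_union_le _ _) hle)
    intro x hx
    rw [mem_cutH, memS, memS] at hx
    have hx1 : x ∈ T.EXH X := by
      by_contra hx1
      apply hx
      rw [cls_eqH (k := x.1) (w := x.2) hx1]
    simp only [lwH, lbH, Finset.mem_union, Finset.mem_filter]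
    tauto
  rcases hc S hcut with h1 | h1
  · -- the class is one face
    obtain ⟨f, hf⟩ := Quot.exists_rep κ
    have hfS : f ∈ S := (memS f).2 hf
    have huniq : ∀ g, g ∈ S → g = f := fun g hg =>
      (Finset.card_le_one.1 h1) g hg f hfS
    rcases f with w | b'
    · have hall : ∀ k, (k, w) ∈ T.EXH X := by
        intro k
        by_contra hk
        have h2 := cls_eqH hk
        rw [hf] at h2
        have h3 := huniq _ ((memS _).2 h2.symm)
        simp at h3
      have h3 : 3 ≤ (lwH X κ).card := by
        refine card_zmod3_image_leH _ (fun k => (k, w)) (fun k k' h => (Prod.mk.inj h).1) ?_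
        intro k
        rw [lwH, Finset.mem_filter]
        exact ⟨hall k, hf⟩
      have h4 : w ∈ fwH X κ := by
        rw [fwH, Finset.mem_filter, mem_FWH]
        refine ⟨fun i => ?_, hf⟩
        have := (mem_EXH.1 (hall (i + 2))).1
        have e3 : i + 2 + 1 = i := by
          have : ∀ i : ZMod 3, i + 2 + 1 = i := by decide
          exact this i
        simpa only [e3] using this
      have h5 : 1 ≤ (fwH X κ).card := Finset.card_pos.2 ⟨w, h4⟩
      omega
    · have hall : ∀ k, (k, (T.e k).symm b') ∈ T.EXH X := by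
        intro k
        by_contra hk
        have h2 := cls_eqH hk
        rw [Equiv.apply_symm_apply, hf] at h2
        have h3 := huniq _ ((memS _).2 h2)
        simp at h3
      have h3 : 3 ≤ (lbH X κ).card := by
        refine card_zmod3_image_leH _ (fun k => (k, (T.e k).symm b'))
          (fun k k' h => (Prod.mk.inj h).1) ?_
        intro k
        rw [lbH, Finset.mem_filter]
        refine ⟨hall k, ?_⟩
        rw [Equiv.apply_symm_apply]
        exact hf
      omega
  · -- the complement has at most one face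
    have e1 := Finset.card_filter_add_card_filter_not (s := T.EXH X)
      (fun x => (Quot.mk _ (Sum.inl x.2) : ClsH X) = κ)
    have e2 := Finset.card_filter_add_card_filter_not (s := T.EXH X)
      (fun x => (Quot.mk _ (Sum.inr (T.e x.1 x.2)) : ClsH X) = κ)
    have e3 : ((T.EXH X).filter fun x => (Quot.mk _ (Sum.inl x.2) : ClsH X) = κ) = lwH X κ := rfl
    have e4 : ((T.EXH X).filter fun x => (Quot.mk _ (Sum.inr (T.e x.1 x.2)) : ClsH X) = κ)
      = lbH X κ := rfl
    rw [e3] at e1
    rw [e4] at e2
    have p1 : 0 < ((T.EXH X).filter fun x => ¬ (Quot.mk _ (Sum.inl x.2) : ClsH X) = κ).card := by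
      omega
    have p2 : 0 < ((T.EXH X).filter
        fun x => ¬ (Quot.mk _ (Sum.inr (T.e x.1 x.2)) : ClsH X) = κ).card := by
      omega
    obtain ⟨x, hx⟩ := Finset.card_pos.1 p1
    obtain ⟨y, hy⟩ := Finset.card_pos.1 p2
    rw [Finset.mem_filter] at hx hy
    have m1 : (Sum.inl x.2 : W ⊕ B) ∈ Sᶜ := by
      rw [Finset.mem_compl, memS]; exact hx.2
    have m2 : (Sum.inr (T.e y.1 y.2) : W ⊕ B) ∈ Sᶜ := by
      rw [Finset.mem_compl, memS]; exact hy.2
    have := (Finset.card_le_one.1 h1) _ m1 _ m2
    simp at this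

/-- MAIN INEQUALITY -/
theorem main_ineqH (hT : T.Conn) (hg : T.Genus0) (hc : T.Cyc) (X : Finset T.Vert)
    (hX : 4 ≤ X.card) : (T.EXH X).card + 4 ≤ 2 * X.card + (T.FWH X).card := by
  classical
  by_cases he : (T.EXH X).card ≤ 4
  · omega
  push Not at he
  have hne : X.Nonempty := Finset.card_pos.1 (by omega)
  have hW : Nonempty W := by
    obtain ⟨x, _⟩ := Finset.card_pos.1 (lt_of_le_of_lt (Nat.zero_le _) he)
    exact ⟨x.2⟩
  have h1 := card_clsH hT hg X hne
  have s1 : ∑ κ : ClsH X, (lwH X κ).card = (T.EXH X).card :=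
    (Finset.card_eq_sum_card_fiberwise (f := fun x : ZMod 3 × W =>
      (Quot.mk _ (Sum.inl x.2) : ClsH X)) (fun x _ => Finset.mem_coe.2 (Finset.mem_univ _))).symm
  have s2 : ∑ κ : ClsH X, (lbH X κ).card = (T.EXH X).card :=
    (Finset.card_eq_sum_card_fiberwise (f := fun x : ZMod 3 × W =>
      (Quot.mk _ (Sum.inr (T.e x.1 x.2)) : ClsH X))
      (fun x _ => Finset.mem_coe.2 (Finset.mem_univ _))).symm
  have s3 : ∑ κ : ClsH X, (fwH X κ).card = (T.FWH X).card :=
    (Finset.card_eq_sum_card_fiberwise (f := fun w : W =>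
      (Quot.mk _ (Sum.inl w) : ClsH X)) (fun x _ => Finset.mem_coe.2 (Finset.mem_univ _))).symm
  have h2 : ∑ _κ : ClsH X, 6 ≤ ∑ κ : ClsH X,
      ((lwH X κ).card + 2 * (lbH X κ).card + 3 * (fwH X κ).card) :=
    Finset.sum_le_sum (fun κ _ => six_leH hc X he κ)
  rw [Finset.sum_const, Finset.card_univ, smul_eq_mul, Finset.sum_add_distrib,
    Finset.sum_add_distrib, ← Finset.mul_sum, ← Finset.mul_sum, s1, s2, s3] at h2
  omega

/-! ### small sets -/

theorem card_EX_leH (hs : T.Simple) (X : Finset T.Vert) :
    (T.EXH X).card ≤ X.card.choose 2 := by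
  classical
  rw [← Finset.card_powersetCard]
  refine Finset.card_le_card_of_injOn
    (fun x => ({T.p (x.1 + 1) x.2, T.p (x.1 + 2) x.2} : Finset T.Vert)) ?_ ?_
  · intro x hx
    rw [Finset.mem_coe, mem_EXH] at hx
    simp only [Finset.mem_coe, Finset.mem_powersetCard]
    constructor
    · intro y hy
      rw [Finset.mem_insert, Finset.mem_singleton] at hy
      rcases hy with rfl | rfl
      · exact hx.1
      · exact hx.2
    · rw [Finset.card_pair]
      intro h
      have := congrArg Sigma.fst h
      simp only [p_fst] at this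
      have h3 : ∀ k : ZMod 3, k + 1 ≠ k + 2 := by decide
      exact h3 _ this
  · rintro ⟨k, w⟩ _ ⟨k', w'⟩ _ h
    simp only at h
    have m1 : T.p (k + 1) w ∈ ({T.p (k' + 1) w', T.p (k' + 2) w'} : Finset T.Vert) := by
      rw [← h]; simp
    have m2 : T.p (k + 2) w ∈ ({T.p (k' + 1) w', T.p (k' + 2) w'} : Finset T.Vert) := by
      rw [← h]; simp
    rw [Finset.mem_insert, Finset.mem_singleton] at m1 m2
    have q0 : ∀ k k' : ZMod 3, k + 1 = k' + 1 → k = k' := by decide
    have q1 : ∀ k k' : ZMod 3, k + 1 = k' + 2 → k + 2 = k' + 1 → False := by decide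
    have q2 : ∀ k k' : ZMod 3, k + 1 = k' + 1 → k + 2 = k' + 1 → False := by decide
    have q3 : ∀ k k' : ZMod 3, k + 1 = k' + 2 → k + 2 = k' + 2 → False := by decide
    have q4 : ∀ k : ZMod 3, k + 1 ≠ k + 2 := by decide
    rcases m1 with m1 | m1 <;> rcases m2 with m2 | m2
    · exact (q2 k k' (by simpa using congrArg Sigma.fst m1)
        (by simpa using congrArg Sigma.fst m2)).elim
    · have hk : k = k' := q0 k k' (by simpa using congrArg Sigma.fst m1)
      subst hk
      rw [hs _ _ (q4 k) w w' m1 m2]
    · exact (q1 k k' (by simpa using congrArg Sigma.fst m1)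
        (by simpa using congrArg Sigma.fst m2)).elim
    · exact (q3 k k' (by simpa using congrArg Sigma.fst m1)
        (by simpa using congrArg Sigma.fst m2)).elim

/-- root vertices in `X` -/
noncomputable def rtH (X : Finset T.Vert) (w0 : W) : Finset (ZMod 3) :=
  Finset.univ.filter fun i => T.p i w0 ∈ X

theorem card_rt_leH (X : Finset T.Vert) (w0 : W) : (rtH X w0).card ≤ X.card := by
  refine Finset.card_le_card_of_injOn (fun i => T.p i w0) ?_ ?_
  · intro i hi
    simp only [rtH, Finset.coe_filter, Finset.mem_univ, true_and, Set.mem_ofPred_eq] at hi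
    exact hi
  · intro i _ j _ h
    have := congrArg Sigma.fst h
    simpa using this

theorem card_rt_le_threeH (X : Finset T.Vert) (w0 : W) : (rtH X w0).card ≤ 3 := by
  refine le_trans (Finset.card_le_univ _) ?_
  rw [ZMod.card]

/-- HALL INEQUALITY in the form of edge counts -/
theorem hall_ineqH (hT : T.Conn) (hg : T.Genus0) (hs : T.Simple) (hc : T.Cyc)
    (X : Finset T.Vert) (w0 : W) :
    (T.EXH X).card + (rtH X w0).card + (if (rtH X w0).Nonempty then 1 else 0)
      ≤ 2 * X.card + (T.FWH X).card := by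
  classical
  have h3 := card_rt_le_threeH X w0
  have hX := card_rt_leH X w0
  by_cases h4 : 4 ≤ X.card
  · have := main_ineqH hT hg hc X h4
    split_ifs <;> omega
  push Not at h4
  have he := card_EX_leH hs X
  by_cases hr : (rtH X w0).Nonempty
  · rw [if_pos hr]
    have hpos := Finset.card_pos.2 hr
    interval_cases hXc : X.card
    · omega
    · simp [Nat.choose] at he; rw [he, Finset.card_empty]; omega
    · have : Nat.choose 2 2 = 1 := rfl
      omega
    · have e0 : Nat.choose 3 2 = 3 := rfl
      by_cases h5 : (rtH X w0).card ≤ 2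
      · omega
      · have h6 : (rtH X w0).card = 3 := by omega
        have h7 : rtH X w0 = Finset.univ := by
          rw [← Finset.card_eq_iff_eq_univ, h6, ZMod.card]
        have h8 : w0 ∈ T.FWH X := by
          rw [mem_FWH]
          intro i
          have : i ∈ rtH X w0 := by rw [h7]; exact Finset.mem_univ _
          simpa [rtH] using this
        have h9 := Finset.card_pos.2 ⟨w0, h8⟩
        omega
  · rw [if_neg hr]
    have h0 : (rtH X w0).card = 0 := by
      rw [Finset.card_eq_zero]; exact Finset.not_nonempty_iff_eq_empty.1 hr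
    interval_cases hXc : X.card
    · simp [Nat.choose] at he; rw [he, Finset.card_empty]; omega
    · simp [Nat.choose] at he; rw [he, Finset.card_empty]; omega
    · have : Nat.choose 2 2 = 1 := rfl
      omega
    · have e0 : Nat.choose 3 2 = 3 := rfl
      omega

end Tri

end Crest.Agent.R039
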