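import Crest.Agent.R039.Hall995B

/-!
# Row 39, block B1 (Hall), part C: the rooted cover
-/

set_option autoImplicit false
set_option linter.unusedSectionVars false

namespace Crest.Agent.R039

namespace Tri

variable {W B : Type*} [Fintype W] [Fintype B] [DecidableEq W] [DecidableEq B] {T : Tri W B}

/-- the white faces at a vertex -/
noncomputable def starH (v : T.Vert) : Finset W :=
  Finset.univ.filter fun w => T.p v.1 w = v

theorem mem_starH {v : T.Vert} {w : W} : w ∈ starH v ↔ T.p v.1 w = v := by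
  simp [starH]

/-- demand of a vertex -/
noncomputable def demH (w0 : W) (v : T.Vert) : ℕ :=
  (starH v).card + (if T.p v.1 w0 = v then 1 else 0) - 2

theorem two_le_starH (hpi : ∀ i w, T.pi i w ≠ w) (v : T.Vert) : 2 ≤ (starH v).card := by
  obtain ⟨w, hw⟩ := T.exists_p v
  have h1 : w ∈ starH v := mem_starH.2 hw
  have h2 : T.pi v.1 w ∈ starH v := by
    rw [mem_starH, T.p_pi]; exact hw
  have : ({w, T.pi v.1 w} : Finset W).card = 2 := Finset.card_pair (hpi _ _).symm
  rw [← this]
  refine Finset.card_le_card (fun x hx => ?_)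
  rw [Finset.mem_insert, Finset.mem_singleton] at hx
  rcases hx with rfl | rfl
  · exact h1
  · exact h2

/-- white faces meeting `X` -/
noncomputable def meetH (X : Finset T.Vert) : Finset W :=
  Finset.univ.filter fun w => ∃ i, T.p i w ∈ X

theorem sum_starH (X : Finset T.Vert) :
    ∑ v ∈ X, (starH v).card = ∑ w : W, ((Finset.univ : Finset (ZMod 3)).filter
      fun i => T.p i w ∈ X).card := by
  classical
  have h1 : ∑ v ∈ X, (starH v).card = ((Finset.univ : Finset (ZMod 3 × W)).filter
      fun x => T.p x.1 x.2 ∈ X).card := by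
    rw [Finset.card_eq_sum_card_fiberwise (f := fun x : ZMod 3 × W => T.p x.1 x.2) (t := X)
      (fun x hx => by simpa using hx)]
    refine Finset.sum_congr rfl (fun v hv => ?_)
    refine Finset.card_bij (fun w _ => (v.1, w)) ?_ ?_ ?_
    · intro w hw
      rw [mem_starH] at hw
      simp only [Finset.mem_filter, Finset.mem_univ, true_and]
      rw [hw]
      exact ⟨hv, rfl⟩
    · intro w _ w' _ h
      exact (Prod.mk.inj h).2
    · rintro ⟨i, w⟩ hx
      simp only [Finset.mem_filter, Finset.mem_univ, true_and] at hx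
      have hi : v.1 = i := by rw [← hx.2]; rfl
      subst hi
      exact ⟨w, mem_starH.2 hx.2, rfl⟩
  have h2 : ∑ w : W, ((Finset.univ : Finset (ZMod 3)).filter fun i => T.p i w ∈ X).card =
      ((Finset.univ : Finset (ZMod 3 × W)).filter fun x => T.p x.1 x.2 ∈ X).card := by
    rw [Finset.card_eq_sum_card_fiberwise (f := fun x : ZMod 3 × W => x.2) (t := Finset.univ)
      (fun x _ => Finset.mem_coe.2 (Finset.mem_univ _))]
    refine Finset.sum_congr rfl (fun w _ => ?_)
    refine Finset.card_bij (fun i _ => (i, w)) ?_ ?_ ?_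
    · intro i hi
      simpa using hi
    · intro i _ j _ h
      exact (Prod.mk.inj h).1
    · rintro ⟨i, w'⟩ hx
      simp only [Finset.mem_filter, Finset.mem_univ, true_and] at hx
      obtain ⟨hx, rfl⟩ := hx
      exact ⟨i, by simpa using hx, rfl⟩
  rw [h1, h2]

/-- pointwise count at a white face -/
theorem count_auxH (P : ZMod 3 → Prop) [DecidablePred P] :
    ((Finset.univ : Finset (ZMod 3)).filter P).card + (if ∀ i, P i then 1 else 0) =
    (if ∃ i, P i then 1 else 0) +
      ((Finset.univ : Finset (ZMod 3)).filter fun k => P (k + 1) ∧ P (k + 2)).card := by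
  have hu : (Finset.univ : Finset (ZMod 3)) = {0, 1, 2} := by decide
  have e1 : (0 : ZMod 3) + 1 = 1 := by decide
  have e2 : (0 : ZMod 3) + 2 = 2 := by decide
  have e3 : (1 : ZMod 3) + 1 = 2 := by decide
  have e4 : (1 : ZMod 3) + 2 = 0 := by decide
  have e5 : (2 : ZMod 3) + 1 = 0 := by decide
  have e6 : (2 : ZMod 3) + 2 = 1 := by decide
  have hall : (∀ i, P i) ↔ P 0 ∧ P 1 ∧ P 2 := by
    constructor
    · intro h; exact ⟨h 0, h 1, h 2⟩
    · rintro ⟨h0, h1, h2⟩ i
      have : ∀ i : ZMod 3, i = 0 ∨ i = 1 ∨ i = 2 := by decide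
      rcases this i with rfl | rfl | rfl <;> assumption
  have hex : (∃ i, P i) ↔ P 0 ∨ P 1 ∨ P 2 := by
    constructor
    · rintro ⟨i, hi⟩
      have : ∀ i : ZMod 3, i = 0 ∨ i = 1 ∨ i = 2 := by decide
      rcases this i with rfl | rfl | rfl
      · exact Or.inl hi
      · exact Or.inr (Or.inl hi)
      · exact Or.inr (Or.inr hi)
    · rintro (h | h | h)
      exacts [⟨_, h⟩, ⟨_, h⟩, ⟨_, h⟩]
  have n1 : (0 : ZMod 3) ∉ ({1, 2} : Finset (ZMod 3)) := by decide
  have n2 : (1 : ZMod 3) ∉ ({2} : Finset (ZMod 3)) := by decide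
  simp only [hall, hex, Finset.card_filter, hu, Finset.sum_insert n1, Finset.sum_insert n2,
    Finset.sum_singleton, e1, e2, e3, e4, e5, e6]
  by_cases h0 : P 0 <;> by_cases h1 : P 1 <;> by_cases h2 : P 2 <;> simp [h0, h1, h2]

theorem sum_star_eqH (X : Finset T.Vert) :
    ∑ v ∈ X, (starH v).card + (T.FWH X).card = (meetH X).card + (T.EXH X).card := by
  classical
  rw [sum_starH]
  have h1 : (T.FWH X).card = ∑ w : W, (if ∀ i, T.p i w ∈ X then 1 else 0) := by
    rw [FWH, Finset.card_filter]
  have h2 : (meetH X).card = ∑ w : W, (if ∃ i, T.p i w ∈ X then 1 else 0) := by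
    rw [meetH, Finset.card_filter]
  have h3 : (T.EXH X).card = ∑ w : W, ((Finset.univ : Finset (ZMod 3)).filter
      fun k => T.p (k + 1) w ∈ X ∧ T.p (k + 2) w ∈ X).card := by
    rw [Finset.card_eq_sum_card_fiberwise (f := fun x : ZMod 3 × W => x.2) (t := Finset.univ)
      (fun x _ => Finset.mem_coe.2 (Finset.mem_univ _))]
    refine Finset.sum_congr rfl (fun w _ => ?_)
    symm
    refine Finset.card_bij (fun i _ => (i, w)) ?_ ?_ ?_
    · intro i hi
      rw [Finset.mem_filter] at hi
      rw [Finset.mem_filter, mem_EXH]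
      exact ⟨hi.2, rfl⟩
    · intro i _ j _ h
      exact (Prod.mk.inj h).1
    · rintro ⟨i, w'⟩ hx
      rw [Finset.mem_filter, mem_EXH] at hx
      obtain ⟨hx, rfl⟩ := hx
      exact ⟨i, by rw [Finset.mem_filter]; exact ⟨Finset.mem_univ _, hx⟩, rfl⟩
  rw [h1, h2, h3, ← Finset.sum_add_distrib, ← Finset.sum_add_distrib]
  exact Finset.sum_congr rfl (fun w _ => count_auxH (fun i => T.p i w ∈ X))

theorem sum_demH (hpi : ∀ i w, T.pi i w ≠ w) (w0 : W) (X : Finset T.Vert) :
    ∑ v ∈ X, demH w0 v + 2 * X.card = ∑ v ∈ X, (starH v).card + (rtH X w0).card := by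
  classical
  have h1 : (rtH X w0).card = ∑ v ∈ X, (if T.p v.1 w0 = v then 1 else 0) := by
    rw [← Finset.card_filter]
    refine Finset.card_bij (fun i _ => T.p i w0) ?_ ?_ ?_
    · intro i hi
      simp only [rtH, Finset.mem_filter, Finset.mem_univ, true_and] at hi
      rw [Finset.mem_filter]
      exact ⟨hi, rfl⟩
    · intro i _ j _ h
      have := congrArg Sigma.fst h
      simpa using this
    · intro v hv
      rw [Finset.mem_filter] at hv
      refine ⟨v.1, ?_, hv.2⟩
      simp only [rtH, Finset.mem_filter, Finset.mem_univ, true_and]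
      rw [hv.2]; exact hv.1
  have h2 : 2 * X.card = ∑ v ∈ X, 2 := by rw [Finset.sum_const, smul_eq_mul, mul_comm]
  rw [h1, h2, ← Finset.sum_add_distrib, ← Finset.sum_add_distrib]
  refine Finset.sum_congr rfl (fun v _ => ?_)
  have := two_le_starH hpi v
  rw [demH]
  omega

/-- Hall's condition -/
theorem hall_condH (hT : T.Conn) (hg : T.Genus0) (hs : T.Simple) (hc : T.Cyc)
    (hpi : ∀ i w, T.pi i w ≠ w) (w0 : W) (X : Finset T.Vert) :
    ∑ v ∈ X, demH w0 v ≤ ((meetH X).erase w0).card := by
  classical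
  have h1 := hall_ineqH hT hg hs hc X w0
  have h2 := sum_star_eqH X
  have h3 := sum_demH hpi w0 X
  have h4 : w0 ∈ meetH X ↔ (rtH X w0).Nonempty := by
    constructor
    · intro h
      rw [meetH, Finset.mem_filter] at h
      obtain ⟨i, hi⟩ := h.2
      exact ⟨i, by rw [rtH, Finset.mem_filter]; exact ⟨Finset.mem_univ _, hi⟩⟩
    · rintro ⟨i, hi⟩
      rw [rtH, Finset.mem_filter] at hi
      rw [meetH, Finset.mem_filter]
      exact ⟨Finset.mem_univ _, i, hi.2⟩
  by_cases hr : (rtH X w0).Nonempty
  · rw [if_pos hr] at h1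
    rw [Finset.card_erase_of_mem (h4.2 hr)]
    omega
  · rw [if_neg hr] at h1
    rw [Finset.erase_eq_of_notMem (fun h => hr (h4.1 h))]
    omega

theorem sum_dem_univH (hg : T.Genus0) (hpi : ∀ i w, T.pi i w ≠ w) (w0 : W) :
    ∑ v : T.Vert, demH w0 v + 1 = Fintype.card W := by
  classical
  have h1 := sum_star_eqH (Finset.univ : Finset T.Vert)
  have h2 := sum_demH hpi w0 (Finset.univ : Finset T.Vert)
  have h3 : (rtH (Finset.univ : Finset T.Vert) w0).card = 3 := by
    rw [rtH]; simp
  have h4 : (T.FWH Finset.univ).card = Fintype.card W := by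
    rw [FWH]; simp
  have h5 : (meetH (Finset.univ : Finset T.Vert)).card = Fintype.card W := by
    rw [meetH]; simp
  have h6 : (T.EXH Finset.univ).card = 3 * Fintype.card W := by
    rw [EXH]; simp
  have h7 := T.card_vert hg
  rw [Finset.card_univ] at h2
  omega

/-- THE ROOTED COVER, parent form: every white face `w ≠ w0` has a parent vertex `p (c w) w`,
root vertices are parents of all their faces, a vertex off the root is a non-parent in exactly two
of its faces -/
theorem exists_parentH (hT : T.Conn) (hg : T.Genus0) (hs : T.Simple) (hc : T.Cyc)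
    (hpi : ∀ i w, T.pi i w ≠ w) (w0 : W) :
    ∃ c : W → ZMod 3, (∀ w, w ≠ w0 → ∀ i, T.p i w = T.p i w0 → c w = i) ∧
      ∀ v : T.Vert, T.p v.1 w0 ≠ v →
        ((starH v).filter fun w => c w ≠ v.1).card = 2 := by
  classical
  let t : (Σ v : T.Vert, Fin (demH w0 v)) → Finset W := fun x => (starH x.1).erase w0
  have hall : ∀ s : Finset (Σ v : T.Vert, Fin (demH w0 v)), s.card ≤ (s.biUnion t).card := by
    intro s
    let X : Finset T.Vert := s.image Sigma.fst
    have h1 : s.card ≤ ∑ v ∈ X, demH w0 v := by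
      have h2 : s ⊆ X.sigma (fun v => (Finset.univ : Finset (Fin (demH w0 v)))) := by
        intro x hx
        rw [Finset.mem_sigma]
        exact ⟨Finset.mem_image_of_mem _ hx, Finset.mem_univ _⟩
      refine le_trans (Finset.card_le_card h2) ?_
      rw [Finset.card_sigma]
      simp
    refine le_trans h1 (le_trans (hall_condH hT hg hs hc hpi w0 X) (Finset.card_le_card ?_))
    intro w hw
    rw [Finset.mem_erase, meetH, Finset.mem_filter] at hw
    obtain ⟨hw0, _, i, hi⟩ := hw
    rw [Finset.mem_image] at hi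
    obtain ⟨x, hx, hxi⟩ := hi
    rw [Finset.mem_biUnion]
    refine ⟨x, hx, ?_⟩
    rw [Finset.mem_erase, mem_starH, hxi]
    exact ⟨hw0, rfl⟩
  obtain ⟨f, hf, hft⟩ := (Finset.all_card_le_biUnion_card_iff_exists_injective t).1 hall
  have hne : ∀ x, f x ≠ w0 := fun x => (Finset.mem_erase.1 (hft x)).1
  have hst : ∀ x, T.p x.1.1 (f x) = x.1 := fun x => mem_starH.1 (Finset.mem_erase.1 (hft x)).2
  have hsurj : ∀ w, w ≠ w0 → ∃ x, f x = w := by
    have h1 : (Finset.univ.image f) = Finset.univ.erase w0 := by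
      refine Finset.eq_of_subset_of_card_le ?_ ?_
      · intro w hw
        rw [Finset.mem_image] at hw
        obtain ⟨x, _, rfl⟩ := hw
        rw [Finset.mem_erase]
        exact ⟨hne x, Finset.mem_univ _⟩
      · rw [Finset.card_image_of_injective _ hf, Finset.card_erase_of_mem (Finset.mem_univ _),
          Finset.card_univ, Finset.card_univ, Fintype.card_sigma]
        simp only [Fintype.card_fin]
        have := sum_dem_univH hg hpi w0
        omega
    intro w hw
    have : w ∈ Finset.univ.image f := by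
      rw [h1, Finset.mem_erase]; exact ⟨hw, Finset.mem_univ _⟩
    rw [Finset.mem_image] at this
    obtain ⟨x, _, hx⟩ := this
    exact ⟨x, hx⟩
  have hN : Nonempty (Σ v : T.Vert, Fin (demH w0 v)) := by
    obtain ⟨x, _⟩ := hsurj (T.pi 0 w0) (hpi 0 w0)
    exact ⟨x⟩
  choose! g hgf using hsurj
  have hgfx : ∀ x, g (f x) = x := fun x => hf (hgf _ (hne x))
  -- number of faces with parent `v`
  have hcount : ∀ v : T.Vert, (((starH v).erase w0).filter fun w => (g w).1.1 = v.1).card =
      demH w0 v := by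
    intro v
    rw [← Fintype.card_fin (demH w0 v), ← Finset.card_univ]
    symm
    refine Finset.card_bij (fun j _ => f ⟨v, j⟩) ?_ ?_ ?_
    · intro j _
      rw [Finset.mem_filter, hgfx]
      exact ⟨hft ⟨v, j⟩, rfl⟩
    · intro j _ j' _ h
      have := hf h
      rw [Sigma.mk.injEq] at this
      exact eq_of_heq this.2
    · intro w hw
      rw [Finset.mem_filter, Finset.mem_erase, mem_starH] at hw
      obtain ⟨⟨hw0, hwv⟩, hcol⟩ := hw
      have h1 := hst (g w)
      rw [hgf w hw0, hcol, hwv] at h1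
      obtain ⟨⟨v', j⟩, hx⟩ : ∃ x, g w = x := ⟨_, rfl⟩
      rw [hx] at h1
      simp only at h1
      subst h1
      refine ⟨j, Finset.mem_univ _, ?_⟩
      rw [← hx, hgf w hw0]
  refine ⟨fun w => (g w).1.1, ?_, ?_⟩
  · intro w hw i hi
    have h1 := hcount (T.p i w0)
    have h2 : demH w0 (T.p i w0) + 1 = (starH (T.p i w0)).card := by
      rw [demH, if_pos (by rfl)]
      have := two_le_starH hpi (T.p i w0)
      omega
    have h3 : ((starH (T.p i w0)).erase w0).card + 1 = (starH (T.p i w0)).card :=
      Finset.card_erase_add_one (mem_starH.2 rfl)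
    have h4 : (((starH (T.p i w0)).erase w0).filter fun w => (g w).1.1 = (T.p i w0).1) =
        (starH (T.p i w0)).erase w0 :=
      Finset.eq_of_subset_of_card_le (Finset.filter_subset _ _) (by omega)
    have h5 : w ∈ (starH (T.p i w0)).erase w0 := by
      rw [Finset.mem_erase, mem_starH]
      exact ⟨hw, hi⟩
    rw [← h4, Finset.mem_filter] at h5
    exact h5.2
  · intro v hv
    have h1 := hcount v
    have h0 : w0 ∉ starH v := fun h => hv (mem_starH.1 h)
    rw [Finset.erase_eq_of_notMem h0] at h1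
    have h2 := Finset.card_filter_add_card_filter_not (s := starH v) (fun w => (g w).1.1 = v.1)
    have h3 := two_le_starH hpi v
    rw [h1, demH, if_neg hv] at h2
    show ((starH v).filter fun w => ¬ (g w).1.1 = v.1).card = 2
    omega

end Tri

end Crest.Agent.R039
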