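import Mathlib

/-!
# Row 39: exactness of the cellular complex of a connected genus-zero map (pure rank count)
-/

set_option autoImplicit false

namespace Crest.Agent.R039.Map

open Matrix

section exact

variable {D X Y F : Type*} [Fintype D] [Fintype X] [Fintype Y] [DecidableEq X] [DecidableEq Y]
  [Field F]

/-- the signed incidence matrix of two maps -/
def inc (F : Type*) [Field F] (s t : D → X) : Matrix X D F := fun x d =>
  (if s d = x then 1 else 0) - (if t d = x then 1 else 0)

omit [Fintype D] in
theorem inc_transpose_mulVec (s t : D → X) (h : X → F) :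
    (inc F s t)ᵀ *ᵥ h = fun d => h (s d) - h (t d) := by
  funext d
  show ∑ x, ((if s d = x then (1 : F) else 0) - (if t d = x then 1 else 0)) * h x = _
  simp only [sub_mul, ite_mul, one_mul, zero_mul, Finset.sum_sub_distrib, Finset.sum_ite_eq,
    Finset.mem_univ, if_true]

omit [Fintype X] in
theorem inc_mulVec (s t : D → X) (g : D → F) (x : X) :
    ((inc F s t) *ᵥ g) x = ∑ d, ((if s d = x then g d else 0) - (if t d = x then g d else 0)) := by
  show ∑ d, ((if s d = x then (1 : F) else 0) - (if t d = x then 1 else 0)) * g d = _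
  refine Finset.sum_congr rfl (fun d _ => ?_)
  simp only [sub_mul, ite_mul, one_mul, zero_mul]

/-- connectedness gives rank at least `|X| - 1` -/
theorem card_le_rank_inc (s t : D → X)
    (hconn : ∀ h : X → F, (∀ d, h (s d) = h (t d)) → ∀ x y, h x = h y) :
    Fintype.card X ≤ (inc F s t).rank + 1 := by
  have h1 : (inc F s t)ᵀ.rank = (inc F s t).rank := Matrix.rank_transpose _
  have h2 := LinearMap.finrank_range_add_finrank_ker ((inc F s t)ᵀ.mulVecLin)
  rw [Module.finrank_fintype_fun_eq_card] at h2
  have h3 : Module.finrank F (LinearMap.ker ((inc F s t)ᵀ.mulVecLin)) ≤ 1 := by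
    have hle : LinearMap.ker ((inc F s t)ᵀ.mulVecLin) ≤ Submodule.span F {fun _ : X => (1 : F)} := by
      intro h hh
      rw [LinearMap.mem_ker, Matrix.mulVecLin_apply, inc_transpose_mulVec] at hh
      have hc := hconn h (fun d => sub_eq_zero.1 (congrFun hh d))
      rw [Submodule.mem_span_singleton]
      rcases isEmpty_or_nonempty X with hX | ⟨⟨x0⟩⟩
      · exact ⟨0, by funext x; exact hX.elim x⟩
      · refine ⟨h x0, ?_⟩
        funext x
        simp [hc x x0]
    refine (Submodule.finrank_mono hle).trans ((finrank_span_le_card _).trans ?_)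
    rw [Set.toFinset_card, Set.card_singleton]
  have h4 : (inc F s t)ᵀ.rank = Module.finrank F (LinearMap.range ((inc F s t)ᵀ.mulVecLin)) := rfl
  omega

/-- EXACTNESS: if the composition vanishes and Euler's inequality holds, every cocycle is a
coboundary -/
theorem exists_primitive (s t : D → X) (l r : D → Y)
    (hX : ∀ h : X → F, (∀ d, h (s d) = h (t d)) → ∀ x y, h x = h y)
    (hY : ∀ h : Y → F, (∀ d, h (l d) = h (r d)) → ∀ x y, h x = h y)
    (hzero : ∀ f : Y → F, (inc F s t) *ᵥ (fun d => f (l d) - f (r d)) = 0)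
    (hE : Fintype.card D + 2 ≤ Fintype.card X + Fintype.card Y)
    (g : D → F) (hg : (inc F s t) *ᵥ g = 0) : ∃ f : Y → F, ∀ d, f (l d) - f (r d) = g d := by
  have r1 := card_le_rank_inc (F := F) s t hX
  have r2 := card_le_rank_inc (F := F) l r hY
  have h2 := LinearMap.finrank_range_add_finrank_ker ((inc F s t).mulVecLin)
  rw [Module.finrank_fintype_fun_eq_card] at h2
  have h3 : (inc F s t).rank = Module.finrank F (LinearMap.range ((inc F s t).mulVecLin)) := rfl
  have h4 : (inc F l r)ᵀ.rank = (inc F l r).rank := Matrix.rank_transpose _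
  have h5 : (inc F l r)ᵀ.rank = Module.finrank F (LinearMap.range ((inc F l r)ᵀ.mulVecLin)) := rfl
  have hle : LinearMap.range ((inc F l r)ᵀ.mulVecLin) ≤ LinearMap.ker ((inc F s t).mulVecLin) := by
    rintro _ ⟨f, rfl⟩
    rw [LinearMap.mem_ker, Matrix.mulVecLin_apply, Matrix.mulVecLin_apply, inc_transpose_mulVec]
    exact hzero f
  have heq : LinearMap.range ((inc F l r)ᵀ.mulVecLin) = LinearMap.ker ((inc F s t).mulVecLin) := by
    refine Submodule.eq_of_le_of_finrank_le hle ?_
    omega
  have hmem : g ∈ LinearMap.ker ((inc F s t).mulVecLin) := by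
    rw [LinearMap.mem_ker, Matrix.mulVecLin_apply]; exact hg
  rw [← heq] at hmem
  obtain ⟨f, hf⟩ := hmem
  rw [Matrix.mulVecLin_apply, inc_transpose_mulVec] at hf
  exact ⟨f, fun d => congrFun hf d⟩

end exact

end Crest.Agent.R039.Map
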