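import Crest.Agent.R039.Map834A
import Crest.Prelude.Def_PlanarMap

/-!
# Row 39: the face 3-colouring of a cubic bipartite graph with a genus-zero rotation system
-/

set_option autoImplicit false

namespace Crest.Agent.R039.Map

open Crest.CombinatoricsR.PlanarMap SimpleGraph
open scoped Matrix

section faces

variable {V : Type*} {G : SimpleGraph V}

/-- the face permutation "reverse, then rotate" -/
def phi (R : RotationSystem G) : Equiv.Perm G.Dart := (dartSwap G).trans R.rot

/-- the faces -/
abbrev Face (R : RotationSystem G) : Type _ := Quotient (Equiv.Perm.SameCycle.setoid (phi R))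

/-- the face at the left of a dart -/
def face (R : RotationSystem G) (d : G.Dart) : Face R := Quotient.mk _ d

variable (R : RotationSystem G)

theorem phi_apply (d : G.Dart) : phi R d = R.rot d.symm := rfl

theorem face_eq_iff {d d' : G.Dart} : face R d = face R d' ↔ (phi R).SameCycle d d' := by
  unfold face
  rw [Quotient.eq]
  rfl

theorem face_phi (d : G.Dart) : face R (phi R d) = face R d := by
  rw [face_eq_iff]
  exact Equiv.Perm.sameCycle_apply_left.2 (Equiv.Perm.SameCycle.refl _ _)

theorem face_rot (d : G.Dart) : face R (R.rot d) = face R d.symm := by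
  have h := face_phi R d.symm
  rwa [phi_apply, Dart.symm_symm] at h

theorem face_surj (q : Face R) : ∃ d, face R d = q := Quotient.exists_rep q

/-- a function on darts that is invariant under `rot` is constant on the darts at a vertex -/
theorem rot_invariant {A : Type*} (g : G.Dart → A) (hg : ∀ d, g (R.rot d) = g d) {d d' : G.Dart}
    (h : d.fst = d'.fst) : g d = g d' := by
  obtain ⟨i, hi⟩ := R.rot_sameCycle d d' h
  have key : ∀ n : ℤ, ∀ d, g ((R.rot ^ n) d) = g d := by
    intro n
    induction n with
    | zero => intro d; rfl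
    | succ n ih =>
      intro d
      have : (R.rot ^ ((n : ℤ) + 1)) d = (R.rot ^ (n : ℤ)) (R.rot d) := by
        rw [zpow_add, zpow_one, Equiv.Perm.mul_apply]
      rw [this, ih, hg]
    | pred n ih =>
      intro d
      have : (R.rot ^ (-(n : ℤ) - 1)) d = (R.rot ^ (-(n : ℤ))) (R.rot⁻¹ d) := by
        rw [sub_eq_add_neg, zpow_add, zpow_neg_one, Equiv.Perm.mul_apply]
      rw [this, ih, ← hg (R.rot⁻¹ d)]
      show g (R.rot (R.rot.symm d)) = g d
      rw [Equiv.apply_symm_apply]
  rw [← hi, key]

/-- dual connectedness -/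
theorem face_connected {A : Type*} (hc : G.Connected) (h : Face R → A)
    (hh : ∀ d, h (face R d) = h (face R d.symm)) (x y : Face R) : h x = h y := by
  have h1 : ∀ d, h (face R (R.rot d)) = h (face R d) := by
    intro d; rw [face_rot, ← hh]
  have h2 : ∀ u v, G.Walk u v → ∀ d d' : G.Dart, d.fst = u → d'.fst = v →
      h (face R d) = h (face R d') := by
    intro u v p
    induction p with
    | nil =>
      intro d d' e1 e2
      exact rot_invariant R (fun d => h (face R d)) h1 (e1.trans e2.symm)
    | @cons a b c hab q ih =>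
      intro d d' e1 e2
      let e : G.Dart := ⟨(a, b), hab⟩
      have e3 : h (face R d) = h (face R e) :=
        rot_invariant R (fun d => h (face R d)) h1 e1
      rw [e3, hh e]
      exact ih e.symm d' rfl e2
  obtain ⟨d, rfl⟩ := face_surj R x
  obtain ⟨d', rfl⟩ := face_surj R y
  obtain ⟨p⟩ := hc.preconnected d.fst d'.fst
  exact h2 _ _ p d d' rfl rfl

end faces

section height

variable {V : Type*} [Fintype V] [DecidableEq V] {G : SimpleGraph V} [DecidableRel G.Adj]

/-- the white darts -/
abbrev WD (c : G.Coloring (Fin 2)) : Type _ := {d : G.Dart // c d.fst = 0}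

omit [Fintype V] [DecidableEq V] [DecidableRel G.Adj] in
theorem col_snd (c : G.Coloring (Fin 2)) (d : G.Dart) : c d.fst = 0 ↔ ¬ c d.snd = 0 := by
  have h := c.valid d.adj
  constructor
  · intro h1 h2; exact h (h1.trans h2.symm)
  · intro h1; omega

omit [DecidableEq V] in
theorem sum_WD {A : Type*} [AddCommMonoid A] (c : G.Coloring (Fin 2)) (g : G.Dart → A) :
    ∑ d : WD c, g d.1 = ∑ d : G.Dart, if c d.fst = 0 then g d else 0 := by
  classical
  rw [← Finset.sum_filter]
  exact (Finset.sum_subtype _ (by simp) g).symm

omit [DecidableEq V] in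
theorem sum_symm {A : Type*} [AddCommMonoid A] (g : G.Dart → A) :
    ∑ d : G.Dart, g d.symm = ∑ d : G.Dart, g d :=
  Equiv.sum_comp (dartSwap G) g

omit [DecidableEq V] in
theorem sum_BD (c : G.Coloring (Fin 2)) (g : G.Dart → ℕ) :
    ∑ d : G.Dart, (if c d.fst = 0 then g d else 0) + ∑ d : G.Dart, (if c d.fst = 0 then 0 else g d)
      = ∑ d : G.Dart, g d := by
  rw [← Finset.sum_add_distrib]
  refine Finset.sum_congr rfl (fun d _ => ?_)
  split_ifs <;> simp

omit [DecidableEq V] in
theorem card_WD (c : G.Coloring (Fin 2)) : Fintype.card (WD c) = Nat.card G.edgeSet := by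
  have h1 : Fintype.card (WD c) = ∑ d : G.Dart, if c d.fst = 0 then 1 else 0 := by
    rw [← sum_WD c (fun _ => 1)]
    simp
  have h2 : Fintype.card (WD c) = ∑ d : G.Dart, if c d.fst = 0 then 0 else 1 := by
    rw [h1, ← sum_symm]
    refine Finset.sum_congr rfl (fun d _ => ?_)
    have h5 : (c d.symm.fst = 0) ↔ ¬ (c d.fst = 0) := by
      show (c d.snd = 0) ↔ ¬ (c d.fst = 0)
      have := col_snd c d
      tauto
    by_cases h6 : c d.fst = 0
    · rw [if_pos h6, if_neg (fun h7 => h5.1 h7 h6)]
    · rw [if_neg h6, if_pos (h5.2 h6)]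
  have h3 := sum_BD c (fun _ => 1)
  rw [← h1, ← h2, Finset.sum_const, Finset.card_univ, smul_eq_mul, mul_one] at h3
  have h4 := G.dart_card_eq_twice_card_edges
  rw [Nat.card_eq_fintype_card, ← SimpleGraph.edgeFinset_card]
  omega

/-- vertices have degree `3`, as a sum over darts -/
theorem sum_deg (h3 : G.IsRegularOfDegree 3) (x : V) :
    ∑ d : G.Dart, (if d.fst = x then (1 : ℕ) else 0) = 3 := by
  rw [← Finset.sum_filter, Finset.sum_const, smul_eq_mul, mul_one,
    G.dart_fst_fiber_card_eq_degree x, h3 x]

open Matrix in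
/-- the incidence matrix of the graph applied to a function on white darts that extends to an
antisymmetric function -/
theorem inc_WD {F : Type*} [Field F] (c : G.Coloring (Fin 2)) (a : G.Dart → F)
    (ha : ∀ d, a d.symm = - a d) (x : V) :
    ((inc F (fun d : WD c => d.1.fst) (fun d : WD c => d.1.snd)) *ᵥ (fun d => a d.1)) x
      = ∑ d : G.Dart, if d.fst = x then a d else 0 := by
  rw [inc_mulVec]
  rw [sum_WD c (fun d => ((if d.fst = x then a d else 0) - (if d.snd = x then a d else 0)))]
  have e1 : ∀ d : G.Dart, (if c d.fst = 0 then ((if d.fst = x then a d else 0)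
      - (if d.snd = x then a d else 0)) else 0)
      = (if c d.fst = 0 then (if d.fst = x then a d else 0) else 0)
        - (if c d.fst = 0 then (if d.snd = x then a d else 0) else 0) := by
    intro d; split_ifs <;> simp
  rw [Finset.sum_congr rfl (fun d _ => e1 d), Finset.sum_sub_distrib]
  rw [← sum_symm (fun d => if c d.fst = 0 then (if d.snd = x then a d else 0) else 0),
    ← Finset.sum_sub_distrib]
  refine Finset.sum_congr rfl (fun d _ => ?_)
  have e2 : (if c d.symm.fst = 0 then (if d.symm.snd = x then a d.symm else 0) else 0)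
      = (if c d.fst = 0 then 0 else (if d.fst = x then - a d else 0)) := by
    rw [ha]
    show (if c d.snd = 0 then (if d.fst = x then - a d else 0) else 0) = _
    have := col_snd c d
    by_cases h6 : c d.fst = 0
    · rw [if_pos h6, if_neg (this.1 h6)]
    · have h7 : c d.snd = 0 := by tauto
      rw [if_neg h6, if_pos h7]
  rw [e2]
  split_ifs <;> simp

variable (R : RotationSystem G)

noncomputable instance : Fintype (Face R) := by
  classical
  exact Fintype.ofFinite _

/-- THE FACE COLOURING -/
theorem exists_height (hcubic : G.IsRegularOfDegree 3) (hc : G.Connected)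
    (hE : (Fintype.card V : ℤ) - (Nat.card G.edgeSet : ℤ) + (R.numFaces : ℤ) = 2)
    (c : G.Coloring (Fin 2)) :
    ∃ f : Face R → ZMod 3, ∀ d : G.Dart, c d.fst = 0 → f (face R d) - f (face R d.symm) = 1 := by
  classical
  have hcard : R.numFaces = Fintype.card (Face R) := by
    rw [RotationSystem.numFaces, ← Nat.card_eq_fintype_card]; rfl
  have hE' : Fintype.card (WD c) + 2 ≤ Fintype.card V + Fintype.card (Face R) := by
    have := card_WD c
    rw [hcard] at hE
    omega
  have hX : ∀ h : V → ZMod 3, (∀ d : WD c, h d.1.fst = h d.1.snd) → ∀ x y, h x = h y := by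
    intro h hh
    have h1 : ∀ u v, G.Walk u v → h u = h v := by
      intro u v p
      induction p with
      | nil => rfl
      | @cons a b c' hab q ih =>
        rw [← ih]
        by_cases hca : c a = 0
        · exact hh ⟨⟨(a, b), hab⟩, hca⟩
        · have := col_snd c ⟨(a, b), hab⟩
          have hcb : c b = 0 := by
            by_contra hcb
            exact hca (this.2 hcb)
          exact (hh ⟨⟨(b, a), hab.symm⟩, hcb⟩).symm
    intro x y
    obtain ⟨p⟩ := hc.preconnected x y
    exact h1 x y p
  have hY : ∀ h : Face R → ZMod 3, (∀ d : WD c, h (face R d.1) = h (face R d.1.symm)) →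
      ∀ x y, h x = h y := by
    intro h hh
    refine face_connected R hc h (fun d => ?_)
    by_cases hd : c d.fst = 0
    · exact hh ⟨d, hd⟩
    · have hd' : c d.symm.fst = 0 := by
        by_contra h'
        exact hd ((col_snd c d).2 h')
      have := hh ⟨d.symm, hd'⟩
      simp only [Dart.symm_symm] at this
      exact this.symm
  have hZ : ∀ g : Face R → ZMod 3, (inc (ZMod 3) (fun d : WD c => d.1.fst)
      (fun d : WD c => d.1.snd)) *ᵥ (fun d => g (face R d.1) - g (face R d.1.symm)) = 0 := by
    intro g
    funext x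
    rw [inc_WD c (fun d => g (face R d) - g (face R d.symm)) (fun d => by
      rw [Dart.symm_symm]; ring)]
    have e1 : ∀ d : G.Dart, (if d.fst = x then g (face R d) - g (face R d.symm) else 0)
        = (if d.fst = x then g (face R d) else 0)
          - (if (R.rot d).fst = x then g (face R (R.rot d)) else 0) := by
      intro d
      rw [R.rot_fst, face_rot]
      split_ifs <;> simp
    rw [Finset.sum_congr rfl (fun d _ => e1 d), Finset.sum_sub_distrib,
      Equiv.sum_comp R.rot (fun d => if d.fst = x then g (face R d) else 0), sub_self]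
    rfl
  have hO : (inc (ZMod 3) (fun d : WD c => d.1.fst) (fun d : WD c => d.1.snd)) *ᵥ
      (fun _ => 1) = 0 := by
    funext x
    have h1 := inc_WD (F := ZMod 3) c (fun d => if c d.fst = 0 then 1 else -1) (fun d => by
      show (if c d.snd = 0 then (1 : ZMod 3) else -1) = _
      have := col_snd c d
      by_cases h6 : c d.fst = 0
      · rw [if_pos h6, if_neg (this.1 h6)]
      · have h7 : c d.snd = 0 := by tauto
        rw [if_neg h6, if_pos h7, neg_neg]) x
    have h2 : (fun d : WD c => (if c d.1.fst = 0 then (1 : ZMod 3) else -1)) = fun _ => 1 := by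
      funext d; rw [if_pos d.2]
    rw [h2] at h1
    rw [h1]
    have h3 : ∀ d : G.Dart, (if d.fst = x then (if c d.fst = 0 then (1 : ZMod 3) else -1) else 0)
        = (if c x = 0 then (1 : ZMod 3) else -1) * ((if d.fst = x then (1 : ℕ) else 0 : ℕ) : ZMod 3) := by
      intro d
      by_cases h : d.fst = x
      · rw [if_pos h, if_pos h, h, Nat.cast_one, mul_one]
      · rw [if_neg h, if_neg h, Nat.cast_zero, mul_zero]
    rw [Finset.sum_congr rfl (fun d _ => h3 d), ← Finset.mul_sum, ← Nat.cast_sum, sum_deg hcubic]
    have : ((3 : ℕ) : ZMod 3) = 0 := by decide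
    rw [this, mul_zero]
    rfl
  obtain ⟨f, hf⟩ := exists_primitive (F := ZMod 3) (fun d : WD c => d.1.fst)
    (fun d : WD c => d.1.snd) (fun d : WD c => face R d.1) (fun d : WD c => face R d.1.symm)
    hX hY hZ hE' (fun _ => 1) hO
  exact ⟨f, fun d hd => hf ⟨d, hd⟩⟩

end height

end Crest.Agent.R039.Map
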