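import Crest.Agent.R039.Map834B
import Crest.Agent.R039.Ext282

/-!
# Row 39: S0053 data => coloured bicubic map

From a cubic graph with a proper 2-colouring `c`, a rotation system `R` and a face colouring `f`
with `f (left) - f (right) = 1` along white darts (`Map.exists_height`):
* `col d` : colour of an edge, `nb k v` : the neighbour of `v` along the edge of colour `k`;
* `e k : W ≃ B`, `bic : Bic W B (Face R)`, `p_eq_iff`, `card_face`.
-/

set_option autoImplicit false

namespace Crest.Agent.R039.Map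

open Crest.CombinatoricsR.PlanarMap SimpleGraph

/-- the data: colouring, rotation system, face colouring -/
structure Data (V : Type*) [Fintype V] [DecidableEq V] (G : SimpleGraph V) [DecidableRel G.Adj] where
  hcubic : G.IsRegularOfDegree 3
  hconn : G.Connected
  c : G.Coloring (Fin 2)
  R : RotationSystem G
  f : Face R → ZMod 3
  hf : ∀ d : G.Dart, c d.fst = 0 → f (face R d) - f (face R d.symm) = 1
  hE : (Fintype.card V : ℤ) - (Nat.card G.edgeSet : ℤ) + (R.numFaces : ℤ) = 2

theorem exists_data {V : Type*} [Fintype V] [DecidableEq V] (G : SimpleGraph V)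
    [DecidableRel G.Adj] (hcubic : G.IsRegularOfDegree 3) (hbip : G.Colorable 2)
    (hpl : IsPlanarMap G) : Nonempty (Data V G) := by
  obtain ⟨hconn, R, hE⟩ := hpl
  obtain ⟨c⟩ := hbip
  obtain ⟨f, hf⟩ := exists_height R hcubic hconn hE c
  exact ⟨⟨hcubic, hconn, c, R, f, hf, hE⟩⟩

namespace Data

variable {V : Type*} [Fintype V] [DecidableEq V] {G : SimpleGraph V} [DecidableRel G.Adj]
  (M : Data V G)

theorem c_snd (d : G.Dart) : M.c d.fst = 0 ↔ ¬ M.c d.snd = 0 := col_snd M.c d

theorem c_symm (d : G.Dart) (h : ¬ M.c d.fst = 0) : M.c d.symm.fst = 0 := by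
  show M.c d.snd = 0
  by_contra h'
  exact h ((M.c_snd d).2 h')

/-- colour of the edge of a dart -/
def col (d : G.Dart) : ZMod 3 := - (M.f (face M.R d) + M.f (face M.R d.symm))

theorem col_symm (d : G.Dart) : M.col d.symm = M.col d := by
  unfold col; rw [Dart.symm_symm, add_comm]

theorem f_symm_white {d : G.Dart} (h : M.c d.fst = 0) :
    M.f (face M.R d.symm) = M.f (face M.R d) - 1 := by
  rw [← M.hf d h]; ring

theorem f_symm_black {d : G.Dart} (h : ¬ M.c d.fst = 0) :
    M.f (face M.R d.symm) = M.f (face M.R d) + 1 := by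
  have := M.hf d.symm (M.c_symm d h)
  rw [Dart.symm_symm] at this
  rw [← this]; ring

theorem z3 (x : ZMod 3) : -(x + (x - 1)) = x + 1 := by revert x; decide
theorem z3' (x : ZMod 3) : -(x + (x + 1)) = x - 1 := by revert x; decide

theorem col_white {d : G.Dart} (h : M.c d.fst = 0) : M.col d = M.f (face M.R d) + 1 := by
  unfold col; rw [M.f_symm_white h, z3]

theorem col_black {d : G.Dart} (h : ¬ M.c d.fst = 0) : M.col d = M.f (face M.R d) - 1 := by
  unfold col; rw [M.f_symm_black h, z3']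

theorem col_rot_white {d : G.Dart} (h : M.c d.fst = 0) : M.col (M.R.rot d) = M.col d - 1 := by
  have h' : M.c (M.R.rot d).fst = 0 := by rw [M.R.rot_fst]; exact h
  rw [M.col_white h', face_rot, M.f_symm_white h, M.col_white h]; ring

theorem col_rot_black {d : G.Dart} (h : ¬ M.c d.fst = 0) : M.col (M.R.rot d) = M.col d + 1 := by
  have h' : ¬ M.c (M.R.rot d).fst = 0 := by rw [M.R.rot_fst]; exact h
  rw [M.col_black h', face_rot, M.f_symm_black h, M.col_black h]; ring

theorem exists_dart (k : ZMod 3) (v : V) : ∃ d : G.Dart, d.fst = v ∧ M.col d = k := by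
  have h0 : ∃ d : G.Dart, d.fst = v := by
    have h := G.dart_fst_fiber_card_eq_degree v
    rw [M.hcubic v] at h
    obtain ⟨d, hd⟩ := Finset.card_pos.1 (by rw [h]; norm_num : 0 < (Finset.univ.filter
      (fun d : G.Dart => d.fst = v)).card)
    exact ⟨d, (Finset.mem_filter.1 hd).2⟩
  obtain ⟨d, hd⟩ := h0
  have key : ∀ x k : ZMod 3, k = x ∨ k = x - 1 ∨ k = x - 1 - 1 := by decide
  have key' : ∀ x k : ZMod 3, k = x ∨ k = x + 1 ∨ k = x + 1 + 1 := by decide
  have e1 : (M.R.rot d).fst = v := by rw [M.R.rot_fst, hd]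
  have e2 : (M.R.rot (M.R.rot d)).fst = v := by rw [M.R.rot_fst, e1]
  by_cases hc : M.c d.fst = 0
  · have hc1 : M.c (M.R.rot d).fst = 0 := by rw [M.R.rot_fst]; exact hc
    rcases key (M.col d) k with h | h | h
    · exact ⟨d, hd, h.symm⟩
    · exact ⟨_, e1, by rw [M.col_rot_white hc, h]⟩
    · exact ⟨_, e2, by rw [M.col_rot_white hc1, M.col_rot_white hc, h]⟩
  · have hc1 : ¬ M.c (M.R.rot d).fst = 0 := by rw [M.R.rot_fst]; exact hc
    rcases key' (M.col d) k with h | h | h
    · exact ⟨d, hd, h.symm⟩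
    · exact ⟨_, e1, by rw [M.col_rot_black hc, h]⟩
    · exact ⟨_, e2, by rw [M.col_rot_black hc1, M.col_rot_black hc, h]⟩

theorem dart_unique {d d' : G.Dart} (h : d.fst = d'.fst) (hc : M.col d = M.col d') : d = d' := by
  classical
  let F : {x : G.Dart // x.fst = d'.fst} → ZMod 3 := fun x => M.col x.1
  have hs : Function.Surjective F := by
    intro k
    obtain ⟨x, hx, hk⟩ := M.exists_dart k d'.fst
    exact ⟨⟨x, hx⟩, hk⟩
  have hcard : Fintype.card {x : G.Dart // x.fst = d'.fst} = Fintype.card (ZMod 3) := by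
    rw [Fintype.card_subtype, G.dart_fst_fiber_card_eq_degree, M.hcubic, ZMod.card]
  have hb := (Fintype.bijective_iff_surjective_and_card F).2 ⟨hs, hcard⟩
  have := hb.1 (a₁ := ⟨d, h⟩) (a₂ := ⟨d', rfl⟩) hc
  exact congrArg Subtype.val this

/-- the dart of colour `k` at `v` -/
noncomputable def dt (k : ZMod 3) (v : V) : G.Dart := (M.exists_dart k v).choose

theorem dt_fst (k : ZMod 3) (v : V) : (M.dt k v).fst = v := (M.exists_dart k v).choose_spec.1
theorem dt_col (k : ZMod 3) (v : V) : M.col (M.dt k v) = k := (M.exists_dart k v).choose_spec.2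

theorem eq_dt {d : G.Dart} {k : ZMod 3} {v : V} (h1 : d.fst = v) (h2 : M.col d = k) :
    d = M.dt k v :=
  M.dart_unique (h1.trans (M.dt_fst k v).symm) (h2.trans (M.dt_col k v).symm)

/-- the neighbour along the edge of colour `k` -/
noncomputable def nb (k : ZMod 3) (v : V) : V := (M.dt k v).snd

theorem dt_symm (k : ZMod 3) (v : V) : (M.dt k v).symm = M.dt k (M.nb k v) :=
  M.eq_dt rfl (by rw [M.col_symm, M.dt_col])

theorem nb_nb (k : ZMod 3) (v : V) : M.nb k (M.nb k v) = v := by
  show (M.dt k (M.nb k v)).snd = v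
  rw [← M.dt_symm]
  exact M.dt_fst k v

theorem adj_nb (k : ZMod 3) (v : V) : G.Adj v (M.nb k v) := by
  have := (M.dt k v).adj
  rwa [M.dt_fst] at this

theorem adj_iff (u v : V) : G.Adj u v ↔ ∃ k, M.nb k u = v := by
  constructor
  · intro h
    let d : G.Dart := ⟨(u, v), h⟩
    have : d = M.dt (M.col d) u := M.eq_dt rfl rfl
    exact ⟨M.col d, by show (M.dt (M.col d) u).snd = v; rw [← this]⟩
  · rintro ⟨k, rfl⟩
    exact M.adj_nb k u

theorem nb_ne {k k' : ZMod 3} (h : k ≠ k') (v : V) : M.nb k v ≠ M.nb k' v := by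
  intro h'
  apply h
  have h1 : M.dt k v = M.dt k' v := by
    apply Dart.ext
    exact Prod.ext ((M.dt_fst k v).trans (M.dt_fst k' v).symm) h'
  rw [← M.dt_col k v, h1, M.dt_col]

theorem c_nb (k : ZMod 3) (v : V) : M.c v = 0 ↔ ¬ M.c (M.nb k v) = 0 := by
  have := M.c_snd (M.dt k v)
  rw [M.dt_fst] at this
  exact this

/-- white vertices -/
abbrev W : Type _ := {v : V // M.c v = 0}
/-- black vertices -/
abbrev B : Type _ := {v : V // M.c v = 1}

theorem fin2 (x : Fin 2) : ¬ x = 0 ↔ x = 1 := by revert x; decide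

/-- the perfect matching of colour `k` -/
noncomputable def e (k : ZMod 3) : M.W ≃ M.B where
  toFun w := ⟨M.nb k w.1, (fin2 _).1 ((M.c_nb k w.1).1 w.2)⟩
  invFun b := ⟨M.nb k b.1, by
    by_contra h
    have h1 : ¬ M.c b.1 = 0 := (fin2 _).2 b.2
    exact h1 ((M.c_nb k b.1).2 h)⟩
  left_inv w := Subtype.ext (M.nb_nb k w.1)
  right_inv b := Subtype.ext (M.nb_nb k b.1)

@[simp] theorem e_val (k : ZMod 3) (w : M.W) : (M.e k w).1 = M.nb k w.1 := rfl
@[simp] theorem e_symm_val (k : ZMod 3) (b : M.B) : ((M.e k).symm b).1 = M.nb k b.1 := rfl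

theorem rot_dt_white (k : ZMod 3) (w : M.W) : M.R.rot (M.dt k w.1) = M.dt (k - 1) w.1 := by
  have h : M.c (M.dt k w.1).fst = 0 := by rw [M.dt_fst]; exact w.2
  refine M.eq_dt ?_ ?_
  · rw [M.R.rot_fst, M.dt_fst]
  · rw [M.col_rot_white h, M.dt_col]

theorem rot_dt_black (k : ZMod 3) (b : M.B) : M.R.rot (M.dt k b.1) = M.dt (k + 1) b.1 := by
  have h : ¬ M.c (M.dt k b.1).fst = 0 := by rw [M.dt_fst]; exact (fin2 _).2 b.2
  refine M.eq_dt ?_ ?_
  · rw [M.R.rot_fst, M.dt_fst]
  · rw [M.col_rot_black h, M.dt_col]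

/-- the face of colour `i` at a white vertex -/
noncomputable def p (i : ZMod 3) (w : M.W) : Face M.R := face M.R (M.dt (i + 1) w.1)
/-- the face of colour `i` at a black vertex -/
noncomputable def q (i : ZMod 3) (b : M.B) : Face M.R := face M.R (M.dt (i + 2) b.1)

theorem f_p (i : ZMod 3) (w : M.W) : M.f (M.p i w) = i := by
  have h : M.c (M.dt (i + 1) w.1).fst = 0 := by rw [M.dt_fst]; exact w.2
  have := M.col_white h
  rw [M.dt_col] at this
  exact (add_right_cancel this).symm

theorem q_e1 (i : ZMod 3) (w : M.W) : M.q i (M.e (i + 1) w) = M.p i w := by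
  unfold p q
  have h1 : M.dt (i + 2) (M.e (i + 1) w).1 = M.R.rot (M.dt (i + 1) (M.e (i + 1) w).1) := by
    rw [M.rot_dt_black]; congr 1; ring
  rw [h1, face_rot, e_val, ← M.dt_symm, Dart.symm_symm]

theorem q_e2 (i : ZMod 3) (w : M.W) : M.q i (M.e (i + 2) w) = M.p i w := by
  unfold p q
  rw [e_val, ← M.dt_symm, ← face_rot, M.rot_dt_white]
  congr 2; ring

/-- THE BICUBIC MAP -/
noncomputable def bic : Bic M.W M.B (Face M.R) where
  e := M.e
  p := M.p
  q := M.q
  hpq := by
    intro c c' w h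
    have key : ∀ c c' : ZMod 3, c' ≠ c → c' = c + 1 ∨ c' = c + 2 := by decide
    rcases key c c' h with rfl | rfl
    · exact M.q_e1 c w
    · exact M.q_e2 c w

/-- going around a face of colour `i`, on white vertices -/
noncomputable def pi (i : ZMod 3) : Equiv.Perm M.W := (M.e (i + 1)).trans (M.e (i + 2)).symm

theorem phi_dt_white (i : ZMod 3) (w : M.W) :
    phi M.R (M.dt (i + 1) w.1) = M.dt (i + 2) (M.e (i + 1) w).1 := by
  rw [phi_apply, M.dt_symm, ← e_val, M.rot_dt_black]
  congr 1; ring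

theorem phi_dt_black (i : ZMod 3) (b : M.B) :
    phi M.R (M.dt (i + 2) b.1) = M.dt (i + 1) ((M.e (i + 2)).symm b).1 := by
  rw [phi_apply, M.dt_symm, ← e_symm_val, M.rot_dt_white]
  congr 1; ring

theorem phi_sq (i : ZMod 3) (w : M.W) :
    phi M.R (phi M.R (M.dt (i + 1) w.1)) = M.dt (i + 1) (M.pi i w).1 := by
  rw [M.phi_dt_white, M.phi_dt_black]; rfl

theorem phi_pow (i : ZMod 3) (w : M.W) (m : ℕ) :
    ((phi M.R) ^ (2 * m)) (M.dt (i + 1) w.1) = M.dt (i + 1) (((M.pi i) ^ m) w).1 := by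
  induction m with
  | zero => rfl
  | succ m ih =>
    have : 2 * (m + 1) = (2 * m + 1) + 1 := by ring
    rw [this, pow_succ', Equiv.Perm.mul_apply, pow_succ', Equiv.Perm.mul_apply, ih, M.phi_sq,
      pow_succ', Equiv.Perm.mul_apply]

theorem p_eq_of_sameCycle {i : ZMod 3} {w w' : M.W} (h : (M.pi i).SameCycle w w') :
    M.p i w = M.p i w' := by
  obtain ⟨m, hm⟩ := h.exists_nat_pow_eq
  show face M.R _ = face M.R _
  rw [face_eq_iff]
  exact ⟨((2 * m : ℕ) : ℤ), by rw [zpow_natCast, M.phi_pow, hm]⟩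

theorem p_eq_iff {i j : ZMod 3} {w w' : M.W} :
    M.p i w = M.p j w' ↔ i = j ∧ (M.pi i).SameCycle w w' := by
  constructor
  · intro h
    have h1 : i = j := by rw [← M.f_p i w, h, M.f_p]
    refine ⟨h1, ?_⟩
    subst h1
    have h2 : (phi M.R).SameCycle (M.dt (i + 1) w.1) (M.dt (i + 1) w'.1) := (face_eq_iff M.R).1 h
    obtain ⟨n, hn⟩ := h2.exists_nat_pow_eq
    rcases Nat.even_or_odd' n with ⟨m, rfl | rfl⟩
    · rw [M.phi_pow] at hn
      have h3 : (((M.pi i) ^ m) w).1 = w'.1 := by
        have := congrArg (fun d : G.Dart => d.fst) hn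
        simpa only [M.dt_fst] using this
      exact ⟨(m : ℤ), by rw [zpow_natCast]; exact Subtype.ext h3⟩
    · exfalso
      rw [pow_succ', Equiv.Perm.mul_apply, M.phi_pow, M.phi_dt_white] at hn
      have h3 : (M.e (i + 1) (((M.pi i) ^ m) w)).1 = w'.1 := by
        have := congrArg (fun d : G.Dart => d.fst) hn
        simpa only [M.dt_fst] using this
      have h4 := (M.e (i + 1) (((M.pi i) ^ m) w)).2
      rw [h3, w'.2] at h4
      exact absurd h4 (by decide)
  · rintro ⟨rfl, h⟩
    exact M.p_eq_of_sameCycle h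

theorem exists_p (x : Face M.R) : ∃ w, M.p (M.f x) w = x := by
  have h : ∃ i w, M.p i w = x := by
    obtain ⟨d, rfl⟩ := face_surj M.R x
    by_cases hc : M.c d.fst = 0
    · refine ⟨M.col d - 1, ⟨d.fst, hc⟩, ?_⟩
      show face M.R (M.dt (M.col d - 1 + 1) d.fst) = _
      rw [sub_add_cancel, ← M.eq_dt rfl rfl]
    · have hc' : ¬ M.c (phi M.R d).fst ≠ 0 := by
        rw [phi_apply, M.R.rot_fst]
        intro h; exact h (M.c_symm d hc)
      have hc'' : M.c (phi M.R d).fst = 0 := by
        by_contra h; exact hc' h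
      refine ⟨M.col (phi M.R d) - 1, ⟨(phi M.R d).fst, hc''⟩, ?_⟩
      show face M.R (M.dt (M.col (phi M.R d) - 1 + 1) (phi M.R d).fst) = _
      rw [sub_add_cancel, ← M.eq_dt rfl rfl, face_phi]
  obtain ⟨i, w, h⟩ := h
  have : i = M.f x := by rw [← h, M.f_p]
  exact ⟨w, this ▸ h⟩

/-- number of white vertices, darts, faces -/
theorem card_W_B : Fintype.card M.W = Fintype.card M.B := Fintype.card_congr (M.e 0)

theorem card_V : Fintype.card V = 2 * Fintype.card M.W := by
  classical
  have h1 := Fintype.card_subtype_compl (fun v : V => M.c v = 0)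
  have h2 : Fintype.card {v : V // ¬ M.c v = 0} = Fintype.card M.B :=
    Fintype.card_congr (Equiv.subtypeEquivRight (fun v => fin2 _))
  have h3 := Fintype.card_subtype_le (fun v : V => M.c v = 0)
  have h4 := M.card_W_B
  have h5 : Fintype.card M.W = Fintype.card {v : V // M.c v = 0} := rfl
  omega

theorem card_edges : Nat.card G.edgeSet = 3 * Fintype.card M.W := by
  classical
  have h1 := G.sum_degrees_eq_twice_card_edges
  have h2 : ∑ v, G.degree v = 3 * Fintype.card V := by
    rw [Finset.sum_congr rfl (fun v _ => M.hcubic v), Finset.sum_const, Finset.card_univ,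
      smul_eq_mul, mul_comm]
  have h3 := M.card_V
  rw [Nat.card_eq_fintype_card, ← SimpleGraph.edgeFinset_card]
  omega

theorem card_face : Fintype.card (Face M.R) = Fintype.card M.W + 2 := by
  have h1 : M.R.numFaces = Fintype.card (Face M.R) := by
    rw [RotationSystem.numFaces, ← Nat.card_eq_fintype_card]; rfl
  have h2 := M.hE
  have h3 := M.card_V
  have h4 := M.card_edges
  omega

/-- the vertex set is `W ⊕ B` -/
noncomputable def vEquiv : M.W ⊕ M.B ≃ V :=
  (Equiv.sumCongr (Equiv.refl _) (Equiv.subtypeEquivRight (fun v => (fin2 (M.c v)).symm))).trans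
    (Equiv.sumCompl (fun v => M.c v = 0))

theorem vEquiv_inl (w : M.W) : M.vEquiv (Sum.inl w) = w.1 := rfl
theorem vEquiv_inr (b : M.B) : M.vEquiv (Sum.inr b) = b.1 := rfl

theorem adj_e (k : ZMod 3) (w : M.W) :
    G.Adj (M.vEquiv (Sum.inl w)) (M.vEquiv (Sum.inr (M.bic.e k w))) := by
  rw [vEquiv_inl, vEquiv_inr]
  exact M.adj_nb k w.1

end Data

end Crest.Agent.R039.Map
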