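import Crest.Agent.R039.Map834C

/-!
# Row 39: exactness in both directions in coloured coordinates; 3-connected => simple

* `Data.primal_exact` : a function `g k w` on edges with zero sum at every white and every black
  vertex is a difference of a function on faces.
* `Data.dual_exact` : a function `g k w` on edges whose alternating sum around every face is zero
  is a difference of a function on vertices.
* `Data.simple` : if `G` is 3-connected, two different faces share at most one edge.
-/

set_option autoImplicit false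

namespace Crest.Agent.R039.Map

open Crest.CombinatoricsR.PlanarMap SimpleGraph
open scoped Matrix

section dual

variable {D X Y F : Type*} [Fintype D] [Fintype X] [Fintype Y] [DecidableEq X] [DecidableEq Y]
  [Field F]

theorem zero_transpose (s t : D → X) (l r : D → Y)
    (hzero : ∀ f : Y → F, (inc F s t) *ᵥ (fun d => f (l d) - f (r d)) = 0) (f : X → F) :
    (inc F l r) *ᵥ (fun d => f (s d) - f (t d)) = 0 := by
  have h1 : inc F s t * (inc F l r)ᵀ = 0 := by
    apply Matrix.ext_of_mulVec_single
    intro y
    rw [← Matrix.mulVec_mulVec, inc_transpose_mulVec, hzero, Matrix.zero_mulVec]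
  have h2 : inc F l r * (inc F s t)ᵀ = 0 := by
    rw [← Matrix.transpose_eq_zero, Matrix.transpose_mul, Matrix.transpose_transpose, h1]
  rw [← inc_transpose_mulVec, Matrix.mulVec_mulVec, h2, Matrix.zero_mulVec]

end dual

noncomputable instance {V : Type*} {G : SimpleGraph V} (R : RotationSystem G) :
    DecidableEq (Face R) := Classical.decEq _

namespace Data

variable {V : Type*} [Fintype V] [DecidableEq V] {G : SimpleGraph V} [DecidableRel G.Adj]
  (M : Data V G)

theorem conn_V {A : Type*} (h : V → A) (hh : ∀ d : WD M.c, h d.1.fst = h d.1.snd) (x y : V) :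
    h x = h y := by
  have h1 : ∀ u v, G.Walk u v → h u = h v := by
    intro u v p
    induction p with
    | nil => rfl
    | @cons a b c' hab q ih =>
      rw [← ih]
      by_cases hca : M.c a = 0
      · exact hh ⟨⟨(a, b), hab⟩, hca⟩
      · have := col_snd M.c ⟨(a, b), hab⟩
        have hcb : M.c b = 0 := by
          by_contra hcb
          exact hca (this.2 hcb)
        exact (hh ⟨⟨(b, a), hab.symm⟩, hcb⟩).symm
  obtain ⟨p⟩ := M.hconn.preconnected x y
  exact h1 x y p

theorem conn_Face {A : Type*} (h : Face M.R → A)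
    (hh : ∀ d : WD M.c, h (face M.R d.1) = h (face M.R d.1.symm)) (x y : Face M.R) :
    h x = h y := by
  refine face_connected M.R M.hconn h (fun d => ?_) x y
  by_cases hd : M.c d.fst = 0
  · exact hh ⟨d, hd⟩
  · have := hh ⟨d.symm, M.c_symm d hd⟩
    simp only [Dart.symm_symm] at this
    exact this.symm

theorem euler_le : Fintype.card (WD M.c) + 2 ≤ Fintype.card V + Fintype.card (Face M.R) := by
  have h1 := card_WD M.c
  have h2 := M.card_edges
  have h3 := M.card_V
  have h4 := M.card_face
  omega

theorem hzero {F : Type*} [Field F] (g : Face M.R → F) :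
    (inc F (fun d : WD M.c => d.1.fst) (fun d : WD M.c => d.1.snd)) *ᵥ
      (fun d => g (face M.R d.1) - g (face M.R d.1.symm)) = 0 := by
  funext x
  rw [inc_WD M.c (fun d => g (face M.R d) - g (face M.R d.symm)) (fun d => by
    rw [Dart.symm_symm]; ring)]
  have e1 : ∀ d : G.Dart, (if d.fst = x then g (face M.R d) - g (face M.R d.symm) else 0)
      = (if d.fst = x then g (face M.R d) else 0)
        - (if (M.R.rot d).fst = x then g (face M.R (M.R.rot d)) else 0) := by
    intro d
    rw [M.R.rot_fst, face_rot]
    split_ifs <;> simp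
  rw [Finset.sum_congr rfl (fun d _ => e1 d), Finset.sum_sub_distrib,
    Equiv.sum_comp M.R.rot (fun d => if d.fst = x then g (face M.R d) else 0), sub_self]
  rfl

/-- white darts are pairs (white vertex, colour) -/
noncomputable def wdEquiv : M.W × ZMod 3 ≃ WD M.c where
  toFun x := ⟨M.dt x.2 x.1.1, by rw [M.dt_fst]; exact x.1.2⟩
  invFun d := (⟨d.1.fst, d.2⟩, M.col d.1)
  left_inv x := by
    refine Prod.ext (Subtype.ext ?_) ?_
    · exact M.dt_fst _ _
    · exact M.dt_col _ _
  right_inv d := Subtype.ext (M.eq_dt rfl rfl).symm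

theorem face_dt (k : ZMod 3) (w : M.W) : face M.R (M.dt k w.1) = M.p (k - 1) w := by
  unfold p; rw [sub_add_cancel]

theorem face_dt_symm (k : ZMod 3) (w : M.W) : face M.R (M.dt k w.1).symm = M.p (k + 1) w := by
  unfold p
  rw [← face_rot, M.rot_dt_white]
  congr 2
  have : (1 : ZMod 3) + 1 = -1 := by decide
  rw [add_assoc, this, sub_eq_add_neg]

/-- EXACTNESS, primal form -/
theorem primal_exact {F : Type*} [Field F] (g : ZMod 3 → M.W → F)
    (hw : ∀ w, ∑ k, g k w = 0) (hb : ∀ b, ∑ k, g k ((M.e k).symm b) = 0) :
    ∃ f : Face M.R → F, ∀ k w, f (M.p (k - 1) w) - f (M.p (k + 1) w) = g k w := by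
  obtain ⟨f, hf⟩ := exists_primitive (F := F) (fun d : WD M.c => d.1.fst)
    (fun d : WD M.c => d.1.snd) (fun d : WD M.c => face M.R d.1)
    (fun d : WD M.c => face M.R d.1.symm) (fun h hh => M.conn_V h hh)
    (fun h hh => M.conn_Face h hh) M.hzero M.euler_le
    (fun d => g (M.wdEquiv.symm d).2 (M.wdEquiv.symm d).1) (by
      funext x
      rw [inc_mulVec, ← Equiv.sum_comp M.wdEquiv]
      simp only [Equiv.symm_apply_apply]
      rw [Fintype.sum_prod_type, Finset.sum_congr rfl (fun w _ => Finset.sum_sub_distrib _ _),
        Finset.sum_sub_distrib]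
      have e1 : ∀ (w : M.W) (k : ZMod 3), (M.wdEquiv (w, k)).1.fst = w.1 := fun w k => M.dt_fst k w.1
      have e2 : ∀ (w : M.W) (k : ZMod 3), (M.wdEquiv (w, k)).1.snd = (M.e k w).1 := fun w k => rfl
      simp only [e1, e2]
      have e3 : ∑ w : M.W, ∑ k, (if w.1 = x then g k w else 0) = 0 := by
        refine Finset.sum_eq_zero (fun w _ => ?_)
        by_cases h : w.1 = x
        · simp only [if_pos h]; exact hw w
        · simp only [if_neg h]; exact Finset.sum_const_zero
      have e4 : ∑ w : M.W, ∑ k, (if (M.e k w).1 = x then g k w else 0) = 0 := by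
        rw [Finset.sum_comm]
        have e5 : ∀ k, ∑ w : M.W, (if (M.e k w).1 = x then g k w else 0)
            = ∑ b : M.B, (if b.1 = x then g k ((M.e k).symm b) else 0) := by
          intro k
          rw [← Equiv.sum_comp (M.e k)]
          simp only [Equiv.symm_apply_apply]
        rw [Finset.sum_congr rfl (fun k _ => e5 k), Finset.sum_comm]
        refine Finset.sum_eq_zero (fun b _ => ?_)
        by_cases h : b.1 = x
        · simp only [if_pos h]; exact hb b
        · simp only [if_neg h]; exact Finset.sum_const_zero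
      rw [e3, e4, sub_zero]
      rfl)
  refine ⟨f, fun k w => ?_⟩
  have := hf (M.wdEquiv (w, k))
  rw [Equiv.symm_apply_apply] at this
  rw [← this]
  show _ = f (face M.R (M.dt k w.1)) - f (face M.R (M.dt k w.1).symm)
  rw [M.face_dt, M.face_dt_symm]

/-- EXACTNESS, dual form -/
theorem dual_exact {F : Type*} [Field F] (g : ZMod 3 → M.W → F)
    (hx : ∀ i w0, ∑ w : M.W, (if M.p i w = M.p i w0 then g (i + 1) w - g (i + 2) w else 0) = 0) :
    ∃ h : V → F, ∀ k (w : M.W), h w.1 - h (M.e k w).1 = g k w := by
  obtain ⟨h, hh⟩ := exists_primitive (F := F) (fun d : WD M.c => face M.R d.1)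
    (fun d : WD M.c => face M.R d.1.symm) (fun d : WD M.c => d.1.fst)
    (fun d : WD M.c => d.1.snd) (fun h hh => M.conn_Face h hh)
    (fun h hh => M.conn_V h hh) (zero_transpose _ _ _ _ M.hzero)
    (by have := M.euler_le; omega)
    (fun d => g (M.wdEquiv.symm d).2 (M.wdEquiv.symm d).1) (by
      funext x
      obtain ⟨w0, hw0⟩ := M.exists_p x
      rw [inc_mulVec, ← Equiv.sum_comp M.wdEquiv]
      simp only [Equiv.symm_apply_apply]
      have e1 : ∀ (w : M.W) (k : ZMod 3), face M.R (M.wdEquiv (w, k)).1 = M.p (k - 1) w :=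
        fun w k => M.face_dt k w
      have e2 : ∀ (w : M.W) (k : ZMod 3), face M.R (M.wdEquiv (w, k)).1.symm = M.p (k + 1) w :=
        fun w k => M.face_dt_symm k w
      simp only [e1, e2]
      rw [Fintype.sum_prod_type]
      refine Eq.trans (Finset.sum_congr rfl (fun w _ => ?_)) (hx (M.f x) w0)
      rw [hw0]
      generalize hi : M.f x = i
      have key : ∀ j : ZMod 3, M.p j w = x → j = i := by
        intro j h
        rw [← hi, ← h, M.f_p]
      have e3 : ∀ k, (if M.p (k - 1) w = x then g k w else 0)
          = if k = i + 1 then (if M.p i w = x then g (i + 1) w else 0) else 0 := by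
        intro k
        by_cases hk : k = i + 1
        · subst hk
          rw [if_pos rfl, add_sub_cancel_right]
        · rw [if_neg hk, if_neg]
          intro h
          have := key _ h
          exact hk (by rw [← this]; ring)
      have e4 : ∀ k, (if M.p (k + 1) w = x then g k w else 0)
          = if k = i + 2 then (if M.p i w = x then g (i + 2) w else 0) else 0 := by
        intro k
        have h3 : i + 2 + 1 = i := by
          have : (2 : ZMod 3) + 1 = 0 := by decide
          rw [add_assoc, this, add_zero]
        by_cases hk : k = i + 2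
        · subst hk
          rw [if_pos rfl, h3]
        · rw [if_neg hk, if_neg]
          intro h
          have := key _ h
          apply hk
          rw [← this]
          have h4 : (1 : ZMod 3) + 2 = 0 := by decide
          rw [add_assoc, h4, add_zero]
      rw [Finset.sum_sub_distrib, Finset.sum_congr rfl (fun k _ => e3 k),
        Finset.sum_congr rfl (fun k _ => e4 k), Finset.sum_ite_eq', Finset.sum_ite_eq',
        if_pos (Finset.mem_univ _), if_pos (Finset.mem_univ _)]
      split_ifs <;> simp)
  refine ⟨h, fun k w => ?_⟩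
  have := hh (M.wdEquiv (w, k))
  rw [Equiv.symm_apply_apply] at this
  rw [← this]
  show _ = h (M.dt k w.1).fst - h (M.dt k w.1).snd
  rw [M.dt_fst]
  rfl

omit [Fintype V] [DecidableEq V] [DecidableRel G.Adj] in
/-- a function on the vertices of a connected induced subgraph that is constant along its edges -/
theorem const_of_induce {A : Type*} {S : Set V} (hS : (G.induce S).Connected) (h : V → A)
    (hh : ∀ u v, u ∈ S → v ∈ S → G.Adj u v → h u = h v) {x y : V} (hx : x ∈ S) (hy : y ∈ S) :
    h x = h y := by
  obtain ⟨p⟩ := hS.preconnected ⟨x, hx⟩ ⟨y, hy⟩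
  have key : ∀ u v : S, (G.induce S).Walk u v → h u.1 = h v.1 := by
    intro u v p
    induction p with
    | nil => rfl
    | @cons a b c' hab q ih =>
      rw [← ih]
      exact hh a.1 b.1 a.2 b.2 hab
  exact key _ _ p

/-- two faces of a 3-connected cubic map share at most one edge -/
theorem simple_aux (h3 : IsThreeConnected G) (k : ZMod 3) {w w' : M.W}
    (h1 : M.p (k + 1) w = M.p (k + 1) w') (h2 : M.p (k + 2) w = M.p (k + 2) w') : w = w' := by
  by_contra hne
  obtain ⟨h, hh⟩ := M.dual_exact (F := ℚ)
    (fun k' v => if k' = k then (if v = w then 1 else 0) - (if v = w' then 1 else 0) else 0) (by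
      intro i w0
      have z0 : ∀ k : ZMod 3, k = k + 1 ↔ False := by decide
      have z1 : ∀ i k : ZMod 3, i + 1 = k → i = k + 2 := by decide
      have z2 : ∀ i k : ZMod 3, i + 2 = k → i = k + 1 := by decide
      have z3 : ∀ i : ZMod 3, i + 1 ≠ i + 2 := by decide
      by_cases c1 : i + 1 = k
      · have c2 : i + 2 ≠ k := fun c2 => z3 i (c1.trans c2.symm)
        simp only [if_pos c1, if_neg c2, sub_zero]
        rw [← Finset.sum_filter, Finset.sum_sub_distrib]
        simp only [Finset.sum_ite_eq', Finset.mem_filter, Finset.mem_univ, true_and]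
        have e : M.p i w = M.p i w' := by rw [z1 i k c1]; exact h2
        rw [e, sub_self]
      · by_cases c2 : i + 2 = k
        · simp only [if_neg c1, if_pos c2, zero_sub]
          rw [← Finset.sum_filter, Finset.sum_neg_distrib, Finset.sum_sub_distrib]
          simp only [Finset.sum_ite_eq', Finset.mem_filter, Finset.mem_univ, true_and]
          have e : M.p i w = M.p i w' := by rw [z2 i k c2]; exact h1
          rw [e, sub_self, neg_zero]
        · simp only [if_neg c1, if_neg c2, sub_zero, ite_self, Finset.sum_const_zero])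
  have hS := h3.2 {w.1, w'.1} Finset.card_le_two
  have hnm : ∀ v : V, v ∈ ((({w.1, w'.1} : Finset V) : Set V)ᶜ) ↔ v ≠ w.1 ∧ v ≠ w'.1 := by
    intro v; simp
  have hedge : ∀ (k' : ZMod 3) (v : M.W), v ≠ w → v ≠ w' → h v.1 = h (M.e k' v).1 := by
    intro k' v v1 v2
    have := hh k' v
    rw [if_neg v1, if_neg v2, sub_self, ite_self] at this
    exact sub_eq_zero.1 this
  have hadj : ∀ u v, u ∈ ((({w.1, w'.1} : Finset V) : Set V)ᶜ) →
      v ∈ ((({w.1, w'.1} : Finset V) : Set V)ᶜ) → G.Adj u v → h u = h v := by
    intro u v hu hv huv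
    rw [hnm] at hu hv
    obtain ⟨k', rfl⟩ := (M.adj_iff u v).1 huv
    by_cases hc : M.c u = 0
    · exact hedge k' ⟨u, hc⟩ (fun h' => hu.1 (congrArg Subtype.val h'))
        (fun h' => hu.2 (congrArg Subtype.val h'))
    · have hc' : M.c (M.nb k' u) = 0 := by
        by_contra h'
        exact hc ((M.c_nb k' u).2 h')
      have := hedge k' ⟨M.nb k' u, hc'⟩ (fun h' => hv.1 (congrArg Subtype.val h'))
        (fun h' => hv.2 (congrArg Subtype.val h'))
      rw [M.e_val] at this
      simp only [M.nb_nb] at this
      exact this.symm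
  have hB : ∀ b : M.B, b.1 ∈ ((({w.1, w'.1} : Finset V) : Set V)ᶜ) := by
    intro b
    rw [hnm]
    constructor
    · intro h'; have := b.2; rw [h', w.2] at this; exact absurd this (by decide)
    · intro h'; have := b.2; rw [h', w'.2] at this; exact absurd this (by decide)
  have hconst : h (M.e k w).1 = h (M.e (k + 1) w).1 :=
    const_of_induce hS h hadj (hB _) (hB _)
  have a1 := hh k w
  have a2 := hh (k + 1) w
  have z4 : k + 1 ≠ k := by
    have : ∀ k : ZMod 3, k + 1 ≠ k := by decide
    exact this k
  rw [if_pos rfl, if_pos rfl, if_neg hne] at a1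
  rw [if_neg z4] at a2
  rw [← hconst] at a2
  rw [a2] at a1
  norm_num at a1

/-- SIMPLICITY of the dual triangulation -/
theorem simple (h3 : IsThreeConnected G) {i j : ZMod 3} (hij : i ≠ j) {w w' : M.W}
    (h1 : M.p i w = M.p i w') (h2 : M.p j w = M.p j w') : w = w' := by
  have key : ∀ i j : ZMod 3, i ≠ j → j = i + 1 ∨ i = j + 1 := by decide
  have e2 : ∀ k : ZMod 3, k - 1 + 2 = k + 1 := by decide
  rcases key i j hij with rfl | rfl
  · refine M.simple_aux h3 (i - 1) ?_ ?_
    · rw [sub_add_cancel]; exact h1
    · rw [e2]; exact h2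
  · refine M.simple_aux h3 (j - 1) ?_ ?_
    · rw [sub_add_cancel]; exact h2
    · rw [e2]; exact h1

/-- no face has length one (in white vertices) -/
theorem pi_ne (i : ZMod 3) (w : M.W) : M.pi i w ≠ w := by
  intro h
  have h1 : M.e (i + 1) w = M.e (i + 2) w := by
    have : (M.e (i + 2)).symm (M.e (i + 1) w) = w := h
    rw [← this, Equiv.apply_symm_apply, this]
  have h2 := congrArg Subtype.val h1
  have h3 : i + 1 ≠ i + 2 := by
    have : ∀ i : ZMod 3, i + 1 ≠ i + 2 := by decide
    exact this i
  exact M.nb_ne h3 w.1 h2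

end Data

end Crest.Agent.R039.Map
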