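import Crest.Agent.R039.Map834D

/-!
# Row 39: reduction of S0053 to a statement about three bijections

`Tri W B` : three bijections `e k : W ≃ B`. `Tri.Vert` : the vertices of the (dual) Eulerian
triangulation, i.e. the cycles of `pi i = (e (i+1)).trans (e (i+2)).symm`.
`Core` : for every finite connected simple genus-zero `Tri` there is a `0/1` function `s` on the
vertices such that a cofactor of `K0 s` is non-zero.
`isHamiltonian_of_core : Core → S0053`.
-/

set_option autoImplicit false

namespace Crest.Agent.R039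

/-- three bijections between two sets: an Eulerian triangulation with white faces `W` and black
faces `B` -/
structure Tri (W B : Type*) where
  e : ZMod 3 → W ≃ B

namespace Tri

variable {W B : Type*} (T : Tri W B)

/-- turning around the vertex of colour `i` of a white face -/
def pi (i : ZMod 3) : Equiv.Perm W := (T.e (i + 1)).trans (T.e (i + 2)).symm

/-- vertices of colour `i` -/
abbrev VertC (i : ZMod 3) : Type _ := Quotient (Equiv.Perm.SameCycle.setoid (T.pi i))

/-- the vertices -/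
abbrev Vert : Type _ := Σ i : ZMod 3, T.VertC i

/-- the vertex of colour `i` of a white face -/
def p (i : ZMod 3) (w : W) : T.Vert := ⟨i, Quotient.mk _ w⟩
/-- the vertex of colour `i` of a black face -/
def q (i : ZMod 3) (b : B) : T.Vert := ⟨i, Quotient.mk _ ((T.e (i + 1)).symm b)⟩

theorem p_eq_iff {i j : ZMod 3} {w w' : W} :
    T.p i w = T.p j w' ↔ i = j ∧ (T.pi i).SameCycle w w' := by
  unfold p
  constructor
  · intro h
    rw [Sigma.mk.injEq] at h
    obtain ⟨rfl, h⟩ := h
    have h' := eq_of_heq h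
    rw [Quotient.eq] at h'
    exact ⟨rfl, h'⟩
  · rintro ⟨rfl, h⟩
    rw [Sigma.mk.injEq]
    exact ⟨rfl, heq_of_eq (Quotient.sound h)⟩

/-- the labelled bicubic map -/
def bic : Bic W B T.Vert where
  e := T.e
  p := T.p
  q := T.q
  hpq := by
    intro c c' w h
    have key : ∀ c c' : ZMod 3, c' ≠ c → c' = c + 1 ∨ c' = c + 2 := by decide
    rcases key c c' h with rfl | rfl
    · show T.p c ((T.e (c + 1)).symm (T.e (c + 1) w)) = T.p c w
      rw [Equiv.symm_apply_apply]
    · show T.p c ((T.e (c + 1)).symm (T.e (c + 2) w)) = T.p c w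
      rw [T.p_eq_iff]
      refine ⟨rfl, ?_⟩
      refine (Equiv.Perm.sameCycle_apply_left (f := T.pi c)).1 ?_
      have : T.pi c ((T.e (c + 1)).symm (T.e (c + 2) w)) = w := by
        show (T.e (c + 2)).symm (T.e (c + 1) ((T.e (c + 1)).symm (T.e (c + 2) w))) = w
        rw [Equiv.apply_symm_apply, Equiv.symm_apply_apply]
      rw [this]

/-- connectedness -/
def Conn : Prop := ∀ S : Set W, S.Nonempty → (∀ i, ∀ w ∈ S, T.pi i w ∈ S) → S = Set.univ

/-- genus zero -/
def Genus0 : Prop := Nat.card T.Vert = Nat.card W + 2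

/-- simplicity: two vertices are joined by at most one edge -/
def Simple : Prop :=
  ∀ i j : ZMod 3, i ≠ j → ∀ w w' : W, T.p i w = T.p i w' → T.p j w = T.p j w' → w = w'

end Tri

/-- THE CORE STATEMENT -/
def Core : Prop :=
  ∀ (W B : Type) [Fintype W] [Fintype B] [DecidableEq W] [DecidableEq B] (T : Tri W B),
    T.Conn → T.Genus0 → T.Simple → Nontrivial W → (∀ i w, T.pi i w ≠ w) →
    ∃ s : T.Vert → ℤ, (∀ v, s v = 0 ∨ s v = 1) ∧ ∃ w0, (T.bic.K0 s).adjugate w0 w0 ≠ 0

namespace Map

open Crest.CombinatoricsR.PlanarMap SimpleGraph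

namespace Data

variable {V : Type*} [Fintype V] [DecidableEq V] {G : SimpleGraph V} [DecidableRel G.Adj]
  (M : Data V G)

/-- the abstract triangulation -/
noncomputable def tri : Tri M.W M.B := ⟨M.e⟩

theorem tri_pi (i : ZMod 3) : M.tri.pi i = M.pi i := rfl

theorem tri_p_iff {i j : ZMod 3} {w w' : M.W} : M.tri.p i w = M.tri.p j w' ↔ M.p i w = M.p j w' := by
  rw [Tri.p_eq_iff, M.p_eq_iff]; rfl

/-- the vertices of the abstract triangulation are the faces -/
noncomputable def vertEquiv : M.tri.Vert ≃ Face M.R := by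
  refine Equiv.ofBijective (fun x => Quotient.lift (fun w => M.p x.1 w)
    (fun w w' h => M.p_eq_of_sameCycle h) x.2) ⟨?_, ?_⟩
  · rintro ⟨i, x⟩ ⟨j, y⟩ h
    obtain ⟨w, rfl⟩ := Quotient.exists_rep x
    obtain ⟨w', rfl⟩ := Quotient.exists_rep y
    exact M.tri_p_iff.2 h
  · intro x
    obtain ⟨w, hw⟩ := M.exists_p x
    exact ⟨M.tri.p (M.f x) w, hw⟩

theorem tri_genus0 : M.tri.Genus0 := by
  show Nat.card M.tri.Vert = Nat.card M.W + 2
  rw [Nat.card_congr M.vertEquiv, Nat.card_eq_fintype_card, M.card_face, Nat.card_eq_fintype_card]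

theorem tri_conn : M.tri.Conn := by
  intro S hS hcl
  -- pull back to a function on the vertices of `G`
  have hinv : ∀ i, ∀ w, M.tri.pi i w ∈ S ↔ w ∈ S := by
    intro i w
    constructor
    · intro h
      have h1 : (M.tri.pi i).SameCycle w (M.tri.pi i w) :=
        Equiv.Perm.sameCycle_apply_right.2 (Equiv.Perm.SameCycle.refl _ _)
      obtain ⟨n, hn⟩ := h1.symm.exists_nat_pow_eq
      rw [← hn]
      clear hn
      induction n with
      | zero => exact h
      | succ n ih => rw [pow_succ', Equiv.Perm.mul_apply]; exact hcl i _ ih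
    · exact hcl i w
  obtain ⟨w0, hw0⟩ := hS
  -- membership of the white neighbours of a black vertex does not depend on the colour
  have hblack : ∀ (b : M.B) (k k' : ZMod 3), (M.e k).symm b ∈ S ↔ (M.e k').symm b ∈ S := by
    have h1 : ∀ (b : M.B) (i : ZMod 3), (M.e (i + 1)).symm b ∈ S ↔ (M.e (i + 2)).symm b ∈ S := by
      intro b i
      rw [← hinv i ((M.e (i + 1)).symm b)]
      have : M.tri.pi i ((M.e (i + 1)).symm b) = (M.e (i + 2)).symm b := by
        show (M.e (i + 2)).symm (M.e (i + 1) ((M.e (i + 1)).symm b)) = _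
        rw [Equiv.apply_symm_apply]
      rw [this]
    intro b k k'
    have key : ∀ k k' : ZMod 3, k = k' ∨ (∃ i : ZMod 3, k = i + 1 ∧ k' = i + 2) ∨
        (∃ i : ZMod 3, k' = i + 1 ∧ k = i + 2) := by decide
    rcases key k k' with rfl | ⟨i, rfl, rfl⟩ | ⟨i, rfl, rfl⟩
    · rfl
    · exact h1 b i
    · exact (h1 b i).symm
  let h : V → Prop := fun v => if hv : M.c v = 0 then (⟨v, hv⟩ : M.W) ∈ S
    else ((M.e 0).symm ⟨v, (fin2 _).1 hv⟩) ∈ S
  have hW : ∀ w : M.W, h w.1 = (w ∈ S) := by
    intro w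
    show (if hv : M.c w.1 = 0 then (⟨w.1, hv⟩ : M.W) ∈ S else _) = _
    rw [dif_pos w.2]
  have hB : ∀ b : M.B, h b.1 = ((M.e 0).symm b ∈ S) := by
    intro b
    have hb : ¬ M.c b.1 = 0 := (fin2 _).2 b.2
    show (if hv : M.c b.1 = 0 then (⟨b.1, hv⟩ : M.W) ∈ S
      else ((M.e 0).symm ⟨b.1, (fin2 _).1 hv⟩) ∈ S) = _
    rw [dif_neg hb]
  have hc : ∀ x y, h x = h y := by
    refine M.conn_V h (fun d => ?_)
    have e2 : d.1.snd = (M.e (M.col d.1) ⟨d.1.fst, d.2⟩).1 := by
      show d.1.snd = (M.dt (M.col d.1) d.1.fst).snd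
      rw [← M.eq_dt rfl rfl]
    rw [e2, hB]
    refine (hW ⟨d.1.fst, d.2⟩).trans ?_
    apply propext
    rw [hblack _ 0 (M.col d.1), Equiv.symm_apply_apply]
  ext w
  refine ⟨fun _ => trivial, fun _ => ?_⟩
  have := hc w0.1 w.1
  rw [hW, hW] at this
  rw [← this]; exact hw0

theorem tri_simple (h3 : IsThreeConnected G) : M.tri.Simple := by
  intro i j hij w w' h1 h2
  exact M.simple h3 hij (M.tri_p_iff.1 h1) (M.tri_p_iff.1 h2)

theorem nontrivial_W (h3 : IsThreeConnected G) : Nontrivial M.W := by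
  have hV := M.card_V
  have h4 := h3.1
  exact Fintype.one_lt_card_iff_nontrivial.1 (by omega)

end Data

end Map

/-- REDUCTION OF S0053 TO THE CORE STATEMENT -/
theorem isHamiltonian_of_core (hcore : Core) (V : Type)
    [Fintype V] [DecidableEq V] (G : SimpleGraph V) [DecidableRel G.Adj]
    (hcubic : G.IsRegularOfDegree 3) (hbip : G.Colorable 2)
    (hplanar : Crest.CombinatoricsR.PlanarMap.IsPlanarMap G)
    (hconn : Crest.CombinatoricsR.PlanarMap.IsThreeConnected G) :
    G.IsHamiltonian := by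
  classical
  obtain ⟨M⟩ := Map.exists_data G hcubic hbip hplanar
  have hnt := M.nontrivial_W hconn
  obtain ⟨s, hs, w0, hne⟩ := hcore M.W M.B M.tri M.tri_conn M.tri_genus0 (M.tri_simple hconn)
    hnt M.pi_ne
  exact M.tri.bic.isHamiltonian_of_adjugate M.vEquiv M.adj_e hnt s hs hne

end Crest.Agent.R039
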