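import Crest.Agent.R039.Key563
import Crest.Agent.R039.Disc789

/-!
# Row 39, block B2: the facts about one cover cycle
-/

set_option autoImplicit false
set_option linter.unusedSectionVars false

namespace Crest.Agent.R039.Orb563

open Finset Key563

variable {W B : Type*} {T : Tri W B} {w0 : W}

/-- colour of the apex corner -/
def ca (s : Wh w0 ≃ Off T w0) (w : Wh w0) : ZMod 3 := (s w).1.1

/-- the colour of the edge of the cover cycle in `w` -/
def cc (s : Wh w0 ≃ Off T w0) (π : Equiv.Perm (Wh w0)) (w : Wh w0) : ZMod 3 :=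
  -((s w).1.1 + (s (π w)).1.1)

theorem zcases : ∀ a b : ZMod 3, b = a + 1 → -(a + b) + 1 = a ∧ -(a + b) + 2 = b := by decide
theorem zcases' : ∀ a b : ZMod 3, b = a + 2 → -(a + b) + 1 = b ∧ -(a + b) + 2 = a := by decide
theorem zt : ∀ a c : ZMod 3, a = c ∨ a = c + 1 ∨ a = c + 2 := by decide
theorem z1 : ∀ a : ZMod 3, a + 1 + 2 = a ∧ a + 2 + 1 = a ∧ a + 1 + 1 = a + 2 ∧ a + 2 + 2 = a + 1 ∧
  a + 1 ≠ a ∧ a + 2 ≠ a ∧ a + 1 ≠ a + 2 ∧ a + 2 ≠ a + 1 ∧ a ≠ a + 1 ∧ a ≠ a + 2 := by decide

/-- description of a face: either `om = 1`, the edge goes from `s w` to `s (π w)`, or `om = -1` and it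
goes from `s (π w)` to `s w`. -/
theorem desc (s : Wh w0 ≃ Off T w0) (π : Equiv.Perm (Wh w0))
    (w : Wh w0) (hw : om T w.1 (s w).1 (s (π w)).1 ≠ 0) :
    (om T w.1 (s w).1 (s (π w)).1 = 1 ∧ T.p (cc s π w + 1) w.1 = (s w).1 ∧
      T.p (cc s π w + 2) w.1 = (s (π w)).1) ∨
    (om T w.1 (s w).1 (s (π w)).1 = -1 ∧ T.p (cc s π w + 1) w.1 = (s (π w)).1 ∧
      T.p (cc s π w + 2) w.1 = (s w).1) := by
  obtain ⟨h1, h2⟩ := om_ne_zero hw
  rcases h2 with h2 | h2
  · left
    have hc : (s (π w)).1.1 = (s w).1.1 + 1 := by rw [← h2]; rfl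
    obtain ⟨e1, e2⟩ := zcases _ _ hc
    refine ⟨?_, ?_, ?_⟩
    · have := om_add_one (T := T) w.1 (s w).1.1
      rw [h1, h2] at this; exact this
    · unfold cc; rw [e1]; exact h1
    · unfold cc; rw [e2, hc]; exact h2
  · right
    have hc : (s (π w)).1.1 = (s w).1.1 + 2 := by rw [← h2]; rfl
    obtain ⟨e1, e2⟩ := zcases' _ _ hc
    refine ⟨?_, ?_, ?_⟩
    · have := om_add_two (T := T) w.1 (s w).1.1
      rw [h1, h2] at this; exact this
    · unfold cc; rw [e1, hc]; exact h2
    · unfold cc; rw [e2]; exact h1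

variable [Fintype W] [Fintype B] [DecidableEq W] [DecidableEq B]

/-- the chain supported on the cycle with coefficients `lam` -/
def chain (s : Wh w0 ≃ Off T w0) (π : Equiv.Perm (Wh w0)) (O : Finset (Wh w0))
    (lam : Wh w0 → ℚ) (k : ZMod 3) (w : W) : ℚ :=
  if h : w ≠ w0 then (if (⟨w, h⟩ : Wh w0) ∈ O ∧ k = cc s π ⟨w, h⟩ then lam ⟨w, h⟩ else 0) else 0

theorem chain_apply (s : Wh w0 ≃ Off T w0) (π : Equiv.Perm (Wh w0)) (O : Finset (Wh w0))
    (lam : Wh w0 → ℚ) (k : ZMod 3) (w : Wh w0) :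
    chain s π O lam k w.1 = if w ∈ O ∧ k = cc s π w then lam w else 0 := by
  unfold chain; rw [dif_pos w.2]

theorem chain_root (s : Wh w0 ≃ Off T w0) (π : Equiv.Perm (Wh w0)) (O : Finset (Wh w0))
    (lam : Wh w0 → ℚ) (k : ZMod 3) : chain s π O lam k w0 = 0 := by
  unfold chain; rw [dif_neg (by simp)]

/-- the boundary of the chain, one face at a time -/
theorem chain_bd (s : Wh w0 ≃ Off T w0) (π : Equiv.Perm (Wh w0))
    (hv : ∀ w, om T w.1 (s w).1 (s (π w)).1 ≠ 0) (O : Finset (Wh w0)) (lam : Wh w0 → ℚ)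
    (v : T.Vert) (w : Wh w0) :
    (if T.p v.1 w.1 = v then chain s π O lam (v.1 + 1) w.1 - chain s π O lam (v.1 + 2) w.1 else 0)
      = if w ∈ O then lam w * (om T w.1 (s w).1 (s (π w)).1 : ℚ) *
          ((if (s (π w)).1 = v then 1 else 0) - (if (s w).1 = v then 1 else 0)) else 0 := by
  rw [chain_apply, chain_apply]
  by_cases hO : w ∈ O
  · rw [if_pos hO]
    simp only [hO, true_and]
    obtain ⟨z1, z2, z3, z4, z5, z6, z7, z8, z9, z10⟩ := z1 (cc s π w)
    rcases desc s π w (hv w) with ⟨h0, h1, h2⟩ | ⟨h0, h1, h2⟩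
    · rw [h0]
      by_cases e1 : (s w).1 = v
      · have hne : (s (π w)).1 ≠ v := by
          intro h
          rw [← e1, ← h1, ← h2] at h
          exact z8 (p_inj h)
        rw [if_neg hne, if_pos e1, ← e1, ← h1]
        simp only [Tri.p_fst, if_true]
        rw [if_neg (by rw [z3]; exact z6), if_pos z1]
        push_cast; ring
      · by_cases e2 : (s (π w)).1 = v
        · rw [if_pos e2, if_neg e1, ← e2, ← h2]
          simp only [Tri.p_fst, if_true]
          rw [if_pos z2, if_neg (by rw [z4]; exact z5)]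
          push_cast; ring
        · rw [if_neg e2, if_neg e1]
          by_cases e3 : T.p v.1 w.1 = v
          · rw [if_pos e3]
            have hvc : v.1 = cc s π w := by
              rcases zt v.1 (cc s π w) with h | h | h
              · exact h
              · exfalso; apply e1; rw [← h1, ← h]; exact e3
              · exfalso; apply e2; rw [← h2, ← h]; exact e3
            rw [hvc, if_neg z5, if_neg z6]; ring
          · rw [if_neg e3]; ring
    · rw [h0]
      by_cases e1 : (s w).1 = v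
      · have hne : (s (π w)).1 ≠ v := by
          intro h
          rw [← e1, ← h1, ← h2] at h
          exact z7 (p_inj h)
        rw [if_neg hne, if_pos e1, ← e1, ← h2]
        simp only [Tri.p_fst, if_true]
        rw [if_pos z2, if_neg (by rw [z4]; exact z5)]
        push_cast; ring
      · by_cases e2 : (s (π w)).1 = v
        · rw [if_pos e2, if_neg e1, ← e2, ← h1]
          simp only [Tri.p_fst, if_true]
          rw [if_neg (by rw [z3]; exact z6), if_pos z1]
          push_cast; ring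
        · rw [if_neg e2, if_neg e1]
          by_cases e3 : T.p v.1 w.1 = v
          · rw [if_pos e3]
            have hvc : v.1 = cc s π w := by
              rcases zt v.1 (cc s π w) with h | h | h
              · exact h
              · exfalso; apply e2; rw [← h1, ← h]; exact e3
              · exfalso; apply e1; rw [← h2, ← h]; exact e3
            rw [hvc, if_neg z5, if_neg z6]; ring
          · rw [if_neg e3]; ring
  · rw [if_neg hO]
    simp only [hO, false_and, if_false, sub_zero, ite_self]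

/-- sum over the white faces different from the root -/
theorem sum_wh (f : W → ℚ) (h0 : f w0 = 0) : ∑ w, f w = ∑ w : Wh w0, f w.1 := by
  rw [← Finset.sum_subtype (univ.filter fun w : W => w ≠ w0) (by simp) f, Finset.sum_filter]
  refine sum_congr rfl (fun w _ => ?_)
  by_cases h : w = w0
  · rw [h, h0]; simp
  · rw [if_pos h]

theorem chain_bd_sum (s : Wh w0 ≃ Off T w0) (π : Equiv.Perm (Wh w0))
    (hv : ∀ w, om T w.1 (s w).1 (s (π w)).1 ≠ 0) (O : Finset (Wh w0)) (lam : Wh w0 → ℚ)
    (v : T.Vert) :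
    ∑ w : W, (if T.p v.1 w = v then chain s π O lam (v.1 + 1) w - chain s π O lam (v.1 + 2) w else 0)
      = ∑ w ∈ O, lam w * (om T w.1 (s w).1 (s (π w)).1 : ℚ) *
          ((if (s (π w)).1 = v then 1 else 0) - (if (s w).1 = v then 1 else 0)) := by
  rw [sum_wh (w0 := w0) _ (by rw [chain_root, chain_root]; simp),
    sum_congr rfl (fun w _ => chain_bd s π hv O lam v w), Finset.sum_ite_mem, univ_inter]

/-- the orbit facts -/
theorem orbit_facts (hc : T.Conn) (hg : T.Genus0) (phi : ZMod 3 → W → ℤ)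
    (hphi : ∀ (g : ZMod 3 → W → ℚ) (hW : W → ℚ)
      (hB : B → ℚ), (∀ k w, g k w = hW w - hB (T.e k w)) → hW w0 = 0 → (∀ k, g k w0 = 0) →
      ∑ w, ∑ k, g k w * ((phi (k + 2) w - phi (k + 1) w : ℤ) : ℚ) = ∑ b, hB b)
    (s : Wh w0 ≃ Off T w0) (π : Equiv.Perm (Wh w0))
    (hv : ∀ w, om T w.1 (s w).1 (s (π w)).1 ≠ 0) (O : Finset (Wh w0)) (hO : O ∈ Key.orbs π) :
    Odd O.card ∧ 0 < (-1 : ℤ) ^ ((O.card - 1) / 2) *
      (∏ w ∈ O, om T w.1 (s w).1 (s (π w)).1) *
      ∑ w ∈ O, (phi (s (π w)).1.1 w.1 - phi (s w).1.1 w.1) := by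
  classical
  obtain ⟨w1, -, hO1⟩ := Finset.mem_image.1 hO
  have hw1 : w1 ∈ O := by rw [← hO1]; exact Key.self_mem_orb π w1
  have hmem : ∀ w, w ∈ O ↔ π.SameCycle w1 w := by intro w; rw [← hO1]; exact Key.mem_orb
  have hpi : ∀ w, π w ∈ O ↔ w ∈ O := by
    intro w; rw [hmem, hmem, Equiv.Perm.sameCycle_apply_right]
  set omf : Wh w0 → ℤ := fun w => om T w.1 (s w).1 (s (π w)).1 with homf
  have hom : ∀ w, omf w = 1 ∨ omf w = -1 := by
    intro w
    rcases om_values (T := T) w.1 (s w).1 (s (π w)).1 with h | h | h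
    · exact absurd h (hv w)
    · exact Or.inl h
    · exact Or.inr h
  -- the closed chain of the cycle
  set g : ZMod 3 → W → ℚ := chain s π O (fun w => (omf w : ℚ)) with hgdef
  have homsq : ∀ w, (omf w : ℚ) * (omf w : ℚ) = 1 := by
    intro w; rcases hom w with h | h <;> rw [h] <;> norm_num
  have hclosed : ∀ v : T.Vert, ∑ w : W, (if T.p v.1 w = v then g (v.1 + 1) w - g (v.1 + 2) w else 0)
      = 0 := by
    intro v
    rw [hgdef, chain_bd_sum s π hv O _ v]
    have e1 : ∀ w ∈ O, (omf w : ℚ) * (om T w.1 (s w).1 (s (π w)).1 : ℚ) *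
        ((if (s (π w)).1 = v then 1 else 0) - (if (s w).1 = v then 1 else 0))
        = (if (s (π w)).1 = v then 1 else 0) - (if (s w).1 = v then (1 : ℚ) else 0) := by
      intro w _
      have : (om T w.1 (s w).1 (s (π w)).1 : ℚ) = (omf w : ℚ) := rfl
      rw [this, homsq, one_mul]
    rw [sum_congr rfl e1, sum_sub_distrib]
    have e2 : ∑ w ∈ O, (if (s (π w)).1 = v then (1 : ℚ) else 0)
        = ∑ w ∈ O, (if (s w).1 = v then (1 : ℚ) else 0) := by
      refine Finset.sum_bij (fun w _ => π w) (fun w hw => (hpi w).2 hw)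
        (fun a _ b _ h => π.injective h) (fun b hb => ⟨π.symm b, ?_, π.apply_symm_apply b⟩)
        (fun w _ => rfl)
      rw [← hpi, π.apply_symm_apply]; exact hb
    rw [e2, sub_self]
  obtain ⟨h', hh'⟩ := T.dual_exact hc hg g hclosed
  -- normalise
  obtain ⟨h, hh, h0⟩ : ∃ h : W ⊕ B → ℚ, (∀ k w, h (Sum.inl w) - h (Sum.inr (T.e k w)) = g k w) ∧
      h (Sum.inl w0) = 0 :=
    ⟨fun x => h' x - h' (Sum.inl w0), fun k w => by rw [← hh' k w]; ring, sub_self _⟩
  have hg1 : ∀ w : Wh w0, w ∈ O → g (cc s π w) w.1 = omf w := by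
    intro w hw
    rw [hgdef, chain_apply, if_pos ⟨hw, rfl⟩]
  have hg2 : ∀ (k : ZMod 3) (w : W), g k w ≠ 0 → ∃ hw : w ≠ w0, (⟨w, hw⟩ : Wh w0) ∈ O ∧
      k = cc s π ⟨w, hw⟩ := by
    intro k w hne
    by_cases hw : w ≠ w0
    · refine ⟨hw, ?_⟩
      by_contra hcon
      apply hne
      rw [hgdef, chain_apply s π O _ k ⟨w, hw⟩, if_neg hcon]
    · push Not at hw
      rw [hw] at hne
      exact absurd (chain_root s π O _ k) hne
  -- some value is not zero
  obtain ⟨x0, hx0⟩ : ∃ x, h x ≠ 0 := by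
    by_contra hcon
    push Not at hcon
    have := hh (cc s π w1) w1.1
    rw [hcon, hcon, hg1 w1 hw1, sub_zero] at this
    rcases hom w1 with h2 | h2 <;> rw [h2] at this <;> norm_num at this
  obtain ⟨ε, hε, hx1⟩ : ∃ ε : ℚ, (ε = 1 ∨ ε = -1) ∧ 0 < ε * h x0 := by
    rcases lt_or_gt_of_ne hx0 with h1 | h1
    · exact ⟨-1, Or.inr rfl, by linarith⟩
    · exact ⟨1, Or.inl rfl, by linarith⟩
  have hεsq : ε * ε = 1 := by rcases hε with h | h <;> rw [h] <;> norm_num
  -- the domain
  set ind : W ⊕ B → ℚ := fun x => if 0 < ε * h x then 1 else 0 with hind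
  set lam : Wh w0 → ℚ := fun w => ind (Sum.inl w.1) - ind (Sum.inr (T.e (cc s π w) w.1)) with hlam
  have hind0 : ∀ k w, g k w = 0 → ind (Sum.inl w) - ind (Sum.inr (T.e k w)) = 0 := by
    intro k w hgz
    have : h (Sum.inl w) = h (Sum.inr (T.e k w)) := by
      have := hh k w; rw [hgz] at this; linarith
    simp only [hind, this, sub_self]
  have hindc : ∀ k w, ind (Sum.inl w) - ind (Sum.inr (T.e k w)) = chain s π O lam k w := by
    intro k w
    by_cases hw : w ≠ w0
    · rw [chain_apply s π O lam k ⟨w, hw⟩]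
      split_ifs with h1
      · rw [hlam]; simp only; rw [← h1.2]
      · apply hind0
        rw [hgdef, chain_apply s π O _ k ⟨w, hw⟩, if_neg h1]
    · push Not at hw
      rw [hw, chain_root]
      apply hind0
      rw [hgdef, chain_root]
  have hlam1 : ∀ w ∈ O, lam w * omf w = 0 ∨ lam w * omf w = ε := by
    intro w hw
    have h1 := hh (cc s π w) w.1
    rw [hg1 w hw] at h1
    have h2 : ε * h (Sum.inl w.1) = ε * h (Sum.inr (T.e (cc s π w) w.1)) + ε * omf w := by
      rw [← h1]; ring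
    simp only [hlam, hind]
    rcases hε with he | he <;> rcases hom w with ho | ho <;> rw [he, ho] at h2 ⊢ <;> push_cast at h2 ⊢ <;>
      split_ifs with a1 a2 a2 <;> first | (left; ring; done) | (right; ring; done) | (exfalso; linarith)
  -- constancy of `lam * om` along the cycle
  have hconst : ∀ w ∈ O, lam (π w) * omf (π w) = lam w * omf w := by
    intro w hw
    have h1 : ∑ u : W, (if T.p (s (π w)).1.1 u = (s (π w)).1 then
        chain s π O lam ((s (π w)).1.1 + 1) u - chain s π O lam ((s (π w)).1.1 + 2) u else 0) = 0 := by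
      have h2 := congrFun (T.inc_delta (F := ℚ) ind) (s (π w)).1
      have h3 := T.inc_apply (F := ℚ) (fun k w => ind (Sum.inl w) - ind (Sum.inr (T.e k w))) (s (π w)).1
      rw [h2] at h3
      simp only [hindc] at h3
      exact h3.symm
    rw [chain_bd_sum s π hv O lam (s (π w)).1] at h1
    have h4 : ∀ u ∈ O, lam u * (om T u.1 (s u).1 (s (π u)).1 : ℚ) *
        ((if (s (π u)).1 = (s (π w)).1 then 1 else 0) - (if (s u).1 = (s (π w)).1 then 1 else 0))
        = (if u = w then lam u * omf u else 0) - (if u = π w then lam u * omf u else 0) := by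
      intro u _
      have e1 : (s (π u)).1 = (s (π w)).1 ↔ u = w := by
        rw [Subtype.val_inj, s.injective.eq_iff, π.injective.eq_iff]
      have e2 : (s u).1 = (s (π w)).1 ↔ u = π w := by
        rw [Subtype.val_inj, s.injective.eq_iff]
      have e3 : (om T u.1 (s u).1 (s (π u)).1 : ℚ) = omf u := rfl
      rw [e3]
      simp only [e1, e2]
      split_ifs <;> ring
    rw [sum_congr rfl h4, sum_sub_distrib, Finset.sum_ite_eq', Finset.sum_ite_eq', if_pos hw,
      if_pos ((hpi w).2 hw)] at h1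
    linarith
  have hconst2 : ∀ w ∈ O, lam w * omf w = lam w1 * omf w1 := by
    intro w hw
    obtain ⟨n, hn⟩ := ((hmem w).1 hw).exists_nat_pow_eq
    have key : ∀ n : ℕ, (π ^ n) w1 ∈ O ∧ lam ((π ^ n) w1) * omf ((π ^ n) w1) = lam w1 * omf w1 := by
      intro n
      induction n with
      | zero => exact ⟨hw1, rfl⟩
      | succ n ih =>
        rw [pow_succ', Equiv.Perm.mul_apply]
        exact ⟨(hpi _).2 ih.1, (hconst _ ih.1).trans ih.2⟩
    rw [← hn]; exact (key n).2
  have hmu : ∀ w ∈ O, lam w * omf w = ε := by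
    rcases hlam1 w1 hw1 with hz | hz
    · exfalso
      have hlz : ∀ w ∈ O, lam w = 0 := by
        intro w hw
        have h1 := hconst2 w hw
        rw [hz] at h1
        have h2 : lam w * omf w * omf w = 0 := by rw [h1, zero_mul]
        rw [mul_assoc, homsq, mul_one] at h2; exact h2
      have h1 : ∀ k w, ind (Sum.inl w) = ind (Sum.inr (T.e k w)) := by
        intro k w
        have h2 := hindc k w
        have h3 : chain s π O lam k w = 0 := by
          by_cases hw : w ≠ w0
          · rw [chain_apply s π O lam k ⟨w, hw⟩]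
            split_ifs with h4
            · exact hlz _ h4.1
            · rfl
          · push Not at hw; rw [hw, chain_root]
        rw [h3] at h2; linarith
      have h5 := T.conn_face hc ind h1 x0 (Sum.inl w0)
      simp only [hind, if_pos hx1, h0, mul_zero, lt_irrefl, if_false] at h5
      norm_num at h5
    · intro w hw; rw [hconst2 w hw, hz]
  have hlam2 : ∀ w ∈ O, lam w = ε * omf w := by
    intro w hw
    rw [← hmu w hw, mul_assoc, homsq, mul_one]
  -- `h = ε * ind`
  have hheq : ∀ x, h x = ε * ind x := by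
    have h1 : ∀ k w, h (Sum.inl w) - ε * ind (Sum.inl w)
        = h (Sum.inr (T.e k w)) - ε * ind (Sum.inr (T.e k w)) := by
      intro k w
      have h2 := hh k w
      have h3 := hindc k w
      have h4 : g k w = ε * chain s π O lam k w := by
        by_cases hw : w ≠ w0
        · rw [hgdef, chain_apply s π O _ k ⟨w, hw⟩, chain_apply s π O lam k ⟨w, hw⟩]
          split_ifs with h5
          · rw [hlam2 _ h5.1, ← mul_assoc, hεsq, one_mul]
          · ring
        · push Not at hw
          rw [hw, hgdef, chain_root, chain_root, mul_zero]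
      rw [h4, ← h3] at h2
      linarith
    intro x
    have h5 := T.conn_face hc (fun x => h x - ε * ind x) h1 x (Sum.inl w0)
    simp only [h0, hind, mul_zero, lt_irrefl, if_false, sub_zero] at h5
    simp only [hind]
    linarith
  -- the sets
  set Dw : Finset W := univ.filter fun w => 0 < ε * h (Sum.inl w) with hDw
  set Db : Finset B := univ.filter fun b => 0 < ε * h (Sum.inr b) with hDb
  have mDw : ∀ w, w ∈ Dw ↔ 0 < ε * h (Sum.inl w) := by intro w; simp [hDw]
  have mDb : ∀ b, b ∈ Db ↔ 0 < ε * h (Sum.inr b) := by intro b; simp [hDb]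
  have hw0D : w0 ∉ Dw := by rw [mDw, h0, mul_zero]; exact lt_irrefl _
  have iDw : ∀ w, ind (Sum.inl w) = if w ∈ Dw then 1 else 0 := by
    intro w; simp only [hind, mDw]
  have iDb : ∀ b, ind (Sum.inr b) = if b ∈ Db then 1 else 0 := by
    intro b; simp only [hind, mDb]
  have hb1 : ∀ d : T.Ed, d ∈ T.bdry Dw Db ↔ ∃ hw : d.2 ≠ w0, (⟨d.2, hw⟩ : Wh w0) ∈ O ∧
      d.1 = cc s π ⟨d.2, hw⟩ := by
    rintro ⟨k, w⟩
    rw [T.mem_bdry]
    have h1 := hindc k w
    rw [iDw, iDb] at h1
    constructor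
    · intro h2
      apply hg2
      intro h3
      have h4 := hind0 k w h3
      rw [iDw, iDb] at h4
      apply h2
      show w ∈ Dw ↔ T.e k w ∈ Db
      split_ifs at h4 with a1 a2 a2
      · exact ⟨fun _ => a2, fun _ => a1⟩
      · norm_num at h4
      · norm_num at h4
      · exact ⟨fun h => absurd h a1, fun h => absurd h a2⟩
    · rintro ⟨hw, h2, h3⟩ h4
      have h5 : chain s π O lam k w = lam ⟨w, hw⟩ := by
        rw [chain_apply s π O lam k ⟨w, hw⟩, if_pos ⟨h2, h3⟩]
      rw [h5, hlam2 _ h2] at h1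
      have h6 : (if w ∈ Dw then (1 : ℚ) else 0) - (if T.e k w ∈ Db then (1 : ℚ) else 0) = 0 := by
        have h4' : w ∈ Dw ↔ T.e k w ∈ Db := h4
        by_cases a : w ∈ Dw
        · rw [if_pos a, if_pos (h4'.1 a)]; ring
        · rw [if_neg a, if_neg (fun h => a (h4'.2 h))]; ring
      rw [h6] at h1
      rcases hε with he | he <;> rcases hom ⟨w, hw⟩ with ho | ho <;> rw [he, ho] at h1 <;> norm_num at h1
  -- counting the boundary
  have hbO : T.bdry Dw Db = O.image (fun w => (cc s π w, w.1)) := by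
    ext d
    rw [hb1, mem_image]
    constructor
    · rintro ⟨hw, h1, h2⟩
      exact ⟨⟨d.2, hw⟩, h1, by rw [← h2]⟩
    · rintro ⟨w, hw, rfl⟩
      exact ⟨w.2, hw, rfl⟩
  have hinj : Function.Injective (fun w : Wh w0 => ((cc s π w, w.1) : T.Ed)) := by
    intro a b hab; exact Subtype.ext (congrArg Prod.snd hab)
  have hbcard : (T.bdry Dw Db).card = O.card := by
    rw [hbO, card_image_of_injective _ hinj]
  have hends : T.ends (T.bdry Dw Db) = O.image (fun w => (s w).1) := by
    ext v
    rw [T.mem_ends, mem_image]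
    constructor
    · rintro ⟨d, hd, hdv⟩
      rw [hbO, mem_image] at hd
      obtain ⟨w, hw, rfl⟩ := hd
      have hdv' : T.p (cc s π w + 1) w.1 = v ∨ T.p (cc s π w + 2) w.1 = v := hdv
      rcases desc s π w (hv w) with ⟨_, h1, h2⟩ | ⟨_, h1, h2⟩
      · rw [h1, h2] at hdv'
        rcases hdv' with h | h
        · exact ⟨w, hw, h⟩
        · exact ⟨π w, (hpi w).2 hw, h⟩
      · rw [h1, h2] at hdv'
        rcases hdv' with h | h
        · exact ⟨π w, (hpi w).2 hw, h⟩
        · exact ⟨w, hw, h⟩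
    · rintro ⟨w, hw, rfl⟩
      refine ⟨(cc s π w, w.1), ?_, ?_⟩
      · rw [hbO]; exact mem_image_of_mem _ hw
      · show T.p (cc s π w + 1) w.1 = (s w).1 ∨ T.p (cc s π w + 2) w.1 = (s w).1
        rcases desc s π w (hv w) with ⟨_, h1, h2⟩ | ⟨_, h1, h2⟩
        · exact Or.inl h1
        · exact Or.inr h2
  have hsinj : Function.Injective (fun w : Wh w0 => (s w).1) := fun a b hab =>
    s.injective (Subtype.ext hab)
  have hecard : (T.ends (T.bdry Dw Db)).card = O.card := by
    rw [hends, card_image_of_injective _ hsinj]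
  have hne1 : Dw.Nonempty ∨ Db.Nonempty := by
    rcases x0 with w | b
    · exact Or.inl ⟨w, (mDw w).2 hx1⟩
    · exact Or.inr ⟨b, (mDb b).2 hx1⟩
  obtain ⟨-, -, c1, c2⟩ := T.disc_count hc hg hne1 (Or.inl ⟨w0, hw0D⟩) (by
    intro f hf x hx y hy
    have key : ∀ w ∈ O, f (s w).1 = f (s w1).1 := by
      have step : ∀ w ∈ O, f (s (π w)).1 = f (s w).1 := by
        intro w hw
        have h1 := hf (cc s π w, w.1) (by rw [hbO]; exact mem_image_of_mem _ hw)
        have h2 : f (T.p (cc s π w + 1) w.1) = f (T.p (cc s π w + 2) w.1) := h1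
        rcases desc s π w (hv w) with ⟨_, h3, h4⟩ | ⟨_, h3, h4⟩
        · rw [h3, h4] at h2; exact h2.symm
        · rw [h3, h4] at h2; exact h2
      intro w hw
      obtain ⟨n, hn⟩ := ((hmem w).1 hw).exists_nat_pow_eq
      have key : ∀ n : ℕ, (π ^ n) w1 ∈ O ∧ f (s ((π ^ n) w1)).1 = f (s w1).1 := by
        intro n
        induction n with
        | zero => exact ⟨hw1, rfl⟩
        | succ n ih =>
          rw [pow_succ', Equiv.Perm.mul_apply]
          exact ⟨(hpi _).2 ih.1, (step _ ih.1).trans ih.2⟩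
      rw [← hn]; exact (key n).2
    rw [hends, mem_image] at hx hy
    obtain ⟨a, ha, rfl⟩ := hx
    obtain ⟨b, hb, rfl⟩ := hy
    rw [key a ha, key b hb]) (by rw [hbcard, hecard])
  -- white faces inside, on the cycle / off the cycle
  set lw := (O.filter fun w => w.1 ∈ Dw).card with hlw
  have hlw1 : ((T.bdry Dw Db).filter (fun d => d.2 ∈ Dw)).card = lw := by
    rw [hbO, Finset.filter_image, card_image_of_injective _ hinj]
  have hlb1 : ((T.bdry Dw Db).filter (fun d => T.e d.1 d.2 ∈ Db)).card + lw = O.card := by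
    have h1 := T.card_bdry (Dw := Dw) (Db := Db)
    omega
  have hinner : (T.inner Dw Db).card + lw = Dw.card := by
    have e1 : (Dw.filter fun w => ∃ hw : w ≠ w0, (⟨w, hw⟩ : Wh w0) ∈ O).card = lw := by
      rw [hlw]
      symm
      refine card_bij (fun w _ => w.1) ?_ ?_ ?_
      · intro w hw
        rw [mem_filter] at hw ⊢
        exact ⟨hw.2, w.2, hw.1⟩
      · intro a _ b _ hab; exact Subtype.ext hab
      · intro w hw
        rw [mem_filter] at hw
        obtain ⟨h1, h2, h3⟩ := hw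
        exact ⟨⟨w, h2⟩, mem_filter.2 ⟨h3, h1⟩, rfl⟩
    have e2 : (Dw.filter fun w => ¬ ∃ hw : w ≠ w0, (⟨w, hw⟩ : Wh w0) ∈ O).card
        = (T.inner Dw Db).card := by
      have hne : ∀ w ∈ Dw, w ≠ w0 := fun w hw h => hw0D (h ▸ hw)
      refine card_bij (fun w hw => (s ⟨w, hne w (mem_filter.1 hw).1⟩).1) ?_ ?_ ?_
      · intro w hw
        rw [mem_filter] at hw
        obtain ⟨h1, h2⟩ := hw
        rw [T.mem_inner]
        have h3 : (s ⟨w, hne w h1⟩).1 ∉ T.ends (T.bdry Dw Db) := by
          rw [hends, mem_image]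
          rintro ⟨u, hu, hu2⟩
          have := hsinj hu2
          apply h2
          exact ⟨hne w h1, by rw [← this]; exact hu⟩
        refine ⟨h3, ?_⟩
        intro k u hu
        exact (T.star h3 (om_ne_zero (hv ⟨w, hne w h1⟩)).1 hu).1 h1
      · intro a ha b hb hab
        have := s.injective (Subtype.ext hab)
        exact congrArg Subtype.val this
      · intro v hv'
        rw [T.mem_inner] at hv'
        obtain ⟨h1, h2⟩ := hv'
        have h3 : ∀ i, T.p i w0 ≠ v := fun i h => hw0D (h2 i w0 h)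
        set w := s.symm ⟨v, h3⟩ with hw
        have h4 : (s w).1 = v := by rw [hw, s.apply_symm_apply]
        have h5 : T.p (s w).1.1 w.1 = (s w).1 := (om_ne_zero (hv w)).1
        have h6 : w.1 ∈ Dw := h2 _ w.1 (h5.trans h4)
        refine ⟨w.1, mem_filter.2 ⟨h6, ?_⟩, h4⟩
        rintro ⟨h7, h8⟩
        apply h1
        rw [hends, mem_image]
        exact ⟨w, h8, h4⟩
    rw [← e1, ← e2, add_comm]
    exact card_filter_add_card_filter_not _
  have hOc : O.card = 2 * lw + 3 := by omega
  have hDbc : Db.card = Dw.card + 1 := by omega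
  -- the product
  have hprod : (∏ w ∈ O, (omf w : ℚ)) = ε * (-1) ^ (lw + 1) := by
    have e1 : ∀ w ∈ O, (omf w : ℚ) = if w.1 ∈ Dw then ε else -ε := by
      intro w hw
      have h1 := hlam2 w hw
      have h2 : (omf w : ℚ) = ε * lam w := by rw [h1, ← mul_assoc, hεsq, one_mul]
      have h3 : ¬ (w.1 ∈ Dw ↔ T.e (cc s π w) w.1 ∈ Db) := by
        have : ((cc s π w, w.1) : T.Ed) ∈ T.bdry Dw Db := by rw [hbO]; exact mem_image_of_mem _ hw
        exact T.mem_bdry.1 this
      rw [h2, hlam]
      simp only [iDw, iDb]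
      by_cases a : w.1 ∈ Dw
      · have b : T.e (cc s π w) w.1 ∉ Db := fun b => h3 ⟨fun _ => b, fun _ => a⟩
        rw [if_pos a, if_neg b, if_pos a]; ring
      · have b : T.e (cc s π w) w.1 ∈ Db := by
          by_contra b; exact h3 ⟨fun h => absurd h a, fun h => absurd h b⟩
        rw [if_neg a, if_pos b, if_neg a]; ring
    rw [prod_congr rfl e1, prod_ite, prod_const, prod_const, ← hlw]
    have e2 : (O.filter fun w => ¬ w.1 ∈ Dw).card = lw + 3 := by
      have := card_filter_add_card_filter_not (s := O) (fun w : Wh w0 => w.1 ∈ Dw)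
      omega
    rw [e2]
    rcases hε with he | he <;> rw [he]
    · rw [one_pow, one_mul, one_mul, pow_add, pow_add]; norm_num
    · rw [neg_neg, one_pow, mul_one, pow_add]; ring
  have hsum : ((∑ w ∈ O, (phi (s (π w)).1.1 w.1 - phi (s w).1.1 w.1) : ℤ) : ℚ) = ε * Db.card := by
    have h1 := hphi g (fun w => h (Sum.inl w)) (fun b => h (Sum.inr b))
      (fun k w => (hh k w).symm) h0 (fun k => by rw [hgdef]; exact chain_root s π O _ k)
    have h2 : ∑ b, h (Sum.inr b) = ε * Db.card := by
      have : ∀ b, h (Sum.inr b) = ε * (if b ∈ Db then 1 else 0) := by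
        intro b; rw [hheq, iDb]
      rw [sum_congr rfl (fun b _ => this b), ← mul_sum, Finset.sum_ite_mem, univ_inter, sum_const,
        nsmul_eq_mul, mul_one]
    rw [h2] at h1
    rw [← h1, sum_wh (w0 := w0) _ (by
      refine sum_eq_zero (fun k _ => ?_)
      rw [hgdef, chain_root, zero_mul])]
    have h3 : ∀ w : Wh w0, ∑ k, g k w.1 * ((phi (k + 2) w.1 - phi (k + 1) w.1 : ℤ) : ℚ)
        = if w ∈ O then ((phi (s (π w)).1.1 w.1 - phi (s w).1.1 w.1 : ℤ) : ℚ) else 0 := by
      intro w
      have e1 : ∀ k, g k w.1 * ((phi (k + 2) w.1 - phi (k + 1) w.1 : ℤ) : ℚ)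
          = if k = cc s π w then (if w ∈ O then (omf w : ℚ) *
            ((phi (cc s π w + 2) w.1 - phi (cc s π w + 1) w.1 : ℤ) : ℚ) else 0) else 0 := by
        intro k
        rw [hgdef, chain_apply]
        by_cases a : k = cc s π w
        · rw [if_pos a, a]
          by_cases b : w ∈ O
          · rw [if_pos b, if_pos ⟨b, rfl⟩]
          · rw [if_neg b, if_neg (fun h => b h.1), zero_mul]
        · rw [if_neg a, if_neg (fun h => a h.2), zero_mul]
      rw [sum_congr rfl (fun k _ => e1 k), Finset.sum_ite_eq', if_pos (mem_univ _)]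
      split_ifs with b
      · rcases desc s π w (hv w) with ⟨h4, h5, h6⟩ | ⟨h4, h5, h6⟩
        · have h4' : omf w = 1 := h4
          have c5 : cc s π w + 1 = (s w).1.1 := by rw [← h5]; rfl
          have c6 : cc s π w + 2 = (s (π w)).1.1 := by rw [← h6]; rfl
          rw [h4', c5, c6]; push_cast; ring
        · have h4' : omf w = -1 := h4
          have c5 : cc s π w + 1 = (s (π w)).1.1 := by rw [← h5]; rfl
          have c6 : cc s π w + 2 = (s w).1.1 := by rw [← h6]; rfl
          rw [h4', c5, c6]; push_cast; ring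
      · rfl
    rw [sum_congr rfl (fun w _ => h3 w), Finset.sum_ite_mem, univ_inter]
    push_cast
    rfl
  have hodd : Odd O.card := ⟨lw + 1, by omega⟩
  refine ⟨hodd, ?_⟩
  have hexp : (O.card - 1) / 2 = lw + 1 := by omega
  rw [hexp]
  have hfin : (((-1 : ℤ) ^ (lw + 1) * (∏ w ∈ O, om T w.1 (s w).1 (s (π w)).1) *
      ∑ w ∈ O, (phi (s (π w)).1.1 w.1 - phi (s w).1.1 w.1) : ℤ) : ℚ) = Db.card := by
    have e1 : ((∏ w ∈ O, om T w.1 (s w).1 (s (π w)).1 : ℤ) : ℚ) = ∏ w ∈ O, (omf w : ℚ) := by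
      push_cast; rfl
    rw [Int.cast_mul, Int.cast_mul, e1, hprod, hsum]
    push_cast
    have e2 : ((-1 : ℚ) ^ (lw + 1)) * ((-1) ^ (lw + 1)) = 1 := by
      rw [← mul_pow]; norm_num
    calc ((-1 : ℚ) ^ (lw + 1)) * (ε * (-1) ^ (lw + 1)) * (ε * Db.card)
        = (((-1 : ℚ) ^ (lw + 1)) * ((-1) ^ (lw + 1))) * (ε * ε) * Db.card := by ring
      _ = Db.card := by rw [e2, hεsq]; ring
  have hpos : (0 : ℚ) < Db.card := by
    have : 0 < Db.card := by omega
    exact_mod_cast this
  rw [← hfin] at hpos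
  exact_mod_cast hpos

/-- BLOCK B2 -/
theorem blockSum : BlockSum := by
  refine blockSum_of ?_
  intro W B _ _ _ _ T hc hg w0
  obtain ⟨phi, hphi⟩ := T.exists_phi hc w0
  refine ⟨fun w a => phi a.1.1 w.1, ?_⟩
  intro s π hv O hO
  exact orbit_facts hc hg phi (fun g hW hB => hphi ℚ g hW hB) s π hv O hO

end Crest.Agent.R039.Orb563
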