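import Crest.Agent.R039.TriEx995

/-!
# Row 39: from the parent colouring of a rooted cycle cover to a pair of matchings

`exists_pair` : let `pc w` be the colour of the parent vertex of the white face `w`, such that every
vertex off the root face `w0` is a non-parent vertex of exactly two white faces `≠ w0` and non-parent
vertices are off the root.  Then there are `ms, mt : W → ZMod 3` such that `ms w, mt w, pc w` are
pairwise distinct and both `w ↦ T.p (ms w) w`, `w ↦ T.p (mt w) w` are bijections from the white faces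
`≠ w0` to the vertices off `w0`.
-/

set_option autoImplicit false

namespace Crest.Agent.R039.Pair

open Finset

variable {W B : Type*} [Fintype W] [Fintype B] [DecidableEq W] [DecidableEq B]

theorem third (a b : ZMod 3) (h : a ≠ b) : -(a + b) ≠ a ∧ -(a + b) ≠ b := by
  revert a b; decide

theorem third_unique (a b c : ZMod 3) (h : a ≠ b) (h1 : c ≠ a) (h2 : c ≠ b) : c = -(a + b) := by
  revert a b c; decide

theorem exists_pair (T : Tri W B) (w0 : W) (pc : W → ZMod 3)
    (h1 : ∀ v : T.Vert, (∀ i, T.p i w0 ≠ v) →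
      (univ.filter fun w => w ≠ w0 ∧ T.p v.1 w = v ∧ pc w ≠ v.1).card = 2)
    (h2 : ∀ w, w ≠ w0 → ∀ i, i ≠ pc w → ∀ j, T.p j w0 ≠ T.p i w) :
    ∃ ms mt : W → ZMod 3,
      (∀ w, ms w ≠ pc w ∧ mt w ≠ pc w ∧ ms w ≠ mt w) ∧
      (∀ w w', w ≠ w0 → w' ≠ w0 → T.p (ms w) w = T.p (ms w') w' → w = w') ∧
      (∀ w w', w ≠ w0 → w' ≠ w0 → T.p (mt w) w = T.p (mt w') w' → w = w') ∧
      (∀ v : T.Vert, (∀ i, T.p i w0 ≠ v) → ∃ w, w ≠ w0 ∧ T.p (ms w) w = v) ∧
      (∀ v : T.Vert, (∀ i, T.p i w0 ≠ v) → ∃ w, w ≠ w0 ∧ T.p (mt w) w = v) := by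
  classical
  -- the vertices off the root
  let V' : Finset T.Vert := univ.filter fun v => ∀ i, T.p i w0 ≠ v
  have hV' : ∀ v, v ∈ V' ↔ ∀ i, T.p i w0 ≠ v := by intro v; simp [V']
  -- non-parent vertices
  let t : {w : W // w ≠ w0} → Finset T.Vert := fun w =>
    V'.filter fun v => T.p v.1 w.1 = v ∧ pc w.1 ≠ v.1
  have ht : ∀ w v, v ∈ t w ↔ (∀ i, T.p i w0 ≠ v) ∧ T.p v.1 w.1 = v ∧ pc w.1 ≠ v.1 := by
    intro w v; simp only [t, mem_filter, hV']
  have htcard : ∀ w, (t w).card = 2 := by
    intro w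
    have e : t w = ((univ : Finset (ZMod 3)).erase (pc w.1)).image (fun i => T.p i w.1) := by
      ext v
      rw [ht]
      simp only [mem_image, mem_erase, mem_univ, and_true]
      constructor
      · rintro ⟨_, h3, h4⟩
        exact ⟨v.1, h4.symm, h3⟩
      · rintro ⟨i, hi, rfl⟩
        exact ⟨fun j => h2 w.1 w.2 i hi j, rfl, fun h => hi h.symm⟩
    rw [e, card_image_of_injective, card_erase_of_mem (mem_univ _), card_univ, ZMod.card]
    intro i j hij
    exact (T.p_eq_iff.1 hij).1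
  have hdeg : ∀ v ∈ V', (univ.filter fun w : {w : W // w ≠ w0} => v ∈ t w).card = 2 := by
    intro v hv
    have hv' := (hV' v).1 hv
    rw [← h1 v hv']
    refine card_bij (fun w _ => w.1) ?_ ?_ ?_
    · intro w hw
      simp only [mem_filter, mem_univ, true_and, ht] at hw ⊢
      exact ⟨w.2, hw.2.1, hw.2.2⟩
    · intro a _ b _ h; exact Subtype.ext h
    · intro w hw
      simp only [mem_filter, mem_univ, true_and] at hw
      exact ⟨⟨w, hw.1⟩, by simp only [mem_filter, mem_univ, true_and, ht]; exact ⟨hv', hw.2.1, hw.2.2⟩,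
        rfl⟩
  -- double counting
  have hdc : ∀ s : Finset {w : W // w ≠ w0}, ∀ A : Finset T.Vert, (∀ w ∈ s, t w ⊆ A) → A ⊆ V' →
      2 * s.card ≤ 2 * A.card := by
    intro s A hsA hAV
    have e1 : ∑ w ∈ s, (t w).card = ∑ w ∈ s, (A.filter fun v => v ∈ t w).card := by
      refine sum_congr rfl (fun w hw => ?_)
      congr 1
      ext v
      simp only [mem_filter]
      exact ⟨fun h => ⟨hsA w hw h, h⟩, fun h => h.2⟩
    have e2 : ∑ w ∈ s, (A.filter fun v => v ∈ t w).card
        = ∑ v ∈ A, (s.filter fun w => v ∈ t w).card :=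
      sum_card_bipartiteAbove_eq_sum_card_bipartiteBelow (fun w v => v ∈ t w)
    have e3 : ∑ v ∈ A, (s.filter fun w => v ∈ t w).card ≤ ∑ v ∈ A, 2 := by
      refine sum_le_sum (fun v hv => ?_)
      rw [← hdeg v (hAV hv)]
      exact card_le_card (filter_subset_filter _ (subset_univ _))
    have e4 : ∑ w ∈ s, (t w).card = 2 * s.card := by
      rw [sum_congr rfl (fun w _ => htcard w), sum_const, smul_eq_mul, mul_comm]
    rw [sum_const, smul_eq_mul, mul_comm] at e3
    omega
  have hcard : V'.card = Fintype.card {w : W // w ≠ w0} := by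
    have e2 : ∑ w : {w : W // w ≠ w0}, (V'.filter fun v => v ∈ t w).card
        = ∑ v ∈ V', ((univ : Finset {w : W // w ≠ w0}).filter fun w => v ∈ t w).card :=
      sum_card_bipartiteAbove_eq_sum_card_bipartiteBelow (fun w v => v ∈ t w)
    have e1 : ∑ w : {w : W // w ≠ w0}, (V'.filter fun v => v ∈ t w).card = ∑ w, (t w).card := by
      refine sum_congr rfl (fun w _ => ?_)
      congr 1
      ext v
      simp only [mem_filter, ht, hV']
      tauto
    rw [e1, sum_congr rfl (fun w _ => htcard w), sum_congr rfl hdeg, sum_const, sum_const,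
      smul_eq_mul, smul_eq_mul, card_univ] at e2
    omega
  -- Hall
  obtain ⟨f, hf, hft⟩ := (Finset.all_card_le_biUnion_card_iff_exists_injective t).1 (by
    intro s
    have := hdc s (s.biUnion t) (fun w hw => subset_biUnion_of_mem t hw) (by
      intro v hv
      obtain ⟨w, _, hw⟩ := mem_biUnion.1 hv
      exact (mem_filter.1 hw).1)
    omega)
  have hf1 : ∀ w, T.p (f w).1 w.1 = f w := fun w => ((ht _ _).1 (hft w)).2.1
  have hf2 : ∀ w, pc w.1 ≠ (f w).1 := fun w => ((ht _ _).1 (hft w)).2.2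
  have himg : univ.image f = V' := by
    refine eq_of_subset_of_card_le ?_ ?_
    · intro v hv
      obtain ⟨w, _, rfl⟩ := mem_image.1 hv
      exact (mem_filter.1 (hft w)).1
    · rw [card_image_of_injective _ hf, card_univ, hcard]
  let ms : W → ZMod 3 := fun w => if h : w ≠ w0 then (f ⟨w, h⟩).1 else pc w + 1
  let mt : W → ZMod 3 := fun w => -(pc w + ms w)
  have hms : ∀ w : {w : W // w ≠ w0}, ms w.1 = (f w).1 := by
    intro w
    simp only [ms, dif_pos w.2]
  have hne : ∀ w, ms w ≠ pc w := by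
    intro w
    by_cases h : w ≠ w0
    · rw [hms ⟨w, h⟩]; exact (hf2 ⟨w, h⟩).symm
    · simp only [ms, dif_neg h]
      have : ∀ a : ZMod 3, a + 1 ≠ a := by decide
      exact this _
  have hne2 : ∀ w, mt w ≠ pc w ∧ mt w ≠ ms w := fun w => third _ _ (hne w).symm
  have hmsp : ∀ w : {w : W // w ≠ w0}, T.p (ms w.1) w.1 = f w := by
    intro w; rw [hms]; exact hf1 w
  have hmt_mem : ∀ w : {w : W // w ≠ w0}, T.p (mt w.1) w.1 ∈ t w := by
    intro w
    rw [ht]
    exact ⟨fun j => h2 w.1 w.2 _ (hne2 w.1).1 j, rfl, fun h => (hne2 w.1).1 h.symm⟩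
  have hmtinj : ∀ a b : {w : W // w ≠ w0}, T.p (mt a.1) a.1 = T.p (mt b.1) b.1 → a = b := by
    intro a b hab
    by_contra hcon
    set v := T.p (mt a.1) a.1 with hv
    have hva : v ∈ t a := hmt_mem a
    have hvb : v ∈ t b := by rw [hab]; exact hmt_mem b
    have hvV : v ∈ V' := (mem_filter.1 hva).1
    obtain ⟨c, _, hc⟩ := mem_image.1 (himg ▸ hvV)
    have hvc : v ∈ t c := by rw [← hc]; exact hft c
    have hca : c ≠ a := by
      rintro rfl
      have h3 : T.p (ms c.1) c.1 = T.p (mt c.1) c.1 := by rw [hmsp, hc]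
      exact (hne2 c.1).2 (T.p_eq_iff.1 h3).1.symm
    have hcb : c ≠ b := by
      rintro rfl
      have h3 : T.p (ms c.1) c.1 = T.p (mt c.1) c.1 := by rw [hmsp, hc]; exact hab
      exact (hne2 c.1).2 (T.p_eq_iff.1 h3).1.symm
    have h3 : ({a, b, c} : Finset {w : W // w ≠ w0}) ⊆ univ.filter fun w => v ∈ t w := by
      intro w hw
      simp only [mem_insert, mem_singleton] at hw
      simp only [mem_filter, mem_univ, true_and]
      rcases hw with rfl | rfl | rfl <;> assumption
    have h4 := card_le_card h3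
    rw [hdeg v hvV, card_insert_of_notMem, card_insert_of_notMem, card_singleton] at h4
    · omega
    · simp only [mem_singleton]; exact fun h => hcb h.symm
    · simp only [mem_insert, mem_singleton, not_or]; exact ⟨hcon, fun h => hca h.symm⟩
  have himg2 : univ.image (fun w : {w : W // w ≠ w0} => T.p (mt w.1) w.1) = V' := by
    refine eq_of_subset_of_card_le ?_ ?_
    · intro v hv
      obtain ⟨w, _, rfl⟩ := mem_image.1 hv
      exact (mem_filter.1 (hmt_mem w)).1
    · rw [card_image_of_injective _ (fun a b h => hmtinj a b h), card_univ, hcard]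
  refine ⟨ms, mt, fun w => ⟨hne w, (hne2 w).1, (hne2 w).2.symm⟩, ?_, ?_, ?_, ?_⟩
  · intro w w' hw hw' h
    have h' : f ⟨w, hw⟩ = f ⟨w', hw'⟩ := by rw [← hmsp, ← hmsp]; exact h
    exact congrArg Subtype.val (hf h')
  · intro w w' hw hw' h
    exact congrArg Subtype.val (hmtinj ⟨w, hw⟩ ⟨w', hw'⟩ h)
  · intro v hv
    have hvV := (hV' v).2 hv
    rw [← himg] at hvV
    obtain ⟨w, _, hw⟩ := mem_image.1 hvV
    exact ⟨w.1, w.2, by rw [hmsp]; exact hw⟩
  · intro v hv
    have hvV := (hV' v).2 hv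
    rw [← himg2] at hvV
    obtain ⟨w, _, hw⟩ := mem_image.1 hvV
    exact ⟨w.1, w.2, hw⟩

end Crest.Agent.R039.Pair
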