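import Crest.Agent.R039.Sum409B
import Crest.Agent.R039.Defs29

/-!
# Row 39, block B4: gluing along three-edge cuts and the induction
-/

set_option autoImplicit false
set_option linter.unusedSectionVars false

namespace Crest.Agent.R039.Sum3

open Crest.Agent.R039

section ham

variable {W B : Type*} {T : Tri W B}

/-- symmetric form of `Ham` -/
def HamY (T : Tri W B) (m : W → ZMod 3) : Prop :=
  Function.Bijective (fun w => T.e (m w) w) ∧
    ∀ (Y : W → Prop) (Z : B → Prop), (∀ v k, k ≠ m v → (Y v ↔ Z (T.e k v))) →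
      ∀ v v', Y v → Y v'

theorem hamY_iff {m : W → ZMod 3} : HamY T m ↔ T.Ham m := by
  constructor
  · rintro ⟨h1, h2⟩
    refine ⟨h1, fun S hS hcl => ?_⟩
    obtain ⟨v, hv⟩ := hS
    ext v'
    refine ⟨fun _ => trivial, fun _ => ?_⟩
    refine h2 (fun u => u ∈ S) (fun b => ∃ u ∈ S, ∃ c, c ≠ m u ∧ T.e c u = b) ?_ v v' hv
    intro u k hk
    constructor
    · intro hu; exact ⟨u, hu, k, hk, rfl⟩
    · rintro ⟨u', hu', c, hc, he⟩
      exact hcl u' hu' u c k hc hk he
  · rintro ⟨h1, h2⟩
    refine ⟨h1, fun Y Z hYZ v v' hv => ?_⟩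
    have := h2 {u | Y u} ⟨v, hv⟩ (by
      intro u hu u' c c' hc hc' he
      show Y u'
      rw [hYZ u' c' hc', ← he, ← hYZ u c hc]
      exact hu)
    have h3 : v' ∈ (Set.univ : Set W) := trivial
    rw [← this] at h3
    exact h3

theorem ham_op {m : W → ZMod 3} (hm : HamY T m) :
    ∃ m' : B → ZMod 3, HamY (op T) m' ∧ ∀ w, m' (T.e (m w) w) = m w := by
  obtain ⟨h1, h2⟩ := hm
  let σ : W ≃ B := Equiv.ofBijective _ h1
  have hσ : ∀ w, σ w = T.e (m w) w := fun _ => rfl
  have hm' : ∀ w, m (σ.symm (T.e (m w) w)) = m w := by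
    intro w; rw [← hσ, Equiv.symm_apply_apply]
  have hk : ∀ b k, k = m (σ.symm b) ↔ k = m ((T.e k).symm b) := by
    intro b k
    obtain ⟨u, rfl⟩ := σ.surjective b
    rw [Equiv.symm_apply_apply, hσ]
    constructor
    · intro h; rw [← h, Equiv.symm_apply_apply]; exact h
    · intro h
      -- both `u` and `v := (e k)⁻¹ (σ u)` are matched to `σ u`
      have h3 : σ ((T.e k).symm (T.e (m u) u)) = σ u := by
        rw [hσ, ← h, Equiv.apply_symm_apply, hσ]
      have h4 := σ.injective h3
      rw [h4] at h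
      exact h
  refine ⟨fun b => m (σ.symm b), ⟨?_, ?_⟩, hm'⟩
  · have : (fun b => (op T).e (m (σ.symm b)) b) = σ.symm := by
      funext b
      obtain ⟨u, rfl⟩ := σ.surjective b
      rw [Equiv.symm_apply_apply, hσ]
      show (T.e (m u)).symm (T.e (m u) u) = u
      rw [Equiv.symm_apply_apply]
    rw [this]
    exact σ.symm.bijective
  · intro Y Z hYZ
    have h3 := h2 Z Y (fun v k hkv => by
      have h4 := hYZ (T.e k v) k (by
        intro h5
        rw [hk, Equiv.symm_apply_apply] at h5
        exact hkv h5)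
      rw [h4]
      show Z v ↔ Z ((T.e k).symm (T.e k v))
      rw [Equiv.symm_apply_apply])
    have hne : ∀ c : ZMod 3, c + 1 ≠ c := by decide
    have h4 : ∀ b, Y b ↔ Z ((T.e (m (σ.symm b) + 1)).symm b) := fun b => hYZ b _ (hne _)
    intro b b' hb
    rw [h4] at hb ⊢
    exact h3 _ _ hb

theorem star_op (h : T.Star) : (op T).Star := by
  intro b0 c0
  obtain ⟨m, hm, hc⟩ := h ((T.e c0).symm b0) c0
  obtain ⟨m', hm', he⟩ := ham_op (hamY_iff.2 hm)
  refine ⟨m', hamY_iff.1 hm', ?_⟩
  have := he ((T.e c0).symm b0)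
  rw [hc, Equiv.apply_symm_apply] at this
  exact this

end ham

section glue

variable {W B : Type*} {T : Tri W B} {P : W → Prop} {Q : B → Prop} {w : ZMod 3 → W}

theorem out_some (h : Cut T P Q w) (k : ZMod 3) (v : {v // ¬ P v}) :
    ((op (inn h.op)).e k (some v)).1 = T.e k v.1 := by
  show (((inn h.op).e k).symm (some v)).1 = _
  rw [inn_symm_some]
  rfl

theorem out_none (h : Cut T P Q w) (k : ZMod 3) :
    ((op (inn h.op)).e k none).1 = T.e k (w k) := by
  show (((inn h.op).e k).symm none).1 = _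
  rw [inn_symm_none]

/-- the two edges of the 2-factor in the cut have the same value -/
theorem parity [Fintype W] [Fintype B] (h : Cut T P Q w) (m1 : {v // P v} → ZMod 3)
    (hb : Function.Bijective (fun v => (inn h).e (m1 v) v)) (j : ZMod 3)
    (hj : m1 ⟨w j, h.hP j⟩ = j) (Y : {v // P v} → Prop) (Z : B → Prop)
    (hYZ : ∀ v k, k ≠ m1 v → (Y v ↔ Z (T.e k v.1))) :
    Z (T.e (j + 1) (w (j + 1))) ↔ Z (T.e (j + 2) (w (j + 2))) := by
  classical
  -- indicators
  set yi : {v // P v} → ZMod 2 := fun v => if Y v then 1 else 0 with hyi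
  set zi : B → ZMod 2 := fun b => if Z b then 1 else 0 with hzi
  set ζ : ZMod 3 → Option {b // Q b} → ZMod 2 := fun k o => match o with
    | none => zi (T.e k (w k))
    | some b => zi b.1 with hζ
  have huniq : ∀ v : {v // P v}, ¬ Q (T.e (m1 v) v.1) → m1 v = j := by
    intro v hv
    have e1 : (inn h).e (m1 v) v = none := inn_none h _ v hv
    have e2 : (inn h).e (m1 ⟨w j, h.hP j⟩) ⟨w j, h.hP j⟩ = none := by rw [hj]; exact inn_w h j
    have e3 := hb.1 (e1.trans e2.symm)
    rw [e3]; exact hj
  have s1 : ∀ k, ∑ v : {v // P v}, zi (T.e k v.1)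
      = zi (T.e k (w k)) + ∑ b : {b // Q b}, zi b.1 := by
    intro k
    have e1 : ∀ v : {v // P v}, zi (T.e k v.1) = ζ k ((inn h).e k v) := by
      intro v
      by_cases hq : Q (T.e k v.1)
      · rw [inn_some h k v hq]
      · rw [inn_none h k v hq, h.eq_w k v.2 hq]
    rw [Finset.sum_congr rfl (fun v _ => e1 v), Equiv.sum_comp ((inn h).e k) (ζ k),
      Fintype.sum_option]
  have s2 : ∑ v : {v // P v}, zi (T.e (m1 v) v.1)
      = zi (T.e j (w j)) + ∑ b : {b // Q b}, zi b.1 := by
    have e1 : ∀ v : {v // P v}, zi (T.e (m1 v) v.1) = ζ j ((inn h).e (m1 v) v) := by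
      intro v
      by_cases hq : Q (T.e (m1 v) v.1)
      · rw [inn_some h _ v hq]
      · have e2 := huniq v hq
        rw [inn_none h _ v hq]
        show zi (T.e (m1 v) v.1) = zi (T.e j (w j))
        rw [h.eq_w _ v.2 hq, e2]
    have e3 := Function.Bijective.sum_comp hb (ζ j)
    rw [Finset.sum_congr rfl (fun v _ => e1 v), e3, Fintype.sum_option]
  have s3 : ∀ v : {v // P v}, ∑ k : ZMod 3, zi (T.e k v.1) = zi (T.e (m1 v) v.1) := by
    intro v
    have e1 : ∀ k, k ≠ m1 v → zi (T.e k v.1) = yi v := by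
      intro k hk
      have := hYZ v k hk
      rw [hyi, hzi]
      by_cases hy : Y v
      · simp only [if_pos hy, if_pos (this.1 hy)]
      · simp only [if_neg hy, if_neg (fun h' => hy (this.2 h'))]
    have e2 : ∀ c k : ZMod 3, k = c ∨ k = c + 1 ∨ k = c + 2 := by decide
    have e3 : ∀ (f : ZMod 3 → ZMod 2) (c : ZMod 3), ∑ k, f k = f c + f (c + 1) + f (c + 2) := by
      intro f c
      rw [Bic.sum_zmod3]
      have e4 : ∀ c : ZMod 3, c = 0 ∨ c = 1 ∨ c = 2 := by decide
      rcases e4 c with rfl | rfl | rfl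
      · have a1 : (0 : ZMod 3) + 1 = 1 := by decide
        have a2 : (0 : ZMod 3) + 2 = 2 := by decide
        rw [a1, a2]
      · have a1 : (1 : ZMod 3) + 1 = 2 := by decide
        have a2 : (1 : ZMod 3) + 2 = 0 := by decide
        rw [a1, a2]; ring
      · have a1 : (2 : ZMod 3) + 1 = 0 := by decide
        have a2 : (2 : ZMod 3) + 2 = 1 := by decide
        rw [a1, a2]; ring
    have n1 : ∀ c : ZMod 3, c + 1 ≠ c := by decide
    have n2 : ∀ c : ZMod 3, c + 2 ≠ c := by decide
    rw [e3 _ (m1 v), e1 _ (n1 _), e1 _ (n2 _), add_assoc, CharTwo.add_self_eq_zero, add_zero]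
  have s4 : ∑ k : ZMod 3, (zi (T.e k (w k)) + ∑ b : {b // Q b}, zi b.1)
      = zi (T.e j (w j)) + ∑ b : {b // Q b}, zi b.1 := by
    rw [← s2, ← Finset.sum_congr rfl (fun v _ => s3 v), Finset.sum_comm]
    exact Finset.sum_congr rfl (fun k _ => (s1 k).symm)
  have s5 : zi (T.e (j + 1) (w (j + 1))) = zi (T.e (j + 2) (w (j + 2))) := by
    have e4 : ∀ c : ZMod 3, c = 0 ∨ c = 1 ∨ c = 2 := by decide
    rw [Bic.sum_zmod3] at s4
    generalize (∑ b : {b // Q b}, zi b.1) = S at s4
    have key : ∀ a b c S : ZMod 2, (a + S + (b + S) + (c + S) = a + S → b = c) ∧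
        (a + S + (b + S) + (c + S) = b + S → c = a) ∧
        (a + S + (b + S) + (c + S) = c + S → a = b) := by decide
    rcases e4 j with rfl | rfl | rfl
    · have a1 : (0 : ZMod 3) + 1 = 1 := by decide
      have a2 : (0 : ZMod 3) + 2 = 2 := by decide
      rw [a1, a2]
      exact (key _ _ _ _).1 s4
    · have a1 : (1 : ZMod 3) + 1 = 2 := by decide
      have a2 : (1 : ZMod 3) + 2 = 0 := by decide
      rw [a1, a2]
      exact (key _ _ _ _).2.1 s4
    · have a1 : (2 : ZMod 3) + 1 = 0 := by decide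
      have a2 : (2 : ZMod 3) + 2 = 1 := by decide
      rw [a1, a2]
      exact (key _ _ _ _).2.2 s4
  rw [hzi] at s5
  by_cases c1 : Z (T.e (j + 1) (w (j + 1))) <;> by_cases c2 : Z (T.e (j + 2) (w (j + 2)))
  · exact ⟨fun _ => c2, fun _ => c1⟩
  · simp only [if_pos c1, if_neg c2] at s5
    exact absurd s5 one_ne_zero
  · simp only [if_neg c1, if_pos c2] at s5
    exact absurd s5.symm one_ne_zero
  · exact ⟨fun h => absurd h c1, fun h => absurd h c2⟩

open Classical in
/-- gluing two Hamiltonian 2-factors -/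
theorem glue [Fintype W] [Fintype B] (h : Cut T P Q w) (m1 : {v // P v} → ZMod 3)
    (m2 : Option {v // ¬ P v} → ZMod 3) (h1 : HamY (inn h) m1) (h2 : HamY (op (inn h.op)) m2)
    (j : ZMod 3) (hj : m1 ⟨w j, h.hP j⟩ = j) (hj2 : m2 none = j) :
    HamY T (fun v => if hv : P v then m1 ⟨v, hv⟩ else m2 (some ⟨v, hv⟩)) := by
  set m : W → ZMod 3 := fun v => if hv : P v then m1 ⟨v, hv⟩ else m2 (some ⟨v, hv⟩) with hm
  have hm1 : ∀ v : {v // P v}, m v.1 = m1 v := fun v => dif_pos v.2
  have hm2 : ∀ v : {v // ¬ P v}, m v.1 = m2 (some v) := fun v => dif_neg v.2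
  have hne1 : ∀ c : ZMod 3, c + 1 ≠ c := by decide
  have hcol : ∀ c k : ZMod 3, k ≠ c → k = c + 1 ∨ k = c + 2 := by decide
  -- uniqueness of the matched cut edge
  have huniq : ∀ v : {v // P v}, ¬ Q (T.e (m1 v) v.1) → v.1 = w j ∧ m1 v = j := by
    intro v hv
    have e1 : (inn h).e (m1 v) v = none := inn_none h _ v hv
    have e2 : (inn h).e (m1 ⟨w j, h.hP j⟩) ⟨w j, h.hP j⟩ = none := by rw [hj]; exact inn_w h j
    have e3 := h1.1.1 (e1.trans e2.symm)
    rw [e3]; exact ⟨rfl, hj⟩
  refine ⟨?_, ?_⟩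
  · -- the matching
    have hinj : Function.Injective (fun v => T.e (m v) v) := by
      intro v v' hvv'
      have hvv : T.e (m v) v = T.e (m v') v' := hvv'
      by_cases hv : P v <;> by_cases hv' : P v'
      · have a1 := hm1 ⟨v, hv⟩
        have a2 := hm1 ⟨v', hv'⟩
        simp only at a1 a2
        rw [a1, a2] at hvv
        by_cases hq : Q (T.e (m1 ⟨v, hv⟩) v)
        · have hq' : Q (T.e (m1 ⟨v', hv'⟩) v') := by rw [← hvv]; exact hq
          have e1 : (inn h).e (m1 ⟨v, hv⟩) ⟨v, hv⟩ = (inn h).e (m1 ⟨v', hv'⟩) ⟨v', hv'⟩ := by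
            rw [inn_some h _ ⟨v, hv⟩ hq, inn_some h _ ⟨v', hv'⟩ hq']
            congr 1
            exact Subtype.ext hvv
          exact congrArg Subtype.val (h1.1.1 e1)
        · have hq' : ¬ Q (T.e (m1 ⟨v', hv'⟩) v') := by rw [← hvv]; exact hq
          exact (huniq ⟨v, hv⟩ hq).1.trans (huniq ⟨v', hv'⟩ hq').1.symm
      · exfalso
        have a1 := hm1 ⟨v, hv⟩
        have a2 := hm2 ⟨v', hv'⟩
        simp only at a1 a2
        rw [a1, a2] at hvv
        have hq' : ¬ Q (T.e (m2 (some ⟨v', hv'⟩)) v') := h.not_out _ hv'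
        have hq : ¬ Q (T.e (m1 ⟨v, hv⟩) v) := by rw [hvv]; exact hq'
        obtain ⟨c1, c2⟩ := huniq ⟨v, hv⟩ hq
        simp only at c1
        rw [c2, c1] at hvv
        have e1 : (op (inn h.op)).e (m2 none) none
            = (op (inn h.op)).e (m2 (some ⟨v', hv'⟩)) (some ⟨v', hv'⟩) := by
          apply Subtype.ext
          rw [out_none h, out_some h, hj2]
          exact hvv
        exact Option.some_ne_none _ (h2.1.1 e1).symm
      · exfalso
        have a1 := hm1 ⟨v', hv'⟩
        have a2 := hm2 ⟨v, hv⟩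
        simp only at a1 a2
        rw [a1, a2] at hvv
        have hq' : ¬ Q (T.e (m2 (some ⟨v, hv⟩)) v) := h.not_out _ hv
        have hq : ¬ Q (T.e (m1 ⟨v', hv'⟩) v') := by rw [← hvv]; exact hq'
        obtain ⟨c1, c2⟩ := huniq ⟨v', hv'⟩ hq
        simp only at c1
        rw [c2, c1] at hvv
        have e1 : (op (inn h.op)).e (m2 none) none
            = (op (inn h.op)).e (m2 (some ⟨v, hv⟩)) (some ⟨v, hv⟩) := by
          apply Subtype.ext
          rw [out_none h, out_some h, hj2]
          exact hvv.symm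
        exact Option.some_ne_none _ (h2.1.1 e1).symm
      · have a1 := hm2 ⟨v, hv⟩
        have a2 := hm2 ⟨v', hv'⟩
        simp only at a1 a2
        rw [a1, a2] at hvv
        have e1 : (op (inn h.op)).e (m2 (some ⟨v, hv⟩)) (some ⟨v, hv⟩)
            = (op (inn h.op)).e (m2 (some ⟨v', hv'⟩)) (some ⟨v', hv'⟩) := by
          apply Subtype.ext
          rw [out_some h, out_some h]
          exact hvv
        have e2 := Option.some_injective _ (h2.1.1 e1)
        exact congrArg Subtype.val e2
    exact (Fintype.bijective_iff_injective_and_card _).2 ⟨hinj, Fintype.card_congr (T.e 0)⟩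
  · intro Y Z hYZ
    have hc1 : ∀ (v : {v // P v}) k, k ≠ m1 v → (Y v.1 ↔ Z (T.e k v.1)) := by
      intro v k hk
      exact hYZ v.1 k (by rw [hm1]; exact hk)
    have hpar := parity h m1 h1.1 j hj (fun v => Y v.1) Z hc1
    set c : Prop := Z (T.e (j + 1) (w (j + 1))) with hcdef
    have hZc : ∀ k, k ≠ j → (Z (T.e k (w k)) ↔ c) := by
      intro k hk
      rcases hcol j k hk with rfl | rfl
      · exact Iff.rfl
      · exact hpar.symm
    -- the cut edges of colour `≠ j` belong to the 2-factor
    have hfac : ∀ k, k ≠ j → k ≠ m1 ⟨w k, h.hP k⟩ := by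
      intro k hk hk'
      have := huniq ⟨w k, h.hP k⟩ (by rw [← hk']; exact h.hQ k)
      exact hk (hk'.trans this.2)
    have hYc : ∀ k, k ≠ j → (Y (w k) ↔ c) := by
      intro k hk
      rw [hc1 ⟨w k, h.hP k⟩ k (hfac k hk)]
      exact hZc k hk
    have hin := h1.2 (fun v => Y v.1) (fun o => match o with
      | none => c
      | some b => Z b.1) (by
        intro v k hk
        by_cases hq : Q (T.e k v.1)
        · rw [inn_some h k v hq]
          exact hc1 v k hk
        · rw [inn_none h k v hq]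
          have e1 := h.eq_w k v.2 hq
          have hkj : k ≠ j := by
            rintro rfl
            apply hk
            have : v = ⟨w k, h.hP k⟩ := Subtype.ext e1
            rw [this, hj]
          show Y v.1 ↔ c
          rw [e1]
          exact hYc k hkj)
    have hout := h2.2 (fun o => match o with
      | none => c
      | some v => Y v.1) (fun b => Z b.1) (by
        intro o k hk
        cases o with
        | none =>
          rw [hj2] at hk
          rw [out_none h]
          exact (hZc k hk).symm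
        | some v =>
          rw [out_some h]
          exact hYZ v.1 k (by rw [hm2]; exact hk))
    have hallP : ∀ v, P v → (Y v ↔ c) := by
      intro v hv
      rw [← hYc (j + 1) (hne1 j)]
      exact ⟨fun hy => hin ⟨v, hv⟩ ⟨w (j + 1), h.hP _⟩ hy,
        fun hy => hin ⟨w (j + 1), h.hP _⟩ ⟨v, hv⟩ hy⟩
    have hallN : ∀ v, ¬ P v → (Y v ↔ c) := by
      intro v hv
      exact ⟨fun hy => hout (some ⟨v, hv⟩) none hy, fun hy => hout none (some ⟨v, hv⟩) hy⟩
    have hall : ∀ v, (Y v ↔ c) := by
      intro v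
      by_cases hv : P v
      · exact hallP v hv
      · exact hallN v hv
    intro v v' hv
    rw [hall] at hv ⊢
    exact hv

theorem star_glue [Fintype W] [Fintype B] (h : Cut T P Q w) (s1 : (inn h).Star)
    (s2 : (inn h.op).Star) : T.Star := by
  classical
  have s2' := star_op s2
  intro w0 c0
  by_cases hw : P w0
  · obtain ⟨m1, hm1, hc⟩ := s1 ⟨w0, hw⟩ c0
    have hm1' := hamY_iff.2 hm1
    obtain ⟨v, hv⟩ := hm1'.1.2 none
    have hv' := (inn_eq_none_iff h _ v).1 hv
    obtain ⟨m2, hm2, hc2⟩ := s2' none (m1 v)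
    have hvj : m1 ⟨w (m1 v), h.hP _⟩ = m1 v := by
      congr 1
      exact Subtype.ext hv'.symm
    refine ⟨_, hamY_iff.1 (glue h m1 m2 hm1' (hamY_iff.2 hm2) (m1 v) hvj hc2), ?_⟩
    rw [dif_pos hw]; exact hc
  · obtain ⟨m2, hm2, hc⟩ := s2' (some ⟨w0, hw⟩) c0
    obtain ⟨m1, hm1, hc1⟩ := s1 ⟨w (m2 none), h.hP _⟩ (m2 none)
    refine ⟨_, hamY_iff.1 (glue h m1 m2 (hamY_iff.2 hm1) (hamY_iff.2 hm2) (m2 none) hc1 rfl), ?_⟩
    rw [dif_neg hw]; exact hc

end glue

section induct

theorem star_induct (base : ∀ (W B : Type) [Fintype W] [Fintype B] [DecidableEq W]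
    [DecidableEq B] (T : Tri W B), T.Conn → T.Genus0 → T.Simple → Nontrivial W → T.Cyc → T.Star)
    (n : ℕ) : ∀ (W B : Type) [Fintype W] [Fintype B] [DecidableEq W] [DecidableEq B]
      (T : Tri W B), Fintype.card W ≤ n → CC T → DEx T → Cut3 T → Nontrivial W → T.Star := by
  induction n with
  | zero =>
    intro W B _ _ _ _ T hn _ _ _ hnt
    have := Fintype.one_lt_card_iff_nontrivial.2 hnt
    omega
  | succ n ih =>
    intro W B _ _ _ _ T hn hcc hd hc3 hnt
    classical
    have step : ∀ (P : W → Prop) (Q : B → Prop) (w : ZMod 3 → W) (h : Cut T P Q w),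
        (∃ b, Q b) → (∃ v, ¬ P v) → T.Star := by
      intro P Q w h hb hv
      obtain ⟨b, hb⟩ := hb
      obtain ⟨v, hv⟩ := hv
      have hcard : Fintype.card W = Fintype.card B := Fintype.card_congr (T.e 0)
      refine star_glue h ?_ ?_
      · refine ih _ _ (inn h) ?_ (CC.inn hcc h) (DEx.inn hd hc3 h) (Cut3.inn hc3 h) ?_
        · have := Fintype.card_subtype_lt (p := P) hv
          omega
        · refine ⟨⟨⟨(T.e 0).symm b, h.symm_mem 0 hb⟩, ⟨w 0, h.hP 0⟩, fun he => ?_⟩⟩
          have he' := congrArg Subtype.val he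
          simp only at he'
          apply h.hQ 0
          rw [← he', Equiv.apply_symm_apply]
          exact hb
      · refine ih _ _ (inn h.op) ?_ (CC.inn hcc.op h.op) (DEx.inn hd.op hc3.op h.op)
          (Cut3.inn hc3.op h.op) ?_
        · have := Fintype.card_subtype_lt (p := fun b => ¬ Q b) (x := b) (by simpa using hb)
          omega
        · refine ⟨⟨⟨T.e 0 v, h.not_out 0 hv⟩, ⟨T.e 0 (w 0), h.hQ 0⟩, fun he => ?_⟩⟩
          have he' := congrArg Subtype.val he
          simp only at he'
          apply hv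
          rw [(T.e 0).injective he']
          exact h.hP 0
    by_cases hcyc : T.Cyc
    · have hconn := hcc.conn
      have : Nonempty W := hnt.to_nonempty
      exact base W B T hconn (hd.genus0 hconn) (hc3.simple hd) hnt hcyc
    · unfold Tri.Cyc at hcyc
      push Not at hcyc
      obtain ⟨S, hS, h1, h2⟩ := hcyc
      have hbd : (bd T (fun v => (Sum.inl v : W ⊕ B) ∈ S) (fun b => (Sum.inr b : W ⊕ B) ∈ S)).card
          ≤ 3 := by
        refine le_trans (le_of_eq ?_) hS
        congr 1
        ext x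
        rw [mem_bd]
        simp only [Finset.mem_filter, Finset.mem_univ, true_and]
        tauto
      -- a cut whose inside `S'` has at least two elements and whose outside has at least two
      have hfin : ∀ (S : Finset (W ⊕ B)) (P : W → Prop) (Q : B → Prop) (w : ZMod 3 → W),
          (∀ v, P v ↔ (Sum.inl v : W ⊕ B) ∈ S) → (∀ b, Q b ↔ (Sum.inr b : W ⊕ B) ∈ S) →
          1 < S.card → 1 < Sᶜ.card → Cut T P Q w → T.Star := by
        intro S P Q w hP hQ h1 h2 h
        refine step P Q w h ?_ ?_
        · by_contra hcon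
          push Not at hcon
          have : S ⊆ {Sum.inl (w 0)} := by
            intro x hx
            rw [Finset.mem_singleton]
            rcases x with v | b
            · congr 1
              exact h.eq_w 0 ((hP v).2 hx) (hcon _)
            · exact absurd ((hQ b).2 hx) (hcon b)
          have := Finset.card_le_card this
          rw [Finset.card_singleton] at this
          omega
        · by_contra hcon
          push Not at hcon
          have : Sᶜ ⊆ {Sum.inr (T.e 0 (w 0))} := by
            intro x hx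
            rw [Finset.mem_compl] at hx
            rw [Finset.mem_singleton]
            rcases x with v | b
            · exact absurd ((hP v).1 (hcon v)) hx
            · have hq : ¬ Q b := fun hq => hx ((hQ b).1 hq)
              have e1 := h.eq_w 0 (hcon ((T.e 0).symm b)) (by rwa [Equiv.apply_symm_apply])
              rw [← e1, Equiv.apply_symm_apply]
          have := Finset.card_le_card this
          rw [Finset.card_singleton] at this
          omega
      rcases cut_struct hc3 _ _ hbd with h3 | ⟨w, h3⟩ | ⟨w, h3⟩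
      · exfalso
        rcases h3 with ⟨a1, a2⟩ | ⟨a1, a2⟩
        · have : Sᶜ = ∅ := by
            rw [Finset.compl_eq_empty_iff, Finset.eq_univ_iff_forall]
            rintro (v | b)
            · exact a1 v
            · exact a2 b
          rw [this] at h2
          simp at h2
        · have : S = ∅ := by
            apply Finset.eq_empty_of_forall_notMem
            rintro (v | b)
            · exact a1 v
            · exact a2 b
          rw [this] at h1
          simp at h1
      · exact hfin S _ _ w (fun v => Iff.rfl) (fun b => Iff.rfl) h1 h2 h3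
      · refine hfin Sᶜ _ _ w (fun v => ?_) (fun b => ?_) h2 ?_ h3
        · rw [Finset.mem_compl]
        · rw [Finset.mem_compl]
        · rw [compl_compl]; exact h1

end induct

end Crest.Agent.R039.Sum3

namespace Crest.Agent.R039

/-- BLOCK B4 -/
theorem blockSum3 : BlockSum3 := by
  intro base W B _ _ _ _ T hc hg hs hn
  exact Sum3.star_induct base (Fintype.card W) W B T le_rfl (Sum3.CC.of_conn hc)
    (Sum3.DEx.of_genus0 hc hg) (Sum3.Cut3.of_simple hc hs) hn

end Crest.Agent.R039
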