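import Crest.Agent.R039.Genus300

/-!
# Row 39, block B4 (part A): cuts in a `Tri`, exchange of the colours, dual exactness
-/

set_option autoImplicit false
set_option linter.unusedSectionVars false

namespace Crest.Agent.R039.Sum3

open Crest.Agent.R039

variable {W B : Type*}

/-- exchange of white and black -/
def op (T : Tri W B) : Tri B W := ⟨fun k => (T.e k).symm⟩

@[simp] theorem op_e (T : Tri W B) (k : ZMod 3) (b : B) : (op T).e k b = (T.e k).symm b := rfl
@[simp] theorem op_e_symm (T : Tri W B) (k : ZMod 3) (w : W) :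
    ((op T).e k).symm w = T.e k w := rfl

/-- connectedness with two predicates -/
def CC (T : Tri W B) : Prop :=
  ∀ (Y : W → Prop) (Z : B → Prop), (∀ k v, Y v ↔ Z (T.e k v)) → ∀ v v', Y v → Y v'

theorem CC.of_conn {T : Tri W B} (h : T.Conn) : CC T := by
  intro Y Z hYZ v v' hv
  have := h {v | Y v} ⟨v, hv⟩ (by
    intro i w hw
    show Y (T.pi i w)
    rw [hYZ (i + 2), Tri.pi_apply, Equiv.apply_symm_apply, ← hYZ]
    exact hw)
  have h2 : v' ∈ (Set.univ : Set W) := trivial
  rw [← this] at h2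
  exact h2

theorem CC.conn [Finite W] {T : Tri W B} (h : CC T) : T.Conn := by
  intro S hS hcl
  have hinv : ∀ i w, T.pi i w ∈ S ↔ w ∈ S := by
    intro i w
    refine ⟨fun hw => ?_, hcl i w⟩
    have h1 : (T.pi i).SameCycle (T.pi i w) w :=
      Equiv.Perm.sameCycle_apply_left.2 (Equiv.Perm.SameCycle.refl _ _)
    obtain ⟨n, hn⟩ := h1.exists_nat_pow_eq
    rw [← hn]
    clear hn
    induction n with
    | zero => exact hw
    | succ n ih => rw [pow_succ', Equiv.Perm.mul_apply]; exact hcl i _ ih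
  have key : ∀ k v, v ∈ S ↔ (T.e 0).symm (T.e k v) ∈ S := by
    intro k v
    have hk : ∀ k : ZMod 3, k = 0 ∨ k = 1 ∨ k = 2 := by decide
    rcases hk k with rfl | rfl | rfl
    · rw [Equiv.symm_apply_apply]
    · have h1 : T.pi 2 ((T.e 0).symm (T.e 1 v)) = v := by
        rw [Tri.pi_apply]
        have a1 : (2 : ZMod 3) + 2 = 1 := by decide
        have a2 : (2 : ZMod 3) + 1 = 0 := by decide
        rw [a1, a2, Equiv.apply_symm_apply, Equiv.symm_apply_apply]
      rw [← hinv 2 ((T.e 0).symm (T.e 1 v)), h1]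
    · have h1 : T.pi 1 v = (T.e 0).symm (T.e 2 v) := by
        rw [Tri.pi_apply]
        have a1 : (1 : ZMod 3) + 2 = 0 := by decide
        have a2 : (1 : ZMod 3) + 1 = 2 := by decide
        rw [a1, a2]
      rw [← h1, hinv]
  obtain ⟨v, hv⟩ := hS
  ext v'
  refine ⟨fun _ => trivial, fun _ => ?_⟩
  exact h (fun v => v ∈ S) (fun b => (T.e 0).symm b ∈ S) key v v' hv

theorem CC.op {T : Tri W B} (h : CC T) : CC (op T) := by
  intro Y Z hYZ b b' hb
  have h1 := h Z Y (fun k v => by
    rw [hYZ k (T.e k v)]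
    show Z v ↔ Z ((T.e k).symm (T.e k v))
    rw [Equiv.symm_apply_apply])
  have h2 : ∀ b, Y b ↔ Z ((T.e 0).symm b) := fun b => hYZ 0 b
  rw [h2] at hb ⊢
  exact h1 _ _ hb

/-- dual exactness with test functions -/
def DEx [Fintype W] (T : Tri W B) : Prop :=
  ∀ g : ZMod 3 → W → ℚ, (∀ i, ∀ φ : W → ℚ, (∀ w, φ (T.pi i w) = φ w) →
      ∑ w, φ w * (g (i + 1) w - g (i + 2) w) = 0) →
    ∃ (F : W → ℚ) (H : B → ℚ), ∀ k w, g k w = F w - H (T.e k w)

theorem DEx.of_genus0 [Fintype W] [Fintype B] {T : Tri W B} (hc : T.Conn) (hg : T.Genus0) :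
    DEx T := by
  classical
  intro g hx
  obtain ⟨h, hh⟩ := T.dual_exact hc hg g (fun v => by
    have := hx v.1 (fun w => if T.p v.1 w = v then 1 else 0) (fun w => by rw [Tri.p_pi])
    simpa only [ite_mul, one_mul, zero_mul] using this)
  exact ⟨fun w => h (Sum.inl w), fun b => h (Sum.inr b), fun k w => (hh k w).symm⟩

theorem DEx.genus0 [Fintype W] [Fintype B] [Nonempty W] {T : Tri W B} (hc : T.Conn)
    (hd : DEx T) : T.Genus0 := by
  classical
  refine T.genus0_of_dualExact hc (fun g hg => ?_)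
  obtain ⟨F, H, hFH⟩ := hd g (fun i φ hφ => by
    -- `φ` is a function of the vertex
    have h1 : ∀ w w', T.p i w = T.p i w' → φ w = φ w' := by
      intro w w' h
      rw [Tri.p_eq_iff] at h
      obtain ⟨n, hn⟩ := h.2.exists_nat_pow_eq
      rw [← hn]
      clear hn
      induction n with
      | zero => rfl
      | succ n ih => rw [pow_succ', Equiv.Perm.mul_apply, hφ]; exact ih
    have h2 : ∀ w, φ w * (g (i + 1) w - g (i + 2) w) = ∑ x : T.VertC i,
        (if T.p i w = (⟨i, x⟩ : T.Vert) then φ x.out * (g (i + 1) w - g (i + 2) w) else 0) := by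
      intro w
      rw [Finset.sum_eq_single (Quotient.mk _ w)]
      · rw [if_pos (show T.p i w = (⟨i, Quotient.mk _ w⟩ : T.Vert) from rfl)]
        congr 1
        apply h1
        rw [Tri.p_eq_iff]
        refine ⟨rfl, ?_⟩
        exact (Quotient.exact (Quotient.out_eq (Quotient.mk (Equiv.Perm.SameCycle.setoid (T.pi i)) w))).symm
      · intro x _ hx
        rw [if_neg]
        intro h
        apply hx
        have h' : (⟨i, Quotient.mk _ w⟩ : T.Vert) = ⟨i, x⟩ := h
        rw [Sigma.mk.injEq] at h'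
        exact (eq_of_heq h'.2).symm
      · intro h; exact absurd (Finset.mem_univ _) h
    rw [Finset.sum_congr rfl (fun w _ => h2 w), Finset.sum_comm]
    refine Finset.sum_eq_zero (fun x _ => ?_)
    have h3 := hg ⟨i, x⟩
    have h4 : ∑ w : W, (if T.p i w = (⟨i, x⟩ : T.Vert) then
        φ x.out * (g (i + 1) w - g (i + 2) w) else 0) = φ x.out *
        ∑ w : W, (if T.p i w = (⟨i, x⟩ : T.Vert) then g (i + 1) w - g (i + 2) w else 0) := by
      rw [Finset.mul_sum]
      refine Finset.sum_congr rfl (fun w _ => ?_)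
      rw [mul_ite, mul_zero]
    rw [h4]
    have h5 : ∑ w : W, (if T.p i w = (⟨i, x⟩ : T.Vert) then g (i + 1) w - g (i + 2) w else 0)
      = 0 := h3
    rw [h5, mul_zero])
  refine ⟨fun x => Sum.elim F H x, fun k w => ?_⟩
  simp only [Sum.elim_inl, Sum.elim_inr]
  exact (hFH k w).symm

theorem DEx.op [Fintype W] [Fintype B] {T : Tri W B} (hd : DEx T) : DEx (op T) := by
  intro g hg
  obtain ⟨F, H, hFH⟩ := hd (fun k w => - g k (T.e k w)) (fun i φ hφ => by
    have h1 := hg i (fun b => φ ((T.e (i + 1)).symm b)) (fun b => by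
      show φ ((T.e (i + 1)).symm (T.e (i + 2) ((T.e (i + 1)).symm b))) = _
      rw [← hφ ((T.e (i + 1)).symm (T.e (i + 2) ((T.e (i + 1)).symm b))), Tri.pi_apply,
        Equiv.apply_symm_apply, Equiv.symm_apply_apply])
    have h2 : ∀ b, φ ((T.e (i + 1)).symm b) = φ ((T.e (i + 2)).symm b) := by
      intro b
      rw [← hφ ((T.e (i + 1)).symm b), Tri.pi_apply, Equiv.apply_symm_apply]
    have h3 : ∑ b, φ ((T.e (i + 1)).symm b) * g (i + 1) b
        = ∑ w, φ w * g (i + 1) (T.e (i + 1) w) := by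
      rw [← Equiv.sum_comp (T.e (i + 1))]
      refine Finset.sum_congr rfl (fun w _ => ?_)
      rw [Equiv.symm_apply_apply]
    have h4 : ∑ b, φ ((T.e (i + 1)).symm b) * g (i + 2) b
        = ∑ w, φ w * g (i + 2) (T.e (i + 2) w) := by
      rw [← Equiv.sum_comp (T.e (i + 2))]
      refine Finset.sum_congr rfl (fun w _ => ?_)
      rw [h2, Equiv.symm_apply_apply]
    simp only [mul_sub, Finset.sum_sub_distrib] at h1
    rw [h3, h4] at h1
    simp only [mul_sub, Finset.sum_sub_distrib, mul_neg, Finset.sum_neg_distrib]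
    linarith)
  refine ⟨H, F, fun k b => ?_⟩
  have := hFH k ((T.e k).symm b)
  simp only [Equiv.apply_symm_apply] at this
  show g k b = H b - F ((T.e k).symm b)
  linarith

/-! ### cuts -/

open Classical in
/-- the boundary of a set of faces -/
noncomputable def bd [Fintype W] (T : Tri W B) (P : W → Prop) (Q : B → Prop) :
    Finset (ZMod 3 × W) := Finset.univ.filter (fun x => ¬ (P x.2 ↔ Q (T.e x.1 x.2)))

theorem mem_bd [Fintype W] {T : Tri W B} {P : W → Prop} {Q : B → Prop} {x : ZMod 3 × W} :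
    x ∈ bd T P Q ↔ ¬ (P x.2 ↔ Q (T.e x.1 x.2)) := by
  unfold bd
  simp

/-- three-edge-connectedness -/
def Cut3 [Fintype W] (T : Tri W B) : Prop :=
  ∀ (P : W → Prop) (Q : B → Prop), (bd T P Q).card ≤ 2 →
    ((∀ v, P v) ∧ (∀ b, Q b)) ∨ ((∀ v, ¬ P v) ∧ (∀ b, ¬ Q b))

theorem bd_op_card [Fintype W] [Fintype B] (T : Tri W B) (P : W → Prop) (Q : B → Prop) :
    (bd (op T) Q P).card = (bd T P Q).card := by
  classical
  refine Finset.card_bij' (fun x _ => (x.1, (T.e x.1).symm x.2)) (fun x _ => (x.1, T.e x.1 x.2))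
    ?_ ?_ ?_ ?_
  · intro x hx
    rw [mem_bd] at hx ⊢
    intro h
    apply hx
    simp only [Equiv.apply_symm_apply] at h
    exact h.symm
  · intro x hx
    rw [mem_bd] at hx ⊢
    intro h
    apply hx
    simp only [op_e, Equiv.symm_apply_apply] at h
    exact h.symm
  · intro x _; simp
  · intro x _; simp

theorem Cut3.op [Fintype W] [Fintype B] {T : Tri W B} (h : Cut3 T) : Cut3 (op T) := by
  intro Q P hc
  rw [bd_op_card] at hc
  rcases h P Q hc with h | h
  · exact Or.inl ⟨h.2, h.1⟩
  · exact Or.inr ⟨h.2, h.1⟩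

/-- a cut with three edges, all of them with their white end inside -/
structure Cut (T : Tri W B) (P : W → Prop) (Q : B → Prop) (w : ZMod 3 → W) : Prop where
  hP : ∀ k, P (w k)
  hQ : ∀ k, ¬ Q (T.e k (w k))
  hcut : ∀ k v, v ≠ w k → (P v ↔ Q (T.e k v))

theorem Cut.op {T : Tri W B} {P : W → Prop} {Q : B → Prop} {w : ZMod 3 → W}
    (h : Cut T P Q w) : Cut (op T) (fun b => ¬ Q b) (fun v => ¬ P v) (fun k => T.e k (w k)) where
  hP := h.hQ
  hQ := by
    intro k
    show ¬ ¬ P ((T.e k).symm (T.e k (w k)))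
    rw [Equiv.symm_apply_apply, not_not]
    exact h.hP k
  hcut := by
    intro k b hb
    have h1 : (T.e k).symm b ≠ w k := by
      intro h'
      apply hb
      rw [← h', Equiv.apply_symm_apply]
    have h2 := h.hcut k _ h1
    rw [Equiv.apply_symm_apply] at h2
    show ¬ Q b ↔ ¬ P ((T.e k).symm b)
    rw [h2]

section count

variable [Fintype W] [Fintype B] (T : Tri W B) (P : W → Prop) (Q : B → Prop)

open Classical in
/-- outgoing edges of colour `k` -/
noncomputable def ca (k : ZMod 3) : Finset W := Finset.univ.filter (fun v => P v ∧ ¬ Q (T.e k v))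

open Classical in
/-- incoming edges of colour `k` -/
noncomputable def cb (k : ZMod 3) : Finset W := Finset.univ.filter (fun v => ¬ P v ∧ Q (T.e k v))

theorem card_bd : (bd T P Q).card = ∑ k, ((ca T P Q k).card + (cb T P Q k).card) := by
  classical
  unfold bd ca cb
  simp only [Finset.card_filter]
  rw [Fintype.sum_prod_type]
  refine Finset.sum_congr rfl (fun k _ => ?_)
  rw [← Finset.sum_add_distrib]
  refine Finset.sum_congr rfl (fun v _ => ?_)
  by_cases h1 : P v <;> by_cases h2 : Q (T.e k v) <;> simp [h1, h2]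

open Classical in
theorem balance (k : ZMod 3) :
    (Finset.univ.filter (fun v => P v)).card + (cb T P Q k).card
      = (Finset.univ.filter (fun b => Q b)).card + (ca T P Q k).card := by
  unfold ca cb
  simp only [Finset.card_filter]
  rw [← Equiv.sum_comp (T.e k), ← Finset.sum_add_distrib, ← Finset.sum_add_distrib]
  refine Finset.sum_congr rfl (fun v _ => ?_)
  by_cases h1 : P v <;> by_cases h2 : Q (T.e k v) <;> simp [h1, h2]

open Classical in
/-- `∑ φ (1_P - 1_Q ∘ e_k)` does not depend on the colour for a test function at a vertex -/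
theorem kappa (i : ZMod 3) (φ : W → ℚ) (hφ : ∀ w, φ (T.pi i w) = φ w) :
    ∑ w, φ w * ((if P w then 1 else 0) - (if Q (T.e (i + 1) w) then 1 else 0))
      = ∑ w, φ w * ((if P w then 1 else 0) - (if Q (T.e (i + 2) w) then 1 else 0)) := by
  have h1 : ∑ w, φ w * (if Q (T.e (i + 2) w) then (1 : ℚ) else 0)
      = ∑ w, φ w * (if Q (T.e (i + 1) w) then (1 : ℚ) else 0) := by
    rw [← Equiv.sum_comp (T.pi i)]
    refine Finset.sum_congr rfl (fun w _ => ?_)
    rw [hφ, Tri.pi_apply, Equiv.apply_symm_apply]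
  simp only [mul_sub, Finset.sum_sub_distrib]
  rw [h1]

end count

section cut

variable {T : Tri W B} {P : W → Prop} {Q : B → Prop} {w : ZMod 3 → W}

open Classical in
theorem Cut.kappa_eq [Fintype W] (h : Cut T P Q w) (φ : W → ℚ) (k : ZMod 3) :
    ∑ v, φ v * ((if P v then 1 else 0) - (if Q (T.e k v) then 1 else 0)) = φ (w k) := by
  rw [Finset.sum_eq_single (w k)]
  · rw [if_pos (h.hP k), if_neg (h.hQ k)]; ring
  · intro v _ hv
    have := h.hcut k v hv
    by_cases h1 : P v
    · rw [if_pos h1, if_pos (this.1 h1)]; ring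
    · rw [if_neg h1, if_neg (fun h2 => h1 (this.2 h2))]; ring
  · intro h'; exact absurd (Finset.mem_univ _) h'

theorem Cut.phi_eq [Fintype W] [Fintype B] (h : Cut T P Q w) (i : ZMod 3) (φ : W → ℚ)
    (hφ : ∀ w, φ (T.pi i w) = φ w) : φ (w (i + 1)) = φ (w (i + 2)) := by
  classical
  rw [← h.kappa_eq φ (i + 1), ← h.kappa_eq φ (i + 2)]
  exact kappa T P Q i φ hφ

/-- the structure of a cut with at most three edges -/
theorem cut_struct [Fintype W] [Fintype B] (hc : Cut3 T) (P : W → Prop) (Q : B → Prop)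
    (h3 : (bd T P Q).card ≤ 3) :
    (((∀ v, P v) ∧ (∀ b, Q b)) ∨ ((∀ v, ¬ P v) ∧ (∀ b, ¬ Q b))) ∨
    (∃ w, Cut T P Q w) ∨ (∃ w, Cut T (fun v => ¬ P v) (fun b => ¬ Q b) w) := by
  classical
  have hb := fun k => balance T P Q k
  have hcard := card_bd T P Q
  rw [Bic.sum_zmod3] at hcard
  have hb0 := hb 0
  have hb1 := hb 1
  have hb2 := hb 2
  set p := (Finset.univ.filter (fun v => P v)).card with hp
  set q := (Finset.univ.filter (fun b => Q b)).card with hq
  have h012 : ∀ k : ZMod 3, k = 0 ∨ k = 1 ∨ k = 2 := by decide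
  rcases lt_trichotomy p q with hlt | heq | hgt
  · -- all boundary edges are incoming
    right; right
    have h1 : ∀ k, (cb T P Q k).card = 1 ∧ (ca T P Q k).card = 0 := by
      intro k
      rcases h012 k with rfl | rfl | rfl <;> omega
    have h2 : ∀ k, ∃ v, cb T P Q k = {v} := fun k => Finset.card_eq_one.1 (h1 k).1
    choose w hw using h2
    have h4 : ∀ k v, (¬ P v ∧ Q (T.e k v)) ↔ v = w k := by
      intro k v
      have : v ∈ cb T P Q k ↔ v ∈ ({w k} : Finset W) := by rw [hw]
      rw [Finset.mem_singleton] at this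
      rw [← this]; simp [cb]
    have h5 : ∀ k v, ¬ (P v ∧ ¬ Q (T.e k v)) := by
      intro k v hv
      have h6 := Finset.card_eq_zero.1 (h1 k).2
      have : v ∈ ca T P Q k := by simp [ca, hv]
      rw [h6] at this
      exact absurd this (Finset.notMem_empty _)
    refine ⟨w, ⟨fun k => ((h4 k (w k)).2 rfl).1, fun k => ?_, fun k v hv => ?_⟩⟩
    · rw [not_not]; exact ((h4 k (w k)).2 rfl).2
    · have h7 := h5 k v
      have h8 : ¬ (¬ P v ∧ Q (T.e k v)) := fun h => hv ((h4 k v).1 h)
      tauto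
  · left
    apply hc
    omega
  · right; left
    have h1 : ∀ k, (ca T P Q k).card = 1 ∧ (cb T P Q k).card = 0 := by
      intro k
      rcases h012 k with rfl | rfl | rfl <;> omega
    have h2 : ∀ k, ∃ v, ca T P Q k = {v} := fun k => Finset.card_eq_one.1 (h1 k).1
    choose w hw using h2
    have h4 : ∀ k v, (P v ∧ ¬ Q (T.e k v)) ↔ v = w k := by
      intro k v
      have : v ∈ ca T P Q k ↔ v ∈ ({w k} : Finset W) := by rw [hw]
      rw [Finset.mem_singleton] at this
      rw [← this]; simp [ca]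
    have h5 : ∀ k v, ¬ (¬ P v ∧ Q (T.e k v)) := by
      intro k v hv
      have h6 := Finset.card_eq_zero.1 (h1 k).2
      have : v ∈ cb T P Q k := by simp [cb, hv]
      rw [h6] at this
      exact absurd this (Finset.notMem_empty _)
    refine ⟨w, ⟨fun k => ((h4 k (w k)).2 rfl).1, fun k => ((h4 k (w k)).2 rfl).2,
      fun k v hv => ?_⟩⟩
    have h7 := h5 k v
    have h8 : ¬ (P v ∧ ¬ Q (T.e k v)) := fun h => hv ((h4 k v).1 h)
    tauto

end cut

/-! ### simplicity and three-edge-connectedness -/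

/-- simple ⇒ three-edge-connected -/
theorem Cut3.of_simple [Fintype W] [Fintype B] {T : Tri W B} (hc : T.Conn) (hs : T.Simple) :
    Cut3 T := by
  classical
  intro P Q h2
  have hb := fun k => balance T P Q k
  have hcard := card_bd T P Q
  rw [Bic.sum_zmod3] at hcard
  have hb0 := hb 0
  have hb1 := hb 1
  have hb2 := hb 2
  set p := (Finset.univ.filter (fun v => P v)).card with hp
  set q := (Finset.univ.filter (fun b => Q b)).card with hq
  have h012 : ∀ k : ZMod 3, k = 0 ∨ k = 1 ∨ k = 2 := by decide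
  have hpq : p = q := by omega
  have hab : ∀ k, (ca T P Q k).card = (cb T P Q k).card := by
    intro k; have := hb k; omega
  have hmem : ∀ k v, v ∈ ca T P Q k ↔ (P v ∧ ¬ Q (T.e k v)) := by
    intro k v; simp [ca]
  have hmem' : ∀ k v, v ∈ cb T P Q k ↔ (¬ P v ∧ Q (T.e k v)) := by
    intro k v; simp [cb]
  by_cases h0 : ∀ k, (ca T P Q k).card = 0
  · -- no boundary
    have h1 : ∀ k v, P v ↔ Q (T.e k v) := by
      intro k v
      have e1 := Finset.card_eq_zero.1 (h0 k)
      have e2 := Finset.card_eq_zero.1 ((hab k).symm.trans (h0 k))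
      have e3 : ¬ (P v ∧ ¬ Q (T.e k v)) := by rw [← hmem, e1]; exact Finset.notMem_empty _
      have e4 : ¬ (¬ P v ∧ Q (T.e k v)) := by rw [← hmem', e2]; exact Finset.notMem_empty _
      tauto
    have h3 := CC.of_conn hc P Q h1
    have h4 : ∀ b, Q b ↔ P ((T.e 0).symm b) := by
      intro b; rw [h1 0, Equiv.apply_symm_apply]
    by_cases h5 : ∃ v, P v
    · obtain ⟨v, hv⟩ := h5
      exact Or.inl ⟨fun v' => h3 v v' hv, fun b => (h4 b).2 (h3 v _ hv)⟩
    · have h6 : ∀ v, ¬ P v := fun v hv => h5 ⟨v, hv⟩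
      exact Or.inr ⟨h6, fun b hb => h6 _ ((h4 b).1 hb)⟩
  · -- exactly one colour
    exfalso
    obtain ⟨k, hk⟩ : ∃ k, (ca T P Q k).card ≠ 0 := by
      by_contra h; push Not at h; exact h0 h
    have h1 : (ca T P Q k).card = 1 ∧ (ca T P Q (k + 1)).card = 0 ∧
        (ca T P Q (k + 2)).card = 0 := by
      have a0 := hab 0
      have a1 := hab 1
      have a2 := hab 2
      have e1 : (0 : ZMod 3) + 1 = 1 := by decide
      have e2 : (0 : ZMod 3) + 2 = 2 := by decide
      have e3 : (1 : ZMod 3) + 1 = 2 := by decide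
      have e4 : (1 : ZMod 3) + 2 = 0 := by decide
      have e5 : (2 : ZMod 3) + 1 = 0 := by decide
      have e6 : (2 : ZMod 3) + 2 = 1 := by decide
      rcases h012 k with rfl | rfl | rfl
      · rw [e1, e2]; omega
      · rw [e3, e4]; omega
      · rw [e5, e6]; omega
    obtain ⟨u, hu⟩ := Finset.card_eq_one.1 h1.1
    obtain ⟨v, hv⟩ := Finset.card_eq_one.1 ((hab k).symm.trans h1.1)
    have hu' : ∀ x, (P x ∧ ¬ Q (T.e k x)) ↔ x = u := by
      intro x; rw [← hmem, hu, Finset.mem_singleton]
    have hv' : ∀ x, (¬ P x ∧ Q (T.e k x)) ↔ x = v := by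
      intro x; rw [← hmem', hv, Finset.mem_singleton]
    have hne : u ≠ v := by
      intro h
      have a := (hu' u).2 rfl
      have b := (hv' u).2 h
      exact b.1 a.1
    have hk0 : ∀ φ : W → ℚ, ∑ w, φ w * ((if P w then 1 else 0) - (if Q (T.e k w) then 1 else 0))
        = φ u - φ v := by
      intro φ
      have e : ∀ w, φ w * ((if P w then 1 else 0) - (if Q (T.e k w) then 1 else 0))
          = (if w = u then φ w else 0) - (if w = v then φ w else 0) := by
        intro w
        by_cases c1 : w = u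
        · have a := (hu' w).2 c1
          have c2 : ¬ w = v := fun c2 => hne (c1.symm.trans c2)
          rw [if_pos a.1, if_neg a.2, if_pos c1, if_neg c2]; ring
        · by_cases c2 : w = v
          · have a := (hv' w).2 c2
            rw [if_neg a.1, if_pos a.2, if_neg c1, if_pos c2]; ring
          · have a : ¬ (P w ∧ ¬ Q (T.e k w)) := fun h => c1 ((hu' w).1 h)
            have b : ¬ (¬ P w ∧ Q (T.e k w)) := fun h => c2 ((hv' w).1 h)
            rw [if_neg c1, if_neg c2]
            by_cases c3 : P w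
            · have c4 : Q (T.e k w) := by tauto
              rw [if_pos c3, if_pos c4]; ring
            · have c4 : ¬ Q (T.e k w) := by tauto
              rw [if_neg c3, if_neg c4]; ring
      rw [Finset.sum_congr rfl (fun w _ => e w), Finset.sum_sub_distrib, Finset.sum_ite_eq',
        Finset.sum_ite_eq', if_pos (Finset.mem_univ _), if_pos (Finset.mem_univ _)]
    have hk1 : ∀ j, (ca T P Q j).card = 0 → ∀ φ : W → ℚ,
        ∑ w, φ w * ((if P w then 1 else 0) - (if Q (T.e j w) then 1 else 0)) = 0 := by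
      intro j hj φ
      refine Finset.sum_eq_zero (fun x _ => ?_)
      have e1 := Finset.card_eq_zero.1 hj
      have e2 := Finset.card_eq_zero.1 ((hab j).symm.trans hj)
      have e3 : ¬ (P x ∧ ¬ Q (T.e j x)) := by rw [← hmem, e1]; exact Finset.notMem_empty _
      have e4 : ¬ (¬ P x ∧ Q (T.e j x)) := by rw [← hmem', e2]; exact Finset.notMem_empty _
      by_cases c3 : P x
      · have c4 : Q (T.e j x) := by tauto
        rw [if_pos c3, if_pos c4]; ring
      · have c4 : ¬ Q (T.e j x) := by tauto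
        rw [if_neg c3, if_neg c4]; ring
    have key : ∀ i : ZMod 3, (i + 1 = k ∧ (ca T P Q (i + 2)).card = 0) ∨
        (i + 2 = k ∧ (ca T P Q (i + 1)).card = 0) → T.p i u = T.p i v := by
      intro i hi
      have h5 := kappa T P Q i (fun w => if T.p i w = T.p i u then 1 else 0)
        (fun w => by rw [Tri.p_pi])
      rcases hi with ⟨hi, hj⟩ | ⟨hi, hj⟩
      · rw [hk1 _ hj, hi, hk0] at h5
        by_contra hcon
        rw [if_pos rfl, if_neg (fun h => hcon h.symm)] at h5
        norm_num at h5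
      · rw [hk1 _ hj, hi, hk0] at h5
        by_contra hcon
        rw [if_pos rfl, if_neg (fun h => hcon h.symm)] at h5
        norm_num at h5
    have f1 : ∀ k : ZMod 3, k + 2 + 1 = k := by decide
    have f2 : ∀ k : ZMod 3, k + 2 + 2 = k + 1 := by decide
    have f3 : ∀ k : ZMod 3, k + 1 + 2 = k := by decide
    have f4 : ∀ k : ZMod 3, k + 1 + 1 = k + 2 := by decide
    have g1 := key (k + 2) (Or.inl ⟨f1 k, by rw [f2]; exact h1.2.1⟩)
    have g2 := key (k + 1) (Or.inr ⟨f3 k, by rw [f4]; exact h1.2.2⟩)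
    have f5 : ∀ k : ZMod 3, k + 2 ≠ k + 1 := by decide
    exact hne (hs (k + 2) (k + 1) (f5 k) u v g1 g2)

/-- three-edge-connected and dual exact ⇒ simple -/
theorem Cut3.simple [Fintype W] {T : Tri W B} (hd : DEx T) (hc : Cut3 T) : T.Simple := by
  classical
  intro i j hij w w' hi hj
  by_contra hne
  obtain ⟨k, hk⟩ : ∃ k : ZMod 3, k ≠ i ∧ k ≠ j := by
    have : ∀ i j : ZMod 3, ∃ k, k ≠ i ∧ k ≠ j := by decide
    exact this i j
  have hall : ∀ l : ZMod 3, l ≠ k → T.p l w = T.p l w' := by
    intro l hl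
    have : ∀ i j k l : ZMod 3, i ≠ j → k ≠ i → k ≠ j → l ≠ k → l = i ∨ l = j := by decide
    rcases this i j k l hij hk.1 hk.2 hl with rfl | rfl
    · exact hi
    · exact hj
  have hinv : ∀ l (φ : W → ℚ), (∀ w, φ (T.pi l w) = φ w) → l ≠ k → φ w = φ w' := by
    intro l φ hφ hl
    have h := hall l hl
    rw [Tri.p_eq_iff] at h
    obtain ⟨n, hn⟩ := h.2.exists_nat_pow_eq
    rw [← hn]
    clear hn
    induction n with
    | zero => rfl
    | succ n ih => rw [pow_succ', Equiv.Perm.mul_apply, hφ]; exact ih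
  obtain ⟨F, H, hFH⟩ := hd (fun k' v => if k' = k then
      ((if v = w then 1 else 0) - (if v = w' then 1 else 0)) else 0) (fun l φ hφ => by
    have e1 : ∑ v, φ v * ((if v = w then (1 : ℚ) else 0) - (if v = w' then 1 else 0))
        = φ w - φ w' := by
      simp only [mul_sub, mul_ite, mul_one, mul_zero, Finset.sum_sub_distrib, Finset.sum_ite_eq',
        Finset.mem_univ, if_true]
    have c : ∀ l k : ZMod 3, (l = k ∧ l + 1 ≠ k ∧ l + 2 ≠ k) ∨ (l ≠ k ∧ l + 1 = k ∧ l + 2 ≠ k) ∨
        (l ≠ k ∧ l + 1 ≠ k ∧ l + 2 = k) := by decide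
    rcases c l k with ⟨_, h2, h3⟩ | ⟨h1, h2, h3⟩ | ⟨h1, h2, h3⟩
    · refine Finset.sum_eq_zero (fun v _ => ?_)
      rw [if_neg h2, if_neg h3]; ring
    · have e2 : ∀ v, φ v * ((if l + 1 = k then
          ((if v = w then (1 : ℚ) else 0) - (if v = w' then 1 else 0)) else 0) -
          (if l + 2 = k then ((if v = w then 1 else 0) - (if v = w' then 1 else 0)) else 0))
          = φ v * ((if v = w then (1 : ℚ) else 0) - (if v = w' then 1 else 0)) := by
        intro v; rw [if_pos h2, if_neg h3, sub_zero]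
      rw [Finset.sum_congr rfl (fun v _ => e2 v), e1, hinv l φ hφ h1, sub_self]
    · have e2 : ∀ v, φ v * ((if l + 1 = k then
          ((if v = w then (1 : ℚ) else 0) - (if v = w' then 1 else 0)) else 0) -
          (if l + 2 = k then ((if v = w then 1 else 0) - (if v = w' then 1 else 0)) else 0))
          = -(φ v * ((if v = w then (1 : ℚ) else 0) - (if v = w' then 1 else 0))) := by
        intro v; rw [if_neg h2, if_pos h3, zero_sub, mul_neg]
      rw [Finset.sum_congr rfl (fun v _ => e2 v), Finset.sum_neg_distrib, e1, hinv l φ hφ h1,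
        sub_self, neg_zero])
  -- the level set of `F w`
  have h2 : (bd T (fun v => F v = F w) (fun b => H b = F w)).card ≤ 2 := by
    have hsub : bd T (fun v => F v = F w) (fun b => H b = F w) ⊆ {(k, w), (k, w')} := by
      intro x hx
      rw [mem_bd] at hx
      rw [Finset.mem_insert, Finset.mem_singleton]
      by_contra hcon
      push Not at hcon
      apply hx
      have h3 := hFH x.1 x.2
      have h4 : (if x.1 = k then
          ((if x.2 = w then (1 : ℚ) else 0) - (if x.2 = w' then 1 else 0)) else 0) = 0 := by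
        by_cases hxk : x.1 = k
        · rw [if_pos hxk, if_neg, if_neg, sub_zero]
          · intro h; exact hcon.2 (Prod.ext hxk h)
          · intro h; exact hcon.1 (Prod.ext hxk h)
        · rw [if_neg hxk]
      have h5 : F x.2 = H (T.e x.1 x.2) := by
        have h6 : (0 : ℚ) = F x.2 - H (T.e x.1 x.2) := h4.symm.trans h3
        linarith
      show F x.2 = F w ↔ H (T.e x.1 x.2) = F w
      rw [h5]
    exact (Finset.card_le_card hsub).trans Finset.card_le_two
  have h6 := hFH k w
  simp only [if_true, if_neg hne, sub_zero] at h6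
  rcases hc _ _ h2 with h | h
  · have h7 : H (T.e k w) = F w := h.2 (T.e k w)
    rw [h7] at h6
    norm_num at h6
  · exact h.1 w rfl

end Crest.Agent.R039.Sum3
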