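import Crest.Agent.R039.Sum409A

/-!
# Row 39, block B4 (part B): the inner triangulation of a three-edge cut
-/

set_option autoImplicit false
set_option linter.unusedSectionVars false

namespace Crest.Agent.R039.Sum3

open Crest.Agent.R039

variable {W B : Type*} {T : Tri W B} {P : W → Prop} {Q : B → Prop} {w : ZMod 3 → W}

theorem Cut.symm_mem (h : Cut T P Q w) (k : ZMod 3) {b : B} (hb : Q b) : P ((T.e k).symm b) := by
  have h1 : (T.e k).symm b ≠ w k := by
    intro h'
    apply h.hQ k
    rw [← h', Equiv.apply_symm_apply]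
    exact hb
  rw [h.hcut k _ h1, Equiv.apply_symm_apply]
  exact hb

theorem Cut.eq_w (h : Cut T P Q w) (k : ZMod 3) {v : W} (hv : P v) (hq : ¬ Q (T.e k v)) :
    v = w k := by
  by_contra hne
  exact hq ((h.hcut k v hne).1 hv)

theorem Cut.not_out (h : Cut T P Q w) (k : ZMod 3) {v : W} (hv : ¬ P v) : ¬ Q (T.e k v) := by
  have hne : v ≠ w k := by
    intro h'; apply hv; rw [h']; exact h.hP k
  exact fun hq => hv ((h.hcut k v hne).2 hq)

open Classical in
/-- the part of the cut that contains the three white ends; the outside is one black face -/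
noncomputable def inn (h : Cut T P Q w) : Tri {v // P v} (Option {b // Q b}) where
  e k :=
    { toFun := fun v => if hq : Q (T.e k v.1) then some ⟨T.e k v.1, hq⟩ else none
      invFun := fun o => match o with
        | none => ⟨w k, h.hP k⟩
        | some b => ⟨(T.e k).symm b.1, h.symm_mem k b.2⟩
      left_inv := by
        intro v
        by_cases hq : Q (T.e k v.1)
        · simp only [dif_pos hq, Equiv.symm_apply_apply]
        · simp only [dif_neg hq]
          exact Subtype.ext (h.eq_w k v.2 hq).symm
      right_inv := by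
        intro o
        cases o with
        | none => simp only [dif_neg (h.hQ k)]
        | some b =>
          have hb : Q (T.e k ((T.e k).symm b.1)) := by rw [Equiv.apply_symm_apply]; exact b.2
          show (if hq : Q (T.e k ((T.e k).symm b.1)) then
            some (⟨T.e k ((T.e k).symm b.1), hq⟩ : {b // Q b}) else none) = some b
          rw [dif_pos hb]
          congr 1
          exact Subtype.ext (Equiv.apply_symm_apply _ _) }

open Classical in
theorem inn_some (h : Cut T P Q w) (k : ZMod 3) (v : {v // P v}) (hq : Q (T.e k v.1)) :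
    (inn h).e k v = some ⟨T.e k v.1, hq⟩ := by
  show (if hq : Q (T.e k v.1) then some (⟨T.e k v.1, hq⟩ : {b // Q b}) else none) = _
  rw [dif_pos hq]

open Classical in
theorem inn_none (h : Cut T P Q w) (k : ZMod 3) (v : {v // P v}) (hq : ¬ Q (T.e k v.1)) :
    (inn h).e k v = none := by
  show (if hq : Q (T.e k v.1) then some (⟨T.e k v.1, hq⟩ : {b // Q b}) else none) = _
  rw [dif_neg hq]

theorem inn_w (h : Cut T P Q w) (k : ZMod 3) : (inn h).e k ⟨w k, h.hP k⟩ = none :=
  inn_none h k _ (h.hQ k)

theorem inn_eq_none_iff (h : Cut T P Q w) (k : ZMod 3) (v : {v // P v}) :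
    (inn h).e k v = none ↔ v.1 = w k := by
  constructor
  · intro h1
    by_contra hne
    have hq := (h.hcut k v.1 hne).1 v.2
    rw [inn_some h k v hq] at h1
    exact Option.some_ne_none _ h1
  · intro h1
    apply inn_none
    rw [h1]; exact h.hQ k

theorem inn_symm_none (h : Cut T P Q w) (k : ZMod 3) :
    ((inn h).e k).symm none = ⟨w k, h.hP k⟩ := by
  rw [Equiv.symm_apply_eq, inn_w]

theorem inn_symm_some (h : Cut T P Q w) (k : ZMod 3) (b : {b // Q b}) :
    ((inn h).e k).symm (some b) = ⟨(T.e k).symm b.1, h.symm_mem k b.2⟩ := by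
  rw [Equiv.symm_apply_eq]
  have hb : Q (T.e k ((T.e k).symm b.1)) := by rw [Equiv.apply_symm_apply]; exact b.2
  rw [inn_some h k _ hb]
  congr 1
  exact Subtype.ext (Equiv.apply_symm_apply _ _).symm

open Classical in
/-- extension of a pair of functions on the inner triangulation to the whole -/
noncomputable def extW {A : Type*} (Y : {v // P v} → A) (c : A) : W → A :=
  fun v => if h : P v then Y ⟨v, h⟩ else c

open Classical in
/-- extension to the black faces -/
noncomputable def extB {A : Type*} (Z : Option {b // Q b} → A) : B → A :=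
  fun b => if h : Q b then Z (some ⟨b, h⟩) else Z none

theorem extW_of_mem {A : Type*} (Y : {v // P v} → A) (c : A) {v : W} (h : P v) :
    extW Y c v = Y ⟨v, h⟩ := dif_pos h

theorem extW_of_not_mem {A : Type*} (Y : {v // P v} → A) (c : A) {v : W} (h : ¬ P v) :
    extW Y c v = c := dif_neg h

theorem extB_of_mem {A : Type*} (Z : Option {b // Q b} → A) {b : B} (h : Q b) :
    extB Z b = Z (some ⟨b, h⟩) := dif_pos h

theorem extB_of_not_mem {A : Type*} (Z : Option {b // Q b} → A) {b : B} (h : ¬ Q b) :
    extB Z b = Z none := dif_neg h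

theorem extB_e (h : Cut T P Q w) {A : Type*} (Z : Option {b // Q b} → A) (k : ZMod 3)
    (v : {v // P v}) : extB Z (T.e k v.1) = Z ((inn h).e k v) := by
  by_cases hq : Q (T.e k v.1)
  · rw [extB_of_mem Z hq, inn_some h k v hq]
  · rw [extB_of_not_mem Z hq, inn_none h k v hq]

theorem extB_out (h : Cut T P Q w) {A : Type*} (Z : Option {b // Q b} → A) (k : ZMod 3)
    {v : W} (hv : ¬ P v) : extB Z (T.e k v) = Z none :=
  extB_of_not_mem Z (h.not_out k hv)

/-- connectedness of the inner triangulation -/
theorem CC.inn (hc : CC T) (h : Cut T P Q w) : CC (inn h) := by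
  intro Y Z hYZ v v' hv
  have h1 := hc (extW Y (Z none)) (extB Z) (fun k u => by
    by_cases hu : P u
    · rw [extW_of_mem Y _ hu, hYZ k ⟨u, hu⟩, ← extB_e h Z k ⟨u, hu⟩]
    · rw [extW_of_not_mem Y _ hu, extB_out h Z k hu])
  have h2 := h1 v.1 v'.1
  rw [extW_of_mem Y _ v.2, extW_of_mem Y _ v'.2] at h2
  exact h2 hv

/-- three-edge-connectedness of the inner triangulation -/
theorem Cut3.inn [Fintype W] [Fintype {v // P v}] (hc : Cut3 T) (h : Cut T P Q w) :
    Cut3 (inn h) := by
  classical
  intro Y Z hYZ
  have hcard : (bd T (extW Y (Z none)) (extB Z)).card ≤ 2 := by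
    refine le_trans ?_ hYZ
    refine Finset.card_le_card_of_injOn
      (fun x => if hx : P x.2 then (x.1, ⟨x.2, hx⟩) else (x.1, ⟨w 0, h.hP 0⟩)) ?_ ?_
    · intro x hx
      rw [Finset.mem_coe, mem_bd] at hx
      by_cases hu : P x.2
      · rw [extW_of_mem Y _ hu, extB_e h Z x.1 ⟨x.2, hu⟩] at hx
        simp only [dif_pos hu]
        rw [Finset.mem_coe, mem_bd]
        exact hx
      · rw [extW_of_not_mem Y _ hu, extB_out h Z x.1 hu] at hx
        exact absurd Iff.rfl hx
    · intro x hx y hy hxy
      rw [Finset.mem_coe, mem_bd] at hx hy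
      have hP : ∀ x : ZMod 3 × W, ¬ (extW Y (Z none) x.2 ↔ extB Z (T.e x.1 x.2)) → P x.2 := by
        intro x hx
        by_contra hu
        rw [extW_of_not_mem Y _ hu, extB_out h Z x.1 hu] at hx
        exact hx Iff.rfl
      have h1 := hP x hx
      have h2 := hP y hy
      simp only [dif_pos h1, dif_pos h2, Prod.mk.injEq, Subtype.mk.injEq] at hxy
      exact Prod.ext hxy.1 hxy.2
  have hout := h.hQ 0
  rcases hc _ _ hcard with ⟨h1, h2⟩ | ⟨h1, h2⟩
  · left
    refine ⟨fun v => ?_, fun o => ?_⟩
    · have := h1 v.1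
      rw [extW_of_mem Y _ v.2] at this
      exact this
    · cases o with
      | none =>
        have := h2 (T.e 0 (w 0))
        rw [extB_of_not_mem Z hout] at this
        exact this
      | some b =>
        have := h2 b.1
        rw [extB_of_mem Z b.2] at this
        exact this
  · right
    refine ⟨fun v => ?_, fun o => ?_⟩
    · have := h1 v.1
      rw [extW_of_mem Y _ v.2] at this
      exact this
    · cases o with
      | none =>
        have := h2 (T.e 0 (w 0))
        rw [extB_of_not_mem Z hout] at this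
        exact this
      | some b =>
        have := h2 b.1
        rw [extB_of_mem Z b.2] at this
        exact this

/-- a test function at a vertex of `T` restricts to a test function of the inner triangulation -/
theorem inn_inv [Fintype W] [Fintype B] (h : Cut T P Q w) (i : ZMod 3) (φ : W → ℚ)
    (hφ : ∀ w, φ (T.pi i w) = φ w) (v : {v // P v}) : φ ((inn h).pi i v).1 = φ v.1 := by
  rw [Tri.pi_apply]
  by_cases hq : Q (T.e (i + 1) v.1)
  · rw [inn_some h _ v hq, inn_symm_some]
    exact hφ v.1
  · rw [inn_none h _ v hq, inn_symm_none]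
    have h1 := h.eq_w _ v.2 hq
    rw [h1]
    exact (h.phi_eq i φ hφ).symm

/-- a function that is constant along the edges of the outside is constant on the outside -/
theorem out_const [Fintype W] [Fintype B] (hc : Cut3 T) (h : Cut T P Q w) (F : W → ℚ) (H : B → ℚ)
    (hFH : ∀ k v, ¬ P v → F v = H (T.e k v)) :
    ∀ b, ¬ Q b → H b = H (T.e 0 (w 0)) := by
  classical
  set c := H (T.e 0 (w 0)) with hcdef
  have hP0 : P (w 0) := h.hP 0
  -- all three boundary values are `c`
  have hb : ∀ k, H (T.e k (w k)) = c := by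
    by_contra hcon
    push Not at hcon
    obtain ⟨k, hk⟩ := hcon
    have hsub : bd T (fun v => ¬ P v ∧ F v = c) (fun b => ¬ Q b ∧ H b = c) ⊆
        (Finset.univ.erase k).image (fun j => (j, w j)) := by
      intro x hx
      rw [mem_bd] at hx
      rw [Finset.mem_image]
      refine ⟨x.1, ?_, ?_⟩
      · rw [Finset.mem_erase]
        refine ⟨?_, Finset.mem_univ _⟩
        rintro rfl
        apply hx
        by_cases hu : P x.2
        · constructor
          · intro h1; exact absurd hu h1.1
          · rintro ⟨h1, h2⟩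
            have h3 := h.eq_w _ hu h1
            rw [h3] at h2
            exact absurd h2 hk
        · have h1 := h.not_out x.1 hu
          rw [hFH x.1 x.2 hu]
          exact ⟨fun h2 => ⟨h1, h2.2⟩, fun h2 => ⟨hu, h2.2⟩⟩
      · refine Prod.ext rfl ?_
        show w x.1 = x.2
        by_contra hne
        apply hx
        have h4 := h.hcut x.1 x.2 (fun h' => hne h'.symm)
        by_cases hu : P x.2
        · exact ⟨fun h2 => absurd hu h2.1, fun h2 => absurd (h4.1 hu) h2.1⟩
        · have h1 := h.not_out x.1 hu
          rw [hFH x.1 x.2 hu]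
          exact ⟨fun h2 => ⟨h1, h2.2⟩, fun h2 => ⟨hu, h2.2⟩⟩
    have hcard : (bd T (fun v => ¬ P v ∧ F v = c) (fun b => ¬ Q b ∧ H b = c)).card ≤ 2 := by
      refine (Finset.card_le_card hsub).trans (Finset.card_image_le.trans ?_)
      rw [Finset.card_erase_of_mem (Finset.mem_univ _), Finset.card_univ, ZMod.card]
    rcases hc _ _ hcard with h1 | h1
    · exact (h1.1 (w 0)).1 hP0
    · exact h1.2 (T.e 0 (w 0)) ⟨h.hQ 0, rfl⟩
  -- the rest
  have hcard : (bd T (fun v => ¬ P v ∧ F v ≠ c) (fun b => ¬ Q b ∧ H b ≠ c)).card ≤ 2 := by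
    have hemp : bd T (fun v => ¬ P v ∧ F v ≠ c) (fun b => ¬ Q b ∧ H b ≠ c) = ∅ := by
      apply Finset.eq_empty_of_forall_notMem
      intro x hx
      rw [mem_bd] at hx
      apply hx
      by_cases hu : P x.2
      · constructor
        · intro h1; exact absurd hu h1.1
        · rintro ⟨h1, h2⟩
          have h3 := h.eq_w _ hu h1
          rw [h3] at h2
          exact absurd (hb x.1) h2
      · have h1 := h.not_out x.1 hu
        rw [hFH x.1 x.2 hu]
        exact ⟨fun h2 => ⟨h1, h2.2⟩, fun h2 => ⟨hu, h2.2⟩⟩
    rw [hemp]; simp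
  rcases hc _ _ hcard with h1 | h1
  · exact absurd hP0 (h1.1 (w 0)).1
  · intro b hq
    by_contra hne
    exact h1.2 b ⟨hq, hne⟩

/-- dual exactness of the inner triangulation -/
theorem DEx.inn [Fintype W] [Fintype B] [Fintype {v // P v}] (hd : DEx T) (hc : Cut3 T)
    (h : Cut T P Q w) : DEx (inn h) := by
  classical
  intro g hg
  obtain ⟨F, H, hFH⟩ := hd (fun k => extW (g k) 0) (fun i φ hφ => by
    have h1 := hg i (fun v => φ v.1) (fun v => inn_inv h i φ hφ v)
    have h2 : ∑ v : W, φ v * (extW (g (i + 1)) 0 v - extW (g (i + 2)) 0 v)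
        = ∑ v : {v // P v}, φ v.1 * (g (i + 1) v - g (i + 2) v) := by
      have h3 : ∑ v : {v // P v}, φ v.1 * (g (i + 1) v - g (i + 2) v)
          = ∑ v : {v // P v}, φ v.1 * (extW (g (i + 1)) 0 v.1 - extW (g (i + 2)) 0 v.1) := by
        refine Finset.sum_congr rfl (fun v _ => ?_)
        rw [extW_of_mem _ _ v.2, extW_of_mem _ _ v.2]
      rw [h3]
      have h4 : ∑ v ∈ Finset.univ.filter (fun v => P v),
          φ v * (extW (g (i + 1)) 0 v - extW (g (i + 2)) 0 v)
          = ∑ v : {v // P v}, φ v.1 * (extW (g (i + 1)) 0 v.1 - extW (g (i + 2)) 0 v.1) :=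
        Finset.sum_subtype _ (by simp) _
      have h5 : ∑ v ∈ Finset.univ.filter (fun v => P v),
          φ v * (extW (g (i + 1)) 0 v - extW (g (i + 2)) 0 v)
          = ∑ v : W, φ v * (extW (g (i + 1)) 0 v - extW (g (i + 2)) 0 v) := by
        rw [Finset.sum_filter]
        refine Finset.sum_congr rfl (fun v _ => ?_)
        by_cases hv : P v
        · rw [if_pos hv]
        · rw [if_neg hv, extW_of_not_mem _ _ hv, extW_of_not_mem _ _ hv]; ring
      rw [← h5, h4]
    rw [h2, h1])
  have hout := out_const hc h F H (fun k v hv => by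
    have := hFH k v
    simp only [extW_of_not_mem _ _ hv] at this
    linarith)
  refine ⟨fun v => F v.1, fun o => match o with
    | none => H (T.e 0 (w 0))
    | some b => H b.1, fun k v => ?_⟩
  have h1 := hFH k v.1
  simp only [extW_of_mem _ _ v.2] at h1
  by_cases hq : Q (T.e k v.1)
  · rw [inn_some h k v hq]
    exact h1
  · rw [inn_none h k v hq]
    show g k v = F v.1 - H (T.e 0 (w 0))
    rw [← hout _ hq]
    exact h1

end Crest.Agent.R039.Sum3
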