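import Crest.Agent.R039.Map834E

/-!
# Row 39: linear algebra of an abstract Eulerian triangulation `Tri W B`

For `T : Tri W B` with `T.Conn` (and `T.Genus0`):
* `conn_face`, `conn_vert` : functions constant across (along) edges are constant;
* `turn` : going around a vertex;
* `hzero` : `∂ ∂ = 0`;
* `primal_exact`, `dual_exact` : exactness over any field;
* `euler_le` : `|V_D| + |F_D| ≤ |E_D| + 1` for a connected subcomplex missing a face.

Edges are pairs `(w, k) : W × ZMod 3`: the edge of the white face `w` opposite to its vertex of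
colour `k`; it joins `T.p (k+1) w` and `T.p (k+2) w`, the black face behind it is `T.e k w`.
-/

set_option autoImplicit false
set_option linter.style.haveILetI false

namespace Crest.Agent.R039.TriLin

open Crest.Agent.R039.Map
open scoped Matrix

theorem z3_add1 (i : ZMod 3) : i + 1 ≠ i := by revert i; decide
theorem z3_add2 (i : ZMod 3) : i + 2 ≠ i := by revert i; decide
theorem z3_add12 (i : ZMod 3) : i + 1 ≠ i + 2 := by revert i; decide
theorem z3_11 (i : ZMod 3) : i + 1 + 1 = i + 2 := by revert i; decide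
theorem z3_12 (i : ZMod 3) : i + 1 + 2 = i := by revert i; decide
theorem z3_21 (i : ZMod 3) : i + 2 + 1 = i := by revert i; decide
theorem z3_22 (i : ZMod 3) : i + 2 + 2 = i + 1 := by revert i; decide
theorem z3_cases (i j : ZMod 3) : j = i ∨ j = i + 1 ∨ j = i + 2 := by revert i j; decide

theorem sum_zmod3 {A : Type*} [AddCommMonoid A] (f : ZMod 3 → A) (i : ZMod 3) :
    ∑ c, f c = f i + f (i + 1) + f (i + 2) := by
  have h : ∑ c, f c = f 0 + f 1 + f 2 := Fin.sum_univ_three f
  have key : i = 0 ∨ i = 1 ∨ i = 2 := by revert i; decide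
  rcases key with rfl | rfl | rfl
  · rw [h, zero_add, zero_add]
  · have h1 : (1 : ZMod 3) + 1 = 2 := by decide
    have h2 : (1 : ZMod 3) + 2 = 0 := by decide
    rw [h, h1, h2]; abel
  · have h1 : (2 : ZMod 3) + 1 = 0 := by decide
    have h2 : (2 : ZMod 3) + 2 = 1 := by decide
    rw [h, h1, h2]; abel

/-- sums over `k` may be shifted -/
theorem sum_shift {A : Type*} [AddCommMonoid A] (f : ZMod 3 → A) (i : ZMod 3) :
    ∑ c, f (c + i) = ∑ c, f c := Equiv.sum_comp (Equiv.addRight i) f

section basic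

variable {W B : Type*} (T : Tri W B)

theorem pi_apply (i : ZMod 3) (w : W) : T.pi i w = (T.e (i + 2)).symm (T.e (i + 1) w) := rfl

theorem e_pi (i : ZMod 3) (w : W) : T.e (i + 2) (T.pi i w) = T.e (i + 1) w := by
  rw [pi_apply, Equiv.apply_symm_apply]

theorem p_pi (i : ZMod 3) (w : W) : T.p i (T.pi i w) = T.p i w := by
  rw [T.p_eq_iff]
  exact ⟨rfl, Equiv.Perm.sameCycle_apply_left.2 (Equiv.Perm.SameCycle.refl _ _)⟩

theorem q_e {c c' : ZMod 3} (h : c' ≠ c) (w : W) : T.q c (T.e c' w) = T.p c w :=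
  T.bic.hpq c c' w h

theorem q_eq {c c' : ZMod 3} (h : c' ≠ c) (b : B) : T.q c b = T.p c ((T.e c').symm b) := by
  rw [← q_e T h, Equiv.apply_symm_apply]

theorem exists_p (v : T.Vert) : ∃ w, T.p v.1 w = v := by
  obtain ⟨i, x⟩ := v
  obtain ⟨w, rfl⟩ := Quotient.exists_rep x
  exact ⟨w, rfl⟩

theorem p_fst (i : ZMod 3) (w : W) : (T.p i w).1 = i := rfl
theorem q_fst (i : ZMod 3) (b : B) : (T.q i b).1 = i := rfl

theorem p_col {i j : ZMod 3} {w w' : W} (h : T.p i w = T.p j w') : i = j := congrArg Sigma.fst h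

theorem p_ne {i j : ZMod 3} (h : i ≠ j) (w w' : W) : T.p i w ≠ T.p j w' :=
  fun h' => h (p_col T h')

/-- a function on faces that is constant across every edge is constant -/
theorem conn_face (hc : T.Conn) {A : Type*} (h : W ⊕ B → A)
    (hh : ∀ (w : W) (k : ZMod 3), h (Sum.inl w) = h (Sum.inr (T.e k w))) (x y : W ⊕ B) :
    h x = h y := by
  have h1 : ∀ x : W ⊕ B, ∃ w : W, h x = h (Sum.inl w) := by
    rintro (w | b)
    · exact ⟨w, rfl⟩
    · exact ⟨(T.e 0).symm b, by rw [hh _ 0, Equiv.apply_symm_apply]⟩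
  have h2 : ∀ w w' : W, h (Sum.inl w) = h (Sum.inl w') := by
    intro w w'
    have h3 := hc {v | h (Sum.inl v) = h (Sum.inl w')} ⟨w', rfl⟩ (by
      intro i v hv
      show h (Sum.inl (T.pi i v)) = h (Sum.inl w')
      rw [hh _ (i + 2), e_pi, ← hh v (i + 1)]
      exact hv)
    have : w ∈ {v | h (Sum.inl v) = h (Sum.inl w')} := by rw [h3]; trivial
    exact this
  obtain ⟨w, hw⟩ := h1 x
  obtain ⟨w', hw'⟩ := h1 y
  rw [hw, hw', h2 w w']

/-- a function on vertices that is constant along every edge is constant -/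
theorem conn_vert (hc : T.Conn) {A : Type*} (h : T.Vert → A)
    (hh : ∀ (w : W) (k : ZMod 3), h (T.p (k + 1) w) = h (T.p (k + 2) w)) (x y : T.Vert) :
    h x = h y := by
  have h0 : ∀ (w : W) (i j : ZMod 3), h (T.p i w) = h (T.p j w) := by
    intro w i j
    have e1 : ∀ i, h (T.p i w) = h (T.p (i + 1) w) := by
      intro i
      have := hh w (i + 2)
      rw [z3_21, z3_22] at this
      exact this
    rcases z3_cases i j with rfl | rfl | rfl
    · rfl
    · exact e1 i
    · rw [e1 i, e1 (i + 1), z3_11]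
  have h2 : ∀ w w' : W, h (T.p 0 w) = h (T.p 0 w') := by
    intro w w'
    have h3 := hc {v | h (T.p 0 v) = h (T.p 0 w')} ⟨w', rfl⟩ (by
      intro i v hv
      show h (T.p 0 (T.pi i v)) = h (T.p 0 w')
      rw [h0 _ 0 i, p_pi, h0 _ i 0]
      exact hv)
    have : w ∈ {v | h (T.p 0 v) = h (T.p 0 w')} := by rw [h3]; trivial
    exact this
  obtain ⟨w, hw⟩ := exists_p T x
  obtain ⟨w', hw'⟩ := exists_p T y
  rw [← hw, ← hw', h0 w _ 0, h0 w' _ 0, h2 w w']

/-- the two ends of an edge and the two faces at an edge -/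
def src (d : W × ZMod 3) : T.Vert := T.p (d.2 + 1) d.1
/-- the second end of an edge -/
def tgt (d : W × ZMod 3) : T.Vert := T.p (d.2 + 2) d.1
/-- the white face of an edge -/
def wf (d : W × ZMod 3) : W ⊕ B := Sum.inl d.1
/-- the black face of an edge -/
def bf (d : W × ZMod 3) : W ⊕ B := Sum.inr (T.e d.2 d.1)

end basic

section fin

variable {W B : Type*} [Fintype W] [DecidableEq W] [DecidableEq B] (T : Tri W B)

omit [DecidableEq W] [DecidableEq B] in
/-- going around the vertex `v`: sums over `e (i+1) w` and over `e (i+2) w`, `w ∋ v`, agree -/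
theorem turn [DecidableEq T.Vert] {A : Type*} [AddCommMonoid A] (f : B → A) (i : ZMod 3)
    (v : T.Vert) :
    ∑ w, (if T.p i w = v then f (T.e (i + 1) w) else 0)
      = ∑ w, (if T.p i w = v then f (T.e (i + 2) w) else 0) := by
  rw [← Equiv.sum_comp (T.pi i) (fun w => if T.p i w = v then f (T.e (i + 2) w) else 0)]
  refine Finset.sum_congr rfl (fun w _ => ?_)
  rw [p_pi, e_pi]

omit [DecidableEq W] [DecidableEq B] in
/-- the value of the boundary of an edge function at a vertex -/
theorem inc_vert {F : Type*} [Field F] [DecidableEq T.Vert] (g : W × ZMod 3 → F) (v : T.Vert) :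
    ((inc F (src T) (tgt T)) *ᵥ g) v
      = ∑ w, (if T.p v.1 w = v then g (w, v.1 + 2) - g (w, v.1 + 1) else 0) := by
  rw [inc_mulVec, Fintype.sum_prod_type]
  refine Finset.sum_congr rfl (fun w _ => ?_)
  show ∑ k, ((if T.p (k + 1) w = v then g (w, k) else 0) - (if T.p (k + 2) w = v then g (w, k) else 0))
    = _
  rw [sum_zmod3 _ v.1]
  have n : ∀ k, k ≠ v.1 → ¬ T.p k w = v := by
    rintro k hk rfl; exact hk rfl
  rw [if_neg (n _ (z3_add1 v.1)), if_neg (n _ (z3_add2 v.1)), z3_11, z3_12, z3_21, z3_22,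
    if_neg (n _ (z3_add2 v.1)), if_neg (n _ (z3_add1 v.1))]
  split_ifs <;> ring

omit [DecidableEq W] [DecidableEq B] in
/-- `∂ ∂ = 0` -/
theorem hzero {F : Type*} [Field F] [DecidableEq T.Vert] (f : W ⊕ B → F) :
    (inc F (src T) (tgt T)) *ᵥ (fun d => f (wf (B := B) d) - f (bf T d)) = 0 := by
  funext v
  rw [inc_vert]
  show ∑ w, (if T.p v.1 w = v then (f (Sum.inl w) - f (Sum.inr (T.e (v.1 + 2) w)))
    - (f (Sum.inl w) - f (Sum.inr (T.e (v.1 + 1) w))) else 0) = 0
  have e1 : ∀ w, (if T.p v.1 w = v then (f (Sum.inl w) - f (Sum.inr (T.e (v.1 + 2) w)))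
      - (f (Sum.inl w) - f (Sum.inr (T.e (v.1 + 1) w))) else 0)
      = (if T.p v.1 w = v then f (Sum.inr (T.e (v.1 + 1) w)) else 0)
        - (if T.p v.1 w = v then f (Sum.inr (T.e (v.1 + 2) w)) else 0) := by
    intro w; split_ifs <;> ring
  rw [Finset.sum_congr rfl (fun w _ => e1 w), Finset.sum_sub_distrib,
    turn T (fun b => f (Sum.inr b)), sub_self]

/-- the boundary of an edge function at a white face -/
theorem inc_face_white {F : Type*} [Field F] (g : W × ZMod 3 → F) (w : W) :
    ((inc F (wf (B := B)) (bf T)) *ᵥ g) (Sum.inl w) = ∑ k, g (w, k) := by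
  rw [inc_mulVec, Fintype.sum_prod_type]
  have e1 : ∀ (w' : W) (k : ZMod 3), ((if wf (B := B) (w', k) = Sum.inl w then g (w', k) else 0)
      - (if bf T (w', k) = Sum.inl w then g (w', k) else 0)) = if w' = w then g (w', k) else 0 := by
    intro w' k
    have h1 : (wf (B := B) (w', k) = Sum.inl w) ↔ w' = w := Sum.inl_injective.eq_iff
    have h2 : ¬ (bf T (w', k) = Sum.inl w) := fun h => Sum.inr_ne_inl h
    rw [if_neg h2, sub_zero]
    by_cases h : w' = w
    · rw [if_pos (h1.2 h), if_pos h]
    · rw [if_neg (fun h' => h (h1.1 h')), if_neg h]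
  rw [Finset.sum_congr rfl (fun w' _ => Finset.sum_congr rfl (fun k _ => e1 w' k))]
  rw [Finset.sum_eq_single w]
  · exact Finset.sum_congr rfl (fun k _ => if_pos rfl)
  · intro w' _ hne
    exact Finset.sum_eq_zero (fun k _ => if_neg hne)
  · intro h; exact absurd (Finset.mem_univ _) h

/-- the boundary of an edge function at a black face -/
theorem inc_face_black {F : Type*} [Field F] (g : W × ZMod 3 → F) (b : B) :
    ((inc F (wf (B := B)) (bf T)) *ᵥ g) (Sum.inr b) = - ∑ k, g ((T.e k).symm b, k) := by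
  rw [inc_mulVec, Fintype.sum_prod_type_right, ← Finset.sum_neg_distrib]
  refine Finset.sum_congr rfl (fun k _ => ?_)
  have e1 : ∀ w' : W, ((if wf (B := B) (w', k) = Sum.inr b then g (w', k) else 0)
      - (if bf T (w', k) = Sum.inr b then g (w', k) else 0))
      = if w' = (T.e k).symm b then - g (w', k) else 0 := by
    intro w'
    have h1 : ¬ (wf (B := B) (w', k) = Sum.inr b) := fun h => Sum.inl_ne_inr h
    have h2 : (bf T (w', k) = Sum.inr b) ↔ w' = (T.e k).symm b := by
      rw [Equiv.eq_symm_apply]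
      exact Sum.inr_injective.eq_iff
    rw [if_neg h1, zero_sub]
    by_cases h : w' = (T.e k).symm b
    · rw [if_pos (h2.2 h), if_pos h]
    · rw [if_neg (fun h' => h (h2.1 h')), if_neg h, neg_zero]
  rw [Finset.sum_congr rfl (fun w' _ => e1 w'), Finset.sum_ite_eq', if_pos (Finset.mem_univ _)]

variable [Fintype B]

omit [DecidableEq W] [DecidableEq B] [Fintype B] in
instance finite_vert [Finite W] : Finite T.Vert := by
  unfold Tri.Vert Tri.VertC
  infer_instance

omit [DecidableEq W] [DecidableEq B] in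
include T in
theorem card_B : Fintype.card B = Fintype.card W := Fintype.card_congr (T.e 0).symm

omit [DecidableEq W] [DecidableEq B] in
theorem euler_total (hg : T.Genus0) [Fintype T.Vert] :
    Fintype.card (W × ZMod 3) + 2 = Fintype.card (W ⊕ B) + Fintype.card T.Vert := by
  have h1 : Fintype.card T.Vert = Fintype.card W + 2 := by
    have := hg
    unfold Tri.Genus0 at this
    rwa [Nat.card_eq_fintype_card, Nat.card_eq_fintype_card] at this
  have h2 := card_B T
  rw [Fintype.card_prod, ZMod.card, Fintype.card_sum]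
  omega

/-- EXACTNESS, primal form: an edge function with zero sum around every white and every black face
is the difference of a vertex function -/
theorem primal_exact (hc : T.Conn) (hg : T.Genus0) {F : Type*} [Field F] (g : ZMod 3 → W → F)
    (hw : ∀ w, ∑ k, g k w = 0) (hb : ∀ b, ∑ k, g k ((T.e k).symm b) = 0) :
    ∃ f : T.Vert → F, ∀ k w, f (T.p (k + 1) w) - f (T.p (k + 2) w) = g k w := by
  classical
  haveI : Fintype T.Vert := Fintype.ofFinite _
  obtain ⟨f, hf⟩ := exists_primitive (F := F) (wf (B := B)) (bf T) (src T) (tgt T)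
    (fun h hh => conn_face T hc h (fun w k => hh (w, k)))
    (fun h hh => conn_vert T hc h (fun w k => hh (w, k)))
    (by
      intro f
      funext x
      rcases x with w | b
      · rw [inc_face_white]
        show ∑ k, (f (T.p (k + 1) w) - f (T.p (k + 2) w)) = 0
        rw [Finset.sum_sub_distrib, sum_shift (fun k => f (T.p k w)) 1,
          sum_shift (fun k => f (T.p k w)) 2, sub_self]
      · rw [inc_face_black]
        show - ∑ k, (f (T.p (k + 1) ((T.e k).symm b)) - f (T.p (k + 2) ((T.e k).symm b))) = 0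
        have e1 : ∀ k, (f (T.p (k + 1) ((T.e k).symm b)) - f (T.p (k + 2) ((T.e k).symm b)))
            = f (T.q (k + 1) b) - f (T.q (k + 2) b) := by
          intro k
          rw [q_eq T (Ne.symm (z3_add1 k)) b, q_eq T (Ne.symm (z3_add2 k)) b]
        rw [Finset.sum_congr rfl (fun k _ => e1 k), Finset.sum_sub_distrib,
          sum_shift (fun k => f (T.q k b)) 1, sum_shift (fun k => f (T.q k b)) 2, sub_self,
          neg_zero])
    (by have := euler_total T hg; omega)
    (fun d => g d.2 d.1) (by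
      funext x
      rcases x with w | b
      · rw [inc_face_white]; exact hw w
      · rw [inc_face_black]; show - ∑ k, g k ((T.e k).symm b) = 0; rw [hb b, neg_zero])
  exact ⟨f, fun k w => hf (w, k)⟩

/-- EXACTNESS, dual form: an edge function with alternating sum zero around every vertex is the
difference of a face function -/
theorem dual_exact (hc : T.Conn) (hg : T.Genus0) [DecidableEq T.Vert] {F : Type*} [Field F]
    (g : ZMod 3 → W → F)
    (hx : ∀ i w0, ∑ w : W, (if T.p i w = T.p i w0 then g (i + 1) w - g (i + 2) w else 0) = 0) :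
    ∃ h : W ⊕ B → F, ∀ k w, h (Sum.inl w) - h (Sum.inr (T.e k w)) = g k w := by
  haveI : Fintype T.Vert := Fintype.ofFinite _
  obtain ⟨f, hf⟩ := exists_primitive (F := F) (src T) (tgt T) (wf (B := B)) (bf T)
    (fun h hh => conn_vert T hc h (fun w k => hh (w, k)))
    (fun h hh => conn_face T hc h (fun w k => hh (w, k)))
    (hzero T)
    (by have := euler_total T hg; omega)
    (fun d => g d.2 d.1) (by
      funext v
      rw [inc_vert]
      obtain ⟨w0, hw0⟩ := exists_p T v
      have := hx v.1 w0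
      rw [hw0] at this
      show ∑ w, (if T.p v.1 w = v then g (v.1 + 2) w - g (v.1 + 1) w else 0) = 0
      have e1 : ∀ w, (if T.p v.1 w = v then g (v.1 + 2) w - g (v.1 + 1) w else 0)
          = - (if T.p v.1 w = v then g (v.1 + 1) w - g (v.1 + 2) w else 0) := by
        intro w
        split_ifs <;> ring
      rw [Finset.sum_congr rfl (fun w _ => e1 w), Finset.sum_neg_distrib, this, neg_zero])
  exact ⟨f, fun k w => hf (w, k)⟩

omit [DecidableEq W] [DecidableEq B] in
/-- EULER INEQUALITY for a connected subcomplex that misses a face -/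
theorem euler_le (hc : T.Conn) (VD : Set T.Vert) (ED : Set (W × ZMod 3)) (FW : Set W) (FB : Set B)
    (h1 : ∀ w k, (w, k) ∈ ED → T.p (k + 1) w ∈ VD ∧ T.p (k + 2) w ∈ VD)
    (h2 : ∀ w ∈ FW, ∀ k, (w, k) ∈ ED) (h3 : ∀ w k, T.e k w ∈ FB → (w, k) ∈ ED)
    (hconn : ∀ h : T.Vert → ℚ, (∀ w k, (w, k) ∈ ED → h (T.p (k + 1) w) = h (T.p (k + 2) w)) →
      ∀ v ∈ VD, ∀ v' ∈ VD, h v = h v')
    (hne : (∃ w, w ∉ FW) ∨ ∃ b, b ∉ FB) :
    VD.ncard + FW.ncard + FB.ncard ≤ ED.ncard + 1 := by
  classical
  haveI : Fintype T.Vert := Fintype.ofFinite _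
  haveI : Fintype VD := Fintype.ofFinite _
  haveI : Fintype ED := Fintype.ofFinite _
  let FD : Set (W ⊕ B) := {x | Sum.elim (· ∈ FW) (· ∈ FB) x}
  haveI : Fintype FD := Fintype.ofFinite _
  -- the vertex boundary
  let s : ED → VD := fun d => ⟨T.p (d.1.2 + 1) d.1.1, (h1 d.1.1 d.1.2 d.2).1⟩
  let t : ED → VD := fun d => ⟨T.p (d.1.2 + 2) d.1.1, (h1 d.1.1 d.1.2 d.2).2⟩
  have hr : Fintype.card VD ≤ (inc ℚ s t).rank + 1 := by
    refine card_le_rank_inc s t (fun h hh x y => ?_)
    have := hconn (fun v => if hv : v ∈ VD then h ⟨v, hv⟩ else 0) (fun w k hwk => by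
      show (if hv : T.p (k + 1) w ∈ VD then h ⟨_, hv⟩ else 0)
        = (if hv : T.p (k + 2) w ∈ VD then h ⟨_, hv⟩ else 0)
      rw [dif_pos (h1 w k hwk).1, dif_pos (h1 w k hwk).2]
      exact hh ⟨(w, k), hwk⟩) x.1 x.2 y.1 y.2
    simp only [dif_pos x.2, dif_pos y.2] at this
    exact this
  -- the face boundary
  let ext : (FD → ℚ) →ₗ[ℚ] (W ⊕ B → ℚ) :=
    { toFun := fun f x => if hx : x ∈ FD then f ⟨x, hx⟩ else 0
      map_add' := by
        intro f g; funext x
        show (if hx : x ∈ FD then (f + g) ⟨x, hx⟩ else 0)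
          = (if hx : x ∈ FD then f ⟨x, hx⟩ else 0) + (if hx : x ∈ FD then g ⟨x, hx⟩ else 0)
        by_cases hx : x ∈ FD
        · rw [dif_pos hx, dif_pos hx, dif_pos hx]; rfl
        · rw [dif_neg hx, dif_neg hx, dif_neg hx, add_zero]
      map_smul' := by
        intro c f; funext x
        show (if hx : x ∈ FD then (c • f) ⟨x, hx⟩ else 0)
          = c • (if hx : x ∈ FD then f ⟨x, hx⟩ else 0)
        by_cases hx : x ∈ FD
        · rw [dif_pos hx, dif_pos hx]; rfl
        · rw [dif_neg hx, dif_neg hx, smul_zero] }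
  have hext : ∀ f x (hx : x ∈ FD), ext f x = f ⟨x, hx⟩ := fun f x hx => dif_pos hx
  have hext0 : ∀ f x, x ∉ FD → ext f x = 0 := fun f x hx => dif_neg hx
  let bd : (FD → ℚ) →ₗ[ℚ] (ED → ℚ) :=
    { toFun := fun f d => ext f (wf (B := B) d.1) - ext f (bf T d.1)
      map_add' := by
        intro f g; funext d
        simp only [map_add, Pi.add_apply]; ring
      map_smul' := by
        intro c f; funext d
        simp only [map_smul, Pi.smul_apply, RingHom.id_apply, smul_eq_mul]; ring }
  -- outside `ED` both faces are outside `FD`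
  have hout : ∀ f (d : W × ZMod 3), d ∉ ED → ext f (wf (B := B) d) - ext f (bf T d) = 0 := by
    intro f d hd
    rw [hext0, hext0, sub_zero]
    · intro hx; exact hd (h3 d.1 d.2 hx)
    · intro hx; exact hd (h2 d.1 hx d.2)
  have hinj : Function.Injective bd := by
    rw [← LinearMap.ker_eq_bot, LinearMap.ker_eq_bot']
    intro f hf
    have hall : ∀ (w : W) (k : ZMod 3), ext f (Sum.inl w) = ext f (Sum.inr (T.e k w)) := by
      intro w k
      by_cases hd : (w, k) ∈ ED
      · have := congrFun hf ⟨(w, k), hd⟩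
        exact sub_eq_zero.1 this
      · exact sub_eq_zero.1 (hout f (w, k) hd)
    have hconst := conn_face T hc (ext f) hall
    have hz : ∃ x, ext f x = 0 := by
      rcases hne with ⟨w, hw⟩ | ⟨b, hb⟩
      · exact ⟨Sum.inl w, hext0 f _ hw⟩
      · exact ⟨Sum.inr b, hext0 f _ hb⟩
    obtain ⟨x0, hx0⟩ := hz
    funext x
    rw [← hext f x.1 x.2, hconst x.1 x0, hx0]; rfl
  have hle : LinearMap.range bd ≤ LinearMap.ker ((inc ℚ s t).mulVecLin) := by
    rintro _ ⟨f, rfl⟩
    rw [LinearMap.mem_ker, Matrix.mulVecLin_apply]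
    funext v
    have h0 := congrFun (hzero T (ext f)) v.1
    rw [inc_mulVec] at h0
    rw [inc_mulVec]
    refine Eq.trans ?_ h0
    have e2 : ∀ d : W × ZMod 3, d ∉ ED →
        (if src T d = v.1 then ext f (wf (B := B) d) - ext f (bf T d) else 0)
          - (if tgt T d = v.1 then ext f (wf (B := B) d) - ext f (bf T d) else 0) = 0 := by
      intro d hd
      rw [hout f d hd, ite_self, ite_self, sub_zero]
    rw [← Finset.sum_subset (Finset.subset_univ (Finset.univ.filter (· ∈ ED))) (by
      intro d _ hd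
      exact e2 d (fun h => hd (Finset.mem_filter.2 ⟨Finset.mem_univ _, h⟩)))]
    rw [Finset.sum_subtype (p := (· ∈ ED)) (Finset.univ.filter (· ∈ ED)) (by simp)]
    refine Finset.sum_congr rfl (fun d _ => ?_)
    have e3 : (s d = v) ↔ (src T d.1 = v.1) := Subtype.ext_iff
    have e4 : (t d = v) ↔ (tgt T d.1 = v.1) := Subtype.ext_iff
    have e5 : bd f d = ext f (wf (B := B) d.1) - ext f (bf T d.1) := rfl
    rw [e5]
    simp only [e3, e4]
  have hrn := LinearMap.finrank_range_add_finrank_ker ((inc ℚ s t).mulVecLin)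
  rw [Module.finrank_fintype_fun_eq_card] at hrn
  have h5 : (inc ℚ s t).rank = Module.finrank ℚ (LinearMap.range ((inc ℚ s t).mulVecLin)) := rfl
  have h6 := LinearMap.finrank_range_of_inj hinj
  rw [Module.finrank_fintype_fun_eq_card] at h6
  have h7 := Submodule.finrank_mono hle
  have h8 : Fintype.card FD = FW.ncard + FB.ncard := by
    have e : FD = (Sum.inl '' FW) ∪ (Sum.inr '' FB) := by
      ext x
      rcases x with w | b
      · show w ∈ FW ↔ _
        simp
      · show b ∈ FB ↔ _
        simp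
    rw [← Nat.card_eq_fintype_card, Nat.card_coe_set_eq, e, Set.ncard_union_eq,
      Set.ncard_image_of_injective _ Sum.inl_injective,
      Set.ncard_image_of_injective _ Sum.inr_injective]
    · rw [Set.disjoint_left]
      rintro x ⟨w, _, rfl⟩ ⟨b, _, h⟩
      exact Sum.inr_ne_inl h
  have h9 : Fintype.card VD = VD.ncard := by
    rw [← Nat.card_eq_fintype_card, Nat.card_coe_set_eq]
  have h10 : Fintype.card ED = ED.ncard := by
    rw [← Nat.card_eq_fintype_card, Nat.card_coe_set_eq]
  omega

end fin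

end Crest.Agent.R039.TriLin
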